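import Vale.Agent.P281.ELL.Slice

/-!
# P281, elliptic fibrations: the changes of uniformization are affine
-/

open scoped Manifold ContDiff Topology
open Set Filter Metric

namespace Vale.Agent.P281.ELL

open Vale.Agent.P281 Vale.Agent.P281.MF Vale.Agent.P281.ISO

set_option linter.unusedSectionVars false

universe u

section Affine

variable {E E' : Type} [NormedAddCommGroup E] [NormedSpace ℂ E] [FiniteDimensional ℂ E]
  [NormedAddCommGroup E'] [NormedSpace ℂ E'] [FiniteDimensional ℂ E']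
variable {X Y : Type u} [TopologicalSpace X] [ChartedSpace E X] [IsManifold 𝓘(ℂ, E) ω X]
  [TopologicalSpace Y] [ChartedSpace E' Y] [IsManifold 𝓘(ℂ, E') ω Y]

/-- local section of a fibre coordinate in a fibre. -/
theorem coord_section {f : X → Y} {ζ : X → ℂ} {x₀ : X} (hf : HolM E E' f x₀) (hq : HolV E ζ x₀)
    (e₀ : E ≃L[ℂ] (E' × ℂ)) (himm : ∀ ξ, dM E E' f x₀ ξ = 0 → dV E ζ x₀ ξ = 0 → ξ = 0) :
    ∃ ψ : ℂ → X, ContMDiffAt 𝓘(ℂ, ℂ) 𝓘(ℂ, E) ω ψ (ζ x₀) ∧ ψ (ζ x₀) = x₀ ∧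
      ∀ᶠ p in 𝓝 (ζ x₀), f (ψ p) = f x₀ ∧ ζ (ψ p) = p := by
  have : CompleteSpace E := FiniteDimensional.complete ℂ E
  set φ := chartAt E x₀ with hφ
  set ψY := chartAt E' (f x₀) with hψY
  have hxs : x₀ ∈ φ.source := mem_chart_source E x₀
  have hys : f x₀ ∈ ψY.source := mem_chart_source E' (f x₀)
  have h1 : HolV E (fun z => ψY (f z)) x₀ := HolV.comp (h := (ψY : Y → E')) (HolV.chart hys) hf
  have hG1 : ContDiffAt ℂ ω ((fun z => ψY (f z)) ∘ φ.symm) (φ x₀) := h1.rep hxs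
  have hG2 : ContDiffAt ℂ ω (ζ ∘ φ.symm) (φ x₀) := hq.rep hxs
  set G : E → E' × ℂ := fun v => (ψY (f (φ.symm v)), ζ (φ.symm v)) with hG
  have hGc : ContDiffAt ℂ ω G (φ x₀) := hG1.prodMk hG2
  set L₁ := fderiv ℂ ((fun z => ψY (f z)) ∘ φ.symm) (φ x₀) with hL₁
  set L₂ := fderiv ℂ (ζ ∘ φ.symm) (φ x₀) with hL₂
  have hGd : HasFDerivAt G (L₁.prod L₂) (φ x₀) :=
    (hG1.differentiableAt (by simp)).hasFDerivAt.prodMk
      (hG2.differentiableAt (by simp)).hasFDerivAt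
  have d1 : (dV E' (ψY : Y → E') (f x₀)).comp (dM E E' f x₀) =
      L₁.comp (dV E (φ : X → E) x₀) := by
    have h9 := dV_comp (h := (ψY : Y → E')) (HolV.chart hys) hf
    rw [← h9]
    exact dV_eq_chart hxs h1
  have d2 : dV E ζ x₀ = L₂.comp (dV E (φ : X → E) x₀) := dV_eq_chart hxs hq
  have hinj : Function.Injective (L₁.prod L₂) := by
    rw [injective_iff_map_eq_zero]
    intro v hv
    obtain ⟨ξ, rfl⟩ := dV_chart_surj (E := E) hxs v
    have hv1 : L₁ (dV E (φ : X → E) x₀ ξ) = 0 := (Prod.mk.inj hv).1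
    have hv2 : L₂ (dV E (φ : X → E) x₀ ξ) = 0 := (Prod.mk.inj hv).2
    have e1 := congrArg (fun T : E →L[ℂ] E' => T ξ) d1
    have e4 := congrArg (fun T : E →L[ℂ] ℂ => T ξ) d2
    simp only [ContinuousLinearMap.comp_apply] at e1 e4
    rw [hv1] at e1
    rw [hv2] at e4
    obtain ⟨A₁, hA₁⟩ := dV_chart_leftInv (E := E') hys
    have e3 : dM E E' f x₀ ξ = 0 := by
      have := congrArg (fun T : E' →L[ℂ] E' => T (dM E E' f x₀ ξ)) hA₁
      simp only [ContinuousLinearMap.comp_apply, ContinuousLinearMap.id_apply] at this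
      rw [← this, e1, map_zero]
    rw [himm ξ e3 e4, map_zero]
  have hbij : Function.Bijective ((L₁.prod L₂ : E →L[ℂ] (E' × ℂ)) : E →ₗ[ℂ] (E' × ℂ)) := by
    refine ⟨hinj, ?_⟩
    have h3 : Function.Injective (((L₁.prod L₂ : E →L[ℂ] (E' × ℂ)) : E →ₗ[ℂ] (E' × ℂ)) ∘ₗ
        (e₀.symm.toLinearEquiv : (E' × ℂ) →ₗ[ℂ] E)) := hinj.comp e₀.symm.injective
    have h4 := LinearMap.surjective_of_injective h3
    intro w
    obtain ⟨v, hv⟩ := h4 w
    exact ⟨e₀.symm v, hv⟩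
  let L : E ≃L[ℂ] (E' × ℂ) := (LinearEquiv.ofBijective _ hbij).toContinuousLinearEquiv
  have hL : (L : E →L[ℂ] (E' × ℂ)) = L₁.prod L₂ := by ext v <;> rfl
  have hGd' : HasFDerivAt G (L : E →L[ℂ] (E' × ℂ)) (φ x₀) := by rw [hL]; exact hGd
  have hn : (ω : WithTop ℕ∞) ≠ 0 := by simp
  set R := hGc.localInverse hGd' hn with hR
  have hRc : ContDiffAt ℂ ω R (G (φ x₀)) := hGc.to_localInverse hGd' hn
  have hstr : HasStrictFDerivAt G (L : E →L[ℂ] (E' × ℂ)) (φ x₀) :=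
    hGc.hasStrictFDerivAt' hGd' hn
  have hRr : ∀ᶠ w in 𝓝 (G (φ x₀)), G (R w) = w := hstr.eventually_right_inverse
  have hR0 : R (G (φ x₀)) = φ x₀ := hGc.localInverse_apply_image hGd' hn
  have hG0 : G (φ x₀) = (ψY (f x₀), ζ x₀) := by
    simp only [hG, φ.left_inv hxs]
  have hj : ContDiffAt ℂ ω (fun p : ℂ => (ψY (f x₀), p)) (ζ x₀) :=
    contDiffAt_const.prodMk contDiffAt_id
  have hRj : ContDiffAt ℂ ω (fun p : ℂ => R (ψY (f x₀), p)) (ζ x₀) := by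
    have h9 : ContDiffAt ℂ ω R ((fun p : ℂ => (ψY (f x₀), p)) (ζ x₀)) := by
      show ContDiffAt ℂ ω R (ψY (f x₀), ζ x₀)
      rw [← hG0]; exact hRc
    exact h9.comp (ζ x₀) hj
  have hRjM : ContMDiffAt 𝓘(ℂ, ℂ) 𝓘(ℂ, E) ω (fun p : ℂ => R (ψY (f x₀), p)) (ζ x₀) :=
    contMDiffAt_iff_contDiffAt.2 hRj
  have hsymm : ContMDiffAt 𝓘(ℂ, E) 𝓘(ℂ, E) ω φ.symm (R (ψY (f x₀), ζ x₀)) := by
    rw [← hG0, hR0]
    exact contMDiffAt_symm_of_mem_maximalAtlas (IsManifold.chart_mem_maximalAtlas x₀)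
      (φ.map_source hxs)
  have hψh : ContMDiffAt 𝓘(ℂ, ℂ) 𝓘(ℂ, E) ω (fun p => φ.symm (R (ψY (f x₀), p))) (ζ x₀) :=
    ContMDiffAt.comp (ζ x₀) hsymm hRjM
  have hψ0 : φ.symm (R (ψY (f x₀), ζ x₀)) = x₀ := by
    rw [← hG0, hR0, φ.left_inv hxs]
  refine ⟨fun p => φ.symm (R (ψY (f x₀), p)), hψh, hψ0, ?_⟩
  have hψc : Tendsto (fun p => φ.symm (R (ψY (f x₀), p))) (𝓝 (ζ x₀)) (𝓝 x₀) := by
    have := hψh.continuousAt.tendsto
    simp only [hψ0] at this
    exact this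
  have hjc : Tendsto (fun p : ℂ => (ψY (f x₀), p)) (𝓝 (ζ x₀)) (𝓝 (G (φ x₀))) := by
    have := hj.continuousAt.tendsto
    rw [hG0]
    exact this
  filter_upwards [hjc.eventually hRr,
    hψc.eventually (hf.continuousAt.eventually (ψY.open_source.mem_nhds hys))] with p h3 h4
  have h7 : ψY (f (φ.symm (R (ψY (f x₀), p)))) = ψY (f x₀) := (Prod.mk.inj h3).1
  have h8 : ζ (φ.symm (R (ψY (f x₀), p))) = p := (Prod.mk.inj h3).2
  exact ⟨ψY.injOn h4 hys h7, h8⟩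

/-- the conditions on one local uniformization. -/
def One (E E' : Type) [NormedAddCommGroup E] [NormedSpace ℂ E]
    [NormedAddCommGroup E'] [NormedSpace ℂ E'] {X Y : Type u} [TopologicalSpace X]
    [ChartedSpace E X] [TopologicalSpace Y] [ChartedSpace E' Y] (f : X → Y) (U : Set Y)
    (τ : Y → ℂ) (π : Y → ℂ → X) : Prop :=
  IsOpen U ∧
    (∀ y ∈ U, J.HolAt E' τ y ∧ 0 < (τ y).im ∧ ∀ w w', f (π y w) = y ∧
      (π y w = π y w' ↔ ∃ m n : ℤ, w' = w + m + n * τ y)) ∧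
    ∀ x, f x ∈ U → ∃ ζ : X → ℂ, J.HolAt E ζ x ∧ (∀ᶠ z in 𝓝 x, π (f z) (ζ z) = z) ∧
      ∀ ξ : E, mfderiv 𝓘(ℂ, E) 𝓘(ℂ, E') f x ξ = 0 → J.dif E ζ x ξ = 0 → ξ = 0

theorem One.fam {f : X → Y} {U : Set Y} {τ : Y → ℂ} {π : Y → ℂ → X} (h : One E E' f U τ π) :
    J.IsEllipticFamily E E' f Uᶜ (fun _ : PUnit.{u + 1} => U) (fun _ => τ) (fun _ => π) := by
  refine ⟨fun y => ?_, fun _ => h, fun a b y hy => ⟨1, 0, fun w => ?_⟩⟩
  · rw [mem_compl_iff, not_not]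
    exact ⟨fun hy => ⟨PUnit.unit, hy⟩, fun ⟨_, hy⟩ => hy⟩
  · rw [one_mul, add_zero]

/-- the uniformization of a fibre is holomorphic. -/
theorem One.hol {f : X → Y} (hf : ∀ x, HolM E E' f x) {U : Set Y} {τ : Y → ℂ} {π : Y → ℂ → X}
    (h : One E E' f U τ π) (hE : Module.finrank ℂ E = Module.finrank ℂ E' + 1) {y : Y}
    (hy : y ∈ U) (w : ℂ) : ContMDiffAt 𝓘(ℂ, ℂ) 𝓘(ℂ, E) ω (π y) w := by
  obtain ⟨-, h2, h3⟩ := h
  obtain ⟨-, him, hπ⟩ := h2 y hy
  have hfx : f (π y w) = y := (hπ w w).1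
  obtain ⟨ζ, hζ, hζπ, himm⟩ := h3 (π y w) (by rw [hfx]; exact hy)
  have e₀ : E ≃L[ℂ] (E' × ℂ) := ContinuousLinearEquiv.ofFinrankEq (by
    rw [hE, Module.finrank_prod, Module.finrank_self])
  obtain ⟨ψ, hψ, hψ0, hψe⟩ := coord_section (hf _) (show HolV E ζ (π y w) from hζ) e₀ himm
  have h4 : π y =ᶠ[𝓝 (ζ (π y w))] ψ := by
    have h5 : Tendsto ψ (𝓝 (ζ (π y w))) (𝓝 (π y w)) := by
      have := hψ.continuousAt.tendsto
      rw [hψ0] at this
      exact this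
    filter_upwards [hψe, h5.eventually hζπ] with p hp1 hp2
    rw [hp1.1, hp1.2, hfx] at hp2
    exact hp2
  have h5 : π y (ζ (π y w)) = π y w := by
    have := hζπ.self_of_nhds
    rw [hfx] at this
    exact this
  obtain ⟨m, n, hmn⟩ := ((hπ _ _).2).1 h5
  have h6 : π y = fun z => π y (z - (m + n * τ y)) := by
    funext z
    refine (((hπ z _).2).2 ⟨-m, -n, ?_⟩)
    push_cast
    ring
  have h7 : ContMDiffAt 𝓘(ℂ, ℂ) 𝓘(ℂ, E) ω (π y) (w - (m + n * τ y)) := by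
    have h8 : w - (m + n * τ y) = ζ (π y w) := by linear_combination hmn
    rw [h8]
    exact hψ.congr_of_eventuallyEq h4
  rw [h6]
  exact ContMDiffAt.comp w (g := π y) h7
    (contMDiffAt_iff_contDiffAt.2 (contDiffAt_id.sub contDiffAt_const))

/-- The changes of uniformization are affine. -/
theorem One.affine {f : X → Y} (hf : ∀ x, HolM E E' f x) {U U' : Set Y} {τ τ' : Y → ℂ}
    {π π' : Y → ℂ → X} (h : One E E' f U τ π) (h' : One E E' f U' τ' π')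
    (hE : Module.finrank ℂ E = Module.finrank ℂ E' + 1) {y : Y} (hy : y ∈ U) (hy' : y ∈ U') :
    ∃ l c : ℂ, ∀ w, π' y (l * w + c) = π y w := by
  have hQ : ∀ v, ContMDiffAt 𝓘(ℂ, ℂ) 𝓘(ℂ, E) ω (π y) v := fun v => h.hol hf hE hy v
  obtain ⟨-, him, hπ⟩ := h.2.1 y hy
  obtain ⟨-, him', hπ'⟩ := h'.2.1 y hy'
  have hlat : ∀ w w', π' y w = π' y w' → ∃ m n : ℤ, w' = w + m + n * τ' y :=
    fun w w' hw => (hπ' w w').2.1 hw
  have hex : ∀ R : ℝ, 0 < R → ∃ H : ℂ → ℂ, DifferentiableOn ℂ H (ball 0 R) ∧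
      ∀ v ∈ ball (0 : ℂ) R, π' y (H v) = π y v := by
    intro R hR
    obtain ⟨H, hH1, hH2, -⟩ := slice_lift (h'.fam) (a := PUnit.unit) hy' (v₀ := 0) hR
      (fun v _ => hQ v) (fun v _ => (hπ v v).1)
    exact ⟨H, hH1, hH2⟩
  choose! H hHd hHπ using hex
  have hdA : ∀ R : ℝ, 0 < R → ∀ v ∈ ball (0 : ℂ) R, DifferentiableAt ℂ (H R) v := fun R hR v hv =>
    (hHd R hR).differentiableAt (isOpen_ball.mem_nhds hv)
  -- the derivative
  have hder : ∀ R R' : ℝ, 0 < R → 0 < R' → ∀ v ∈ ball (0 : ℂ) R, v ∈ ball (0 : ℂ) R' →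
      deriv (H R') v = deriv (H R) v := by
    intro R R' hR hR' v hv hv'
    refine lift_deriv him' hlat (hdA R hR v hv).continuousAt (hdA R' hR' v hv').continuousAt ?_
    filter_upwards [isOpen_ball.mem_nhds hv, isOpen_ball.mem_nhds hv'] with z hz hz'
    rw [hHπ R hR z hz, hHπ R' hR' z hz']
  set g : ℂ → ℂ := fun v => deriv (H (‖v‖ + 1)) v with hg
  have hpos : ∀ v : ℂ, 0 < ‖v‖ + 1 := fun v => by positivity
  have hmem : ∀ v : ℂ, v ∈ ball (0 : ℂ) (‖v‖ + 1) := fun v => by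
    rw [mem_ball_zero_iff]; linarith
  have hgR : ∀ R : ℝ, 0 < R → ∀ v ∈ ball (0 : ℂ) R, g v = deriv (H R) v := fun R hR v hv =>
    hder R (‖v‖ + 1) hR (hpos v) v hv (hmem v)
  have hgd : Differentiable ℂ g := by
    intro v
    have h1 : g =ᶠ[𝓝 v] deriv (H (‖v‖ + 1)) := by
      filter_upwards [isOpen_ball.mem_nhds (hmem v)] with z hz
      exact hgR _ (hpos v) z hz
    have h2 : DifferentiableAt ℂ (deriv (H (‖v‖ + 1))) v :=
      ((hHd _ (hpos v)).deriv isOpen_ball).differentiableAt (isOpen_ball.mem_nhds (hmem v))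
    exact h2.congr_of_eventuallyEq h1
  -- periodicity
  have hper : ∀ (m n : ℤ) (v : ℂ), g (v + (m + n * τ y)) = g v := by
    intro m n v
    set lam : ℂ := m + n * τ y with hlam
    set R : ℝ := ‖v‖ + ‖lam‖ + 1 with hR
    have hRp : 0 < R := by positivity
    have hv1 : v ∈ ball (0 : ℂ) R := by
      rw [mem_ball_zero_iff]
      have := norm_nonneg lam
      linarith
    have hv2 : v + lam ∈ ball (0 : ℂ) R := by
      rw [mem_ball_zero_iff]
      have := norm_add_le v lam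
      linarith
    rw [hgR R hRp _ hv1, hgR R hRp _ hv2]
    have h1 : deriv (fun z => H R (z + lam)) v = deriv (H R) (v + lam) :=
      deriv_comp_add_const (H R) lam v
    rw [← h1]
    have hc : ContinuousAt (fun z => z + lam) v := continuousAt_id.add continuousAt_const
    refine lift_deriv him' hlat (hdA R hRp v hv1).continuousAt
      (ContinuousAt.comp (f := fun z => z + lam) (g := H R) (x := v)
        (hdA R hRp _ hv2).continuousAt hc) ?_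
    filter_upwards [isOpen_ball.mem_nhds hv1, hc.eventually (isOpen_ball.mem_nhds hv2)]
      with z hz hz'
    rw [hHπ R hRp z hz, hHπ R hRp _ hz']
    exact ((hπ z _).2).2 ⟨m, n, by rw [hlam]; ring⟩
  -- boundedness
  have hbd : Bornology.IsBounded (Set.range g) := by
    have hK : IsCompact (g '' closedBall (0 : ℂ) (1 + ‖τ y‖)) :=
      (isCompact_closedBall _ _).image hgd.continuous
    refine hK.isBounded.subset ?_
    rintro _ ⟨v, rfl⟩
    set n : ℤ := ⌊v.im / (τ y).im⌋ with hn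
    set v₁ : ℂ := v - n * τ y with hv₁
    set m : ℤ := ⌊v.re - (v.im / (τ y).im) * (τ y).re⌋ with hm
    refine ⟨v + ((-m : ℤ) + (-n : ℤ) * τ y), ?_, hper _ _ v⟩
    rw [mem_closedBall_zero_iff]
    set s : ℝ := v.im / (τ y).im with hs
    have hv : v = ((v.re - s * (τ y).re : ℝ) : ℂ) + (s : ℂ) * τ y := by
      apply Complex.ext
      · simp
      · simp [hs, div_mul_cancel₀ _ him.ne']
    have h1 : v + ((-m : ℤ) + (-n : ℤ) * τ y) =
        ((Int.fract (v.re - s * (τ y).re) : ℝ) : ℂ) + ((Int.fract s : ℝ) : ℂ) * τ y := by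
      unfold Int.fract
      rw [← hm, ← hn]
      conv_lhs => rw [hv]
      push_cast
      ring
    rw [h1]
    refine (norm_add_le _ _).trans ?_
    rw [norm_mul, Complex.norm_real, Complex.norm_real, Real.norm_of_nonneg (Int.fract_nonneg _),
      Real.norm_of_nonneg (Int.fract_nonneg _)]
    have h2 := (Int.fract_lt_one (v.re - s * (τ y).re)).le
    have h3 := (Int.fract_lt_one s).le
    have h4 := mul_le_of_le_one_left (norm_nonneg (τ y)) h3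
    linarith
  obtain ⟨l, hl⟩ := hgd.exists_const_forall_eq_of_bounded hbd
  refine ⟨l, H 1 0, fun w => ?_⟩
  set R : ℝ := ‖w‖ + 1 with hR
  have hRp : 0 < R := hpos w
  have hw : w ∈ ball (0 : ℂ) R := hmem w
  have h0 : (0 : ℂ) ∈ ball (0 : ℂ) R := mem_ball_self hRp
  have hlin : H R w = l * w + H R 0 := by
    have h1 : EqOn (H R) (fun z => l * z + H R 0) (ball 0 R) := by
      refine isOpen_ball.eqOn_of_deriv_eq (convex_ball 0 R).isPreconnected (hHd R hRp) ?_ ?_ h0 ?_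
      · exact ((differentiable_id.const_mul l).add_const _).differentiableOn
      · intro z hz
        show deriv (H R) z = deriv (fun z => l * z + H R 0) z
        rw [← hgR R hRp z hz, hl z, deriv_add_const, deriv_const_mul_id']
      · simp
    exact h1 hw
  have h1 : π' y (H R 0) = π' y (H 1 0) := by
    rw [hHπ R hRp 0 h0, hHπ 1 one_pos 0 (mem_ball_self one_pos)]
  obtain ⟨m, n, hmn⟩ := hlat _ _ h1
  rw [← hHπ R hRp w hw, hlin]
  symm
  exact ((hπ' _ _).2).2 ⟨m, n, by rw [hmn]; ring⟩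

theorem affine_of {f : X → Y} {ι : Type u} {U : ι → Set Y} {τ : ι → Y → ℂ} {π : ι → Y → ℂ → X}
    (hf : ∀ x, HolM E E' f x)
    (h1 : ∀ a, IsOpen (U a) ∧
      (∀ y ∈ U a, J.HolAt E' (τ a) y ∧ 0 < (τ a y).im ∧ ∀ w w', f (π a y w) = y ∧
        (π a y w = π a y w' ↔ ∃ m n : ℤ, w' = w + m + n * τ a y)) ∧
      ∀ x, f x ∈ U a → ∃ ζ : X → ℂ, J.HolAt E ζ x ∧ (∀ᶠ z in 𝓝 x, π a (f z) (ζ z) = z) ∧
        ∀ ξ : E, mfderiv 𝓘(ℂ, E) 𝓘(ℂ, E') f x ξ = 0 → J.dif E ζ x ξ = 0 → ξ = 0)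
    (hE : Module.finrank ℂ E = Module.finrank ℂ E' + 1) :
    ∀ a b, ∀ y ∈ U a ∩ U b, ∃ l c : ℂ, ∀ w, π b y (l * w + c) = π a y w := by
  intro a b y hy
  exact One.affine hf (h1 a) (h1 b) hE hy.1 hy.2

end Affine

end Vale.Agent.P281.ELL
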