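import Vale.Agent.P281.H124.Mean

/-! P281, elliptic fibrations: the area bound for maps into elliptic curves. -/

open scoped ENNReal
open Set Filter Metric MeasureTheory

namespace Vale.Agent.P281.ELL

open Vale.Agent.P281

set_option linter.all false

/-- the real basis `1, τ` of `ℂ` -/
noncomputable def tauBasis {τ : ℂ} (hτ : 0 < τ.im) : Module.Basis (Fin 2) ℝ ℂ :=
  basisOfLinearIndependentOfCardEqFinrank (b := ![1, τ]) (by
    rw [LinearIndependent.pair_iff]
    intro s t h
    have h1 := congrArg Complex.im h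
    simp only [Complex.real_smul, Complex.add_im, Complex.mul_im, Complex.ofReal_re,
      Complex.ofReal_im, Complex.one_im, Complex.one_re, Complex.zero_im] at h1
    have ht : t = 0 := by
      have : t * τ.im = 0 := by linarith
      rcases mul_eq_zero.1 this with h2 | h2
      · exact h2
      · exact absurd h2 hτ.ne'
    have h2 := congrArg Complex.re h
    simp [ht] at h2
    exact ⟨h2, ht⟩) (by simp)

theorem tauBasis_zero {τ : ℂ} (hτ : 0 < τ.im) : tauBasis hτ 0 = 1 := by simp [tauBasis]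

theorem tauBasis_one {τ : ℂ} (hτ : 0 < τ.im) : tauBasis hτ 1 = τ := by simp [tauBasis]

theorem volume_fundamentalDomain_one_I :
    volume (ZSpan.fundamentalDomain Complex.basisOneI) = 1 := by
  have h1 : ZSpan.fundamentalDomain Complex.basisOneI =
      Complex.measurableEquivPi ⁻¹' (Set.univ.pi fun _ => Set.Ico 0 1) := by
    ext z
    simp [ZSpan.mem_fundamentalDomain, Complex.measurableEquivPi]
  rw [h1, Complex.volume_preserving_equiv_pi.measure_preimage, volume_pi, Measure.pi_pi]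
  · simp
  · exact (MeasurableSet.pi Set.countable_univ (fun _ _ => measurableSet_Ico)).nullMeasurableSet

theorem volume_tau {τ : ℂ} (hτ : 0 < τ.im) :
    volume (ZSpan.fundamentalDomain (tauBasis hτ)) = ENNReal.ofReal τ.im := by
  rw [ZSpan.measure_fundamentalDomain (tauBasis hτ) volume Complex.basisOneI,
    volume_fundamentalDomain_one_I, mul_one]
  congr 1
  rw [Module.Basis.det_apply, Matrix.det_fin_two]
  simp only [Module.Basis.toMatrix_apply, tauBasis_zero, tauBasis_one, Complex.coe_basisOneI_repr]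
  simp [abs_of_pos hτ]

/-- The area of an injective image in `ℂ / (ℤ + ℤ τ)`. -/
theorem area_le {τ : ℂ} (hτ : 0 < τ.im) {t : Set ℂ} (ht : MeasurableSet t)
    (hinj : ∀ w ∈ t, ∀ w' ∈ t, (∃ m n : ℤ, w' = w + m + n * τ) → w = w') :
    volume t ≤ ENNReal.ofReal τ.im := by
  rw [← volume_tau hτ]
  have hs := ZSpan.isAddFundamentalDomain (tauBasis hτ) (volume : Measure ℂ)
  have : Countable (Submodule.span ℤ (Set.range (tauBasis hτ))) := inferInstance
  have : VAddInvariantMeasure (Submodule.span ℤ (Set.range (tauBasis hτ))) ℂ volume :=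
    inferInstanceAs <| VAddInvariantMeasure
      (Submodule.span ℤ (Set.range (tauBasis hτ))).toAddSubgroup ℂ volume
  refine hs.measure_le_of_pairwise_disjoint ht.nullMeasurableSet ?_
  intro g₁ g₂ hne
  refine Disjoint.aedisjoint ?_
  refine (Disjoint.inf_left _ ?_).inf_right _
  rw [Set.disjoint_left]
  rintro _ ⟨x, hx, rfl⟩ ⟨y, hy, hxy⟩
  have h1 : (g₂ : ℂ) + y = (g₁ : ℂ) + x := hxy
  obtain ⟨d, hd⟩ : ∃ d : ℂ, d = (g₁ : ℂ) - g₂ := ⟨_, rfl⟩
  have h2 : d ∈ Submodule.span ℤ (Set.range (tauBasis hτ)) := by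
    rw [hd]
    exact Submodule.sub_mem _ g₁.2 g₂.2
  obtain ⟨c, hc⟩ := (Submodule.mem_span_range_iff_exists_fun ℤ).1 h2
  rw [Fin.sum_univ_two, tauBasis_zero, tauBasis_one] at hc
  have h3 : x = y := hinj x hx y hy ⟨c 0, c 1, by
    have : y = x + d := by rw [hd]; linear_combination h1
    rw [this, ← hc]
    simp only [zsmul_eq_mul, mul_one]
    ring⟩
  apply hne
  subst h3
  exact Subtype.ext (by linear_combination -h1)

theorem area_bound {τ : ℂ} (hτ : 0 < τ.im) {v₀ : ℂ} {r : ℝ} (hr : 0 < r) {H : ℂ → ℂ}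
    (hH : DifferentiableOn ℂ H (ball v₀ r))
    (hinj : ∀ w ∈ ball v₀ r, ∀ w' ∈ ball v₀ r, (∃ m n : ℤ, H w' = H w + m + n * τ) → w = w') :
    ‖deriv H v₀‖ ^ 2 ≤ τ.im / (Real.pi * r ^ 2) := by
  have hHi : InjOn H (ball v₀ r) := fun w hw w' hw' h => hinj w hw w' hw' ⟨0, 0, by simp [h]⟩
  have h1 : volume (H '' ball v₀ r) ≤ ENNReal.ofReal τ.im := by
    refine area_le hτ (measurableSet_ball.image_of_continuousOn_injOn hH.continuousOn hHi) ?_
    rintro _ ⟨w, hw, rfl⟩ _ ⟨w', hw', rfl⟩ h
    rw [hinj w hw w' hw' h]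
  have h2 : ∫⁻ w in ball v₀ r, ‖deriv H w‖ₑ ^ (2 : ℝ) = volume (H '' ball v₀ r) := by
    rw [← lintegral_abs_det_fderiv_eq_addHaar_image volume measurableSet_ball
      (f' := fun w => (fderiv ℂ H w).restrictScalars ℝ) (fun w hw =>
        ((hH.differentiableAt (isOpen_ball.mem_nhds hw)).hasFDerivAt.restrictScalars
          ℝ).hasFDerivWithinAt) hHi]
    refine setLIntegral_congr_fun measurableSet_ball fun w hw => ?_
    have h3 : (fderiv ℂ H w).det = deriv H w := by
      have h4 : fderiv ℂ H w = (deriv H w) • ContinuousLinearMap.id ℂ ℂ := by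
        ext
        simp
      rw [h4]
      change LinearMap.det (deriv H w • (LinearMap.id : ℂ →ₗ[ℂ] ℂ)) = _
      rw [LinearMap.det_smul, LinearMap.det_id]
      simp
    rw [H124.abs_det_real, h3, ENNReal.ofReal_pow (norm_nonneg _), ofReal_norm]
    norm_num
  have h3 := H124.rpow_mul_volume_le (μ := (volume : Measure ℂ)) (f := deriv H) (z := v₀) (r := r)
    (hH.deriv isOpen_ball) (p := 2) (by norm_num)
  rw [h2] at h3
  have h4 := h3.trans h1
  rw [Complex.volume_ball, ← ofReal_norm, ENNReal.ofReal_rpow_of_nonneg (norm_nonneg _)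
    (by norm_num), ← ENNReal.ofReal_pow hr.le] at h4
  have h5 : (NNReal.pi : ℝ≥0∞) = ENNReal.ofReal Real.pi := by
    rw [ENNReal.ofReal, ← NNReal.coe_real_pi, Real.toNNReal_coe]
  rw [h5, ← ENNReal.ofReal_mul (by positivity), ← ENNReal.ofReal_mul (by positivity),
    ENNReal.ofReal_le_ofReal_iff hτ.le] at h4
  have h6 : ‖deriv H v₀‖ ^ (2 : ℝ) = ‖deriv H v₀‖ ^ 2 := by
    rw [← Real.rpow_natCast]
    norm_num
  rw [h6] at h4
  rw [le_div_iff₀ (by positivity)]
  linarith

end Vale.Agent.P281.ELL
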