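import Mathlib.Analysis.Complex.HasPrimitives
import Mathlib.Analysis.Complex.OpenMapping
import Mathlib.Analysis.Complex.Schwarz
import Mathlib.Analysis.SpecialFunctions.Complex.Log
import Mathlib.Analysis.Calculus.MeanValue

/-! P281 (C1): Bloch's theorem with a crude constant, and the bound of the logarithmic derivative
of a zero free holomorphic function which takes no value more than `n` times. (helper124) -/

namespace Vale.Agent.P281.ELL

open Metric Set Filter
open scoped Topology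

theorem bloch {f : ℂ → ℂ} {c : ℂ} {r : ℝ} (hr : 0 < r) (hf : DifferentiableOn ℂ f (ball c r))
    (h0 : deriv f c ≠ 0) : ∃ a, ball a (‖deriv f c‖ * r / 128) ⊆ f '' ball c r := by
  have hd : DifferentiableOn ℂ (deriv f) (ball c r) := hf.deriv isOpen_ball
  set ρ : ℝ := r / 2 with hρ
  have hρ0 : 0 < ρ := by positivity
  have hsub : closedBall c ρ ⊆ ball c r := closedBall_subset_ball (by linarith)
  have hcont : ContinuousOn (fun z => (ρ - dist z c) * ‖deriv f z‖) (closedBall c ρ) := by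
    refine ContinuousOn.mul ?_ ?_
    · exact (continuous_const.sub (continuous_id.dist continuous_const)).continuousOn
    · exact (hd.continuousOn.mono hsub).norm
  obtain ⟨a, ha, hmax⟩ := (isCompact_closedBall c ρ).exists_isMaxOn
    ⟨c, mem_closedBall_self hρ0.le⟩ hcont
  have hmax' : ∀ z ∈ closedBall c ρ, (ρ - dist z c) * ‖deriv f z‖ ≤ (ρ - dist a c) * ‖deriv f a‖ :=
    fun z hz => hmax hz
  have hc := hmax' c (mem_closedBall_self hρ0.le)
  rw [dist_self, sub_zero] at hc
  have hcpos : 0 < ρ * ‖deriv f c‖ := mul_pos hρ0 (norm_pos_iff.2 h0)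
  have hapos : 0 < (ρ - dist a c) * ‖deriv f a‖ := lt_of_lt_of_le hcpos hc
  have hage : 0 ≤ ρ - dist a c := sub_nonneg.2 (mem_closedBall.1 ha)
  have hdpos : 0 < ‖deriv f a‖ := by
    rcases (norm_nonneg (deriv f a)).eq_or_lt with h | h
    · rw [← h, mul_zero] at hapos; exact absurd hapos (lt_irrefl _)
    · exact h
  have hρa : 0 < ρ - dist a c := by
    rcases hage.eq_or_lt with h | h
    · rw [← h, zero_mul] at hapos; exact absurd hapos (lt_irrefl _)
    · exact h
  set t : ℝ := (ρ - dist a c) / 2 with ht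
  have ht0 : 0 < t := by positivity
  have hball : ∀ z ∈ ball a t, z ∈ ball c r ∧ ‖deriv f z‖ ≤ 2 * ‖deriv f a‖ := by
    intro z hz
    have h1 : dist z c < ρ - t := by
      have := dist_triangle z a c
      have h2 := mem_ball.1 hz
      have h3 : dist a c = ρ - 2 * t := by rw [ht]; ring
      linarith
    have hz1 : z ∈ closedBall c ρ := mem_closedBall.2 (by linarith)
    refine ⟨hsub hz1, ?_⟩
    have h4 := hmax' z hz1
    have h5 : t * ‖deriv f z‖ ≤ (ρ - dist z c) * ‖deriv f z‖ :=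
      mul_le_mul_of_nonneg_right (by linarith) (norm_nonneg _)
    have h6 : (ρ - dist a c) * ‖deriv f a‖ = t * (2 * ‖deriv f a‖) := by rw [ht]; ring
    exact le_of_mul_le_mul_left (by linarith [h5.trans h4]) ht0
  have hbs : ball a t ⊆ ball c r := fun z hz => (hball z hz).1
  have hmaps : MapsTo (deriv f) (ball a t) (ball (deriv f a) (4 * ‖deriv f a‖)) := by
    intro z hz
    rw [mem_ball, dist_eq_norm]
    have := (hball z hz).2
    calc ‖deriv f z - deriv f a‖ ≤ ‖deriv f z‖ + ‖deriv f a‖ := norm_sub_le _ _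
      _ < 4 * ‖deriv f a‖ := by linarith
  set s : ℝ := t / 8 with hs
  have hs0 : 0 < s := by positivity
  have hst : closedBall a s ⊆ ball a t := closedBall_subset_ball (by rw [hs]; linarith)
  -- the derivative is close to its value at `a`
  have hder : ∀ z ∈ closedBall a s, ‖deriv f z - deriv f a‖ ≤ ‖deriv f a‖ / 2 := by
    intro z hz
    have h := Complex.dist_le_div_mul_dist_of_mapsTo_ball (hd.mono hbs)
      (hmaps.mono_right ball_subset_closedBall) (hst hz)
    rw [dist_eq_norm] at h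
    refine h.trans ?_
    have h1 := mem_closedBall.1 hz
    calc 4 * ‖deriv f a‖ / t * dist z a ≤ 4 * ‖deriv f a‖ / t * s := by gcongr
      _ = ‖deriv f a‖ / 2 := by rw [hs]; field_simp; ring
  have hlin : ∀ z ∈ closedBall a s, ‖(f z - deriv f a * z) - (f a - deriv f a * a)‖ ≤
      ‖deriv f a‖ / 2 * ‖z - a‖ := by
    intro z hz
    refine (convex_closedBall a s).norm_image_sub_le_of_norm_hasDerivWithin_le
      (f := fun z => f z - deriv f a * z) (f' := fun z => deriv f z - deriv f a) ?_ hder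
      (mem_closedBall_self hs0.le) hz
    intro x hx
    have h1 : HasDerivAt f (deriv f x) x :=
      (hf.differentiableAt (isOpen_ball.mem_nhds (hbs (hst hx)))).hasDerivAt
    have h2 : HasDerivAt (fun z => deriv f a * z) (deriv f a) x := by
      simpa using (hasDerivAt_id x).const_mul (deriv f a)
    exact (h1.sub h2).hasDerivWithinAt
  have hsph : ∀ z ∈ sphere a s, ‖deriv f a‖ * s / 2 ≤ ‖f z - f a‖ := by
    intro z hz
    have h1 := hlin z (sphere_subset_closedBall hz)
    have h2 : ‖z - a‖ = s := by rw [← dist_eq_norm]; exact mem_sphere.1 hz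
    rw [h2] at h1
    have h3 : ‖deriv f a * (z - a)‖ = ‖deriv f a‖ * s := by rw [norm_mul, h2]
    have h4 : deriv f a * (z - a) = (f z - f a) - ((f z - deriv f a * z) - (f a - deriv f a * a)) := by
      ring
    rw [h4] at h3
    have h5 := norm_sub_le (f z - f a) ((f z - deriv f a * z) - (f a - deriv f a * a))
    rw [h3] at h5
    linarith
  have hfreq : ∃ᶠ z in 𝓝 a, f z ≠ f a := by
    intro hcon
    have : f =ᶠ[𝓝 a] fun _ => f a := hcon.mono fun z hz => by simpa using hz
    have h1 := this.deriv_eq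
    rw [deriv_const] at h1
    rw [h1, norm_zero] at hdpos
    exact absurd hdpos (lt_irrefl _)
  have hdc : DiffContOnCl ℂ f (ball a s) := by
    refine DifferentiableOn.diffContOnCl ?_
    exact hf.mono ((closure_ball_subset_closedBall).trans (hst.trans hbs))
  have hfin := hdc.ball_subset_image_closedBall hs0 hsph hfreq
  refine ⟨f a, (ball_subset_ball ?_).trans (hfin.trans (image_mono (hst.trans hbs)))⟩
  have : (ρ - dist a c) * ‖deriv f a‖ = 2 * t * ‖deriv f a‖ := by rw [ht]; ring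
  rw [this] at hc
  rw [hs]
  rw [hρ] at hc
  nlinarith

theorem dlog_bound (n : ℕ) {r : ℝ} (hr : 0 < r) : ∃ M : ℝ, ∀ (v₀ : ℂ) (ψ : ℂ → ℂ),
    DifferentiableOn ℂ ψ (ball v₀ r) → (∀ v ∈ ball v₀ r, ψ v ≠ 0) →
    (∀ v : Fin (n + 1) → ℂ, (∀ k, v k ∈ ball v₀ r) → (∀ k, ψ (v k) = ψ (v 0)) →
      ¬ Function.Injective v) → ‖deriv ψ v₀‖ ≤ M * ‖ψ v₀‖ := by
  refine ⟨128 * (2 * Real.pi * (n + 1)) / r, fun v₀ ψ hψ h0 hinj => ?_⟩
  by_contra hcon
  push Not at hcon
  have hv₀ : v₀ ∈ ball v₀ r := mem_ball_self hr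
  have hψ0 : 0 < ‖ψ v₀‖ := norm_pos_iff.2 (h0 v₀ hv₀)
  have hdψ : DifferentiableOn ℂ (fun z => deriv ψ z / ψ z) (ball v₀ r) :=
    (hψ.deriv isOpen_ball).div hψ h0
  obtain ⟨ℓ, hℓ⟩ := hdψ.isExactOn_ball
  have hℓd : ∀ z ∈ ball v₀ r, HasDerivAt ℓ (deriv ψ z / ψ z) z := hℓ
  have hℓ' : deriv ℓ v₀ = deriv ψ v₀ / ψ v₀ := (hℓd v₀ hv₀).deriv
  -- `ψ = K exp ℓ`
  have hK : ∀ z ∈ ball v₀ r, ψ z * Complex.exp (-ℓ z) = ψ v₀ * Complex.exp (-ℓ v₀) := by
    intro z hz
    refine isOpen_ball.is_const_of_deriv_eq_zero (𝕜 := ℂ) (f := fun z => ψ z * Complex.exp (-ℓ z))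
      (convex_ball v₀ r).isPreconnected ?_ ?_ hz hv₀
    · intro w hw
      exact ((hψ.differentiableAt (isOpen_ball.mem_nhds hw)).mul
        ((hℓd w hw).differentiableAt.neg.cexp)).differentiableWithinAt
    · intro w hw
      have h1 := (hψ.differentiableAt (isOpen_ball.mem_nhds hw)).hasDerivAt
      have h2 : HasDerivAt (fun z => ψ z * Complex.exp (-ℓ z))
          (deriv ψ w * Complex.exp (-ℓ w) +
            ψ w * (Complex.exp (-ℓ w) * -(deriv ψ w / ψ w))) w := h1.mul ((hℓd w hw).neg.cexp)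
      rw [h2.deriv]
      have h3 := h0 w hw
      simp only [Pi.zero_apply]
      field_simp
      ring
  have hnorm : ‖deriv ℓ v₀‖ * r / 128 > 2 * Real.pi * (n + 1) := by
    rw [hℓ', norm_div]
    rw [gt_iff_lt, lt_div_iff₀ (by norm_num : (0 : ℝ) < 128), div_mul_eq_mul_div, lt_div_iff₀ hψ0]
    have h1 := mul_lt_mul_of_pos_right hcon hr
    have h2 : 128 * (2 * Real.pi * (n + 1)) / r * ‖ψ v₀‖ * r =
        2 * Real.pi * (n + 1) * 128 * ‖ψ v₀‖ := by field_simp
    linarith
  have hne : deriv ℓ v₀ ≠ 0 := by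
    intro h
    rw [h, norm_zero, zero_mul, zero_div] at hnorm
    have : 0 < 2 * Real.pi * ((n : ℝ) + 1) := by positivity
    linarith
  have hdℓ : DifferentiableOn ℂ ℓ (ball v₀ r) := fun z hz =>
    (hℓd z hz).differentiableAt.differentiableWithinAt
  obtain ⟨a, ha⟩ := bloch hr hdℓ hne
  have hpt : ∀ k : Fin (n + 1), ∃ v ∈ ball v₀ r, ℓ v = a + (k : ℕ) * (2 * Real.pi * Complex.I) := by
    intro k
    have : a + (k : ℕ) * (2 * Real.pi * Complex.I) ∈ ball a (‖deriv ℓ v₀‖ * r / 128) := by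
      rw [mem_ball, dist_eq_norm, add_sub_cancel_left]
      refine lt_of_le_of_lt ?_ hnorm
      rw [norm_mul, norm_mul, norm_mul, Complex.norm_I, Complex.norm_natCast, Complex.norm_real,
        Real.norm_of_nonneg Real.pi_pos.le, Complex.norm_two, mul_one]
      have h1 : ((k : ℕ) : ℝ) ≤ n + 1 := by exact_mod_cast k.2.le
      nlinarith [Real.pi_pos]
    obtain ⟨v, hv, hv'⟩ := ha this
    exact ⟨v, hv, hv'⟩
  choose v hv hv' using hpt
  refine hinj v hv (fun k => ?_) (fun j k hjk => ?_)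
  · have h1 := hK (v k) (hv k)
    have h2 := hK (v 0) (hv 0)
    have h3 : Complex.exp (-ℓ (v k)) = Complex.exp (-ℓ (v 0)) := by
      rw [hv', hv']
      rw [Complex.exp_eq_exp_iff_exists_int]
      refine ⟨-((k : ℕ) : ℤ), ?_⟩
      push_cast
      simp
      ring
    rw [h3] at h1
    exact mul_right_cancel₀ (Complex.exp_ne_zero _) (h1.trans h2.symm)
  · have h1 : a + ((j : ℕ) : ℂ) * (2 * Real.pi * Complex.I) =
        a + ((k : ℕ) : ℂ) * (2 * Real.pi * Complex.I) := by rw [← hv' j, ← hv' k, hjk]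
    have h2 := mul_right_cancel₀ Complex.two_pi_I_ne_zero (add_left_cancel h1)
    exact Fin.ext (by exact_mod_cast h2)

end Vale.Agent.P281.ELL
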