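import Vale.Agent.P281.ISO.RelBound

/-! P281, elliptic fibrations: forms bounded on the slices of the fibres, at the good points of a
ramification divisor. -/

open scoped Manifold ContDiff Topology
open Set Filter Metric

namespace Vale.Agent.P281.ELL

open Vale.Agent.P281 Vale.Agent.P281.MF Vale.Agent.P281.ISO

set_option linter.all false

universe u

section Coords

variable {E E' E₀ : Type} [NormedAddCommGroup E] [NormedSpace ℂ E] [FiniteDimensional ℂ E]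
  [NormedAddCommGroup E'] [NormedSpace ℂ E'] [FiniteDimensional ℂ E']
  [NormedAddCommGroup E₀] [NormedSpace ℂ E₀] [FiniteDimensional ℂ E₀]

theorem local_coords_G (e₀ : E ≃L[ℂ] (E' × E₀)) {Fh : E → E'} {eh wh : E → ℂ} {gh : E' → ℂ}
    {c₀ : E} {κ : ℕ} (hκ : 0 < κ) (hF : ContDiffAt ℂ ω Fh c₀) (he : ContDiffAt ℂ ω eh c₀)
    (hw : ContDiffAt ℂ ω wh c₀) (hg : ContDiffAt ℂ ω gh (Fh c₀)) (he0 : eh c₀ = 0)
    (hw0 : wh c₀ ≠ 0) (hde : fderiv ℂ eh c₀ ≠ 0)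
    (hdg : fderiv ℂ gh (Fh c₀) ≠ 0) (heq : ∀ᶠ c in 𝓝 c₀, gh (Fh c) = eh c ^ κ * wh c)
    (hsub : ∀ η, fderiv ℂ gh (Fh c₀) η = 0 →
      ∃ ξ, fderiv ℂ eh c₀ ξ = 0 ∧ fderiv ℂ Fh c₀ ξ = η)
    {W : Set E} (hW : W ∈ 𝓝 c₀) :
    ∃ (r : ℝ) (R : E' × E₀ → E) (Ψ : E → E' × E₀) (B : ℝ), 0 < r ∧ 0 ≤ B ∧
      ∀ᶠ c in 𝓝 c₀, R (Ψ c) = c ∧
        (∀ v ∈ ball (Ψ c).2 r, ContDiffAt ℂ ω R ((Ψ c).1, v) ∧ R ((Ψ c).1, v) ∈ W ∧
          Fh (R ((Ψ c).1, v)) = Fh c ∧ (Ψ (R ((Ψ c).1, v))).2 = v) ∧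
        (∀ P : E →L[ℂ] E₀, ‖JP e₀ (fderiv ℂ Fh c) P‖ ≤ B * ‖eh c‖ ^ (κ - 1) *
          ‖(P.comp ((fderiv ℂ R (Ψ c)).comp (ContinuousLinearMap.inr ℂ E' E₀))).det‖) ∧
        ∃ P : E →L[ℂ] E₀, P.comp ((fderiv ℂ R (Ψ c)).comp (ContinuousLinearMap.inr ℂ E' E₀)) =
          ContinuousLinearMap.id ℂ E₀ := by
  have : CompleteSpace E := FiniteDimensional.complete ℂ E
  have : CompleteSpace E' := FiniteDimensional.complete ℂ E'
  have : CompleteSpace E₀ := FiniteDimensional.complete ℂ E₀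
  have hn : (ω : WithTop ℕ∞) ≠ 0 := by simp
  set b₀ := Fh c₀ with hb₀
  set lam := fderiv ℂ gh b₀ with hlam
  obtain ⟨u, hu⟩ : ∃ u, lam u = 1 := by
    obtain ⟨ξ, hξ⟩ : ∃ ξ, lam ξ ≠ 0 := by
      by_contra hcon
      push Not at hcon
      exact hdg (ContinuousLinearMap.ext hcon)
    exact ⟨(lam ξ)⁻¹ • ξ, by simp [hξ]⟩
  obtain ⟨ρ, hρ, hρ0, hρw⟩ := exists_root hw hw0 hκ
  -- the projection
  set π : E' →L[ℂ] E' := ContinuousLinearMap.id ℂ E' - lam.smulRight u with hπ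
  have hπa : ∀ v, π v = v - lam v • u := fun v => by simp [hπ]
  have hlπ : ∀ v, lam (π v) = 0 := fun v => by rw [hπa, map_sub, map_smul, hu]; simp
  have hπu : π u = 0 := by rw [hπa, hu, one_smul, sub_self]
  have hππ : ∀ v, π (π v) = π v := fun v => by rw [hπa (π v), hlπ, zero_smul, sub_zero]
  -- the maps
  set T : E' → E' := fun b => gh b • u + π (b - b₀) with hT
  set N : E' → E' := fun v => lam v ^ κ • u + π v with hN
  set ε : E → ℂ := fun c => eh c * ρ c with hε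
  set Ψ₁ : E → E' := fun c => ε c • u + π (Fh c - b₀) with hΨ₁
  have hεc : ContDiffAt ℂ ω ε c₀ := he.mul hρ
  have hlΨ : ∀ c, lam (Ψ₁ c) = ε c := fun c => by
    simp only [hΨ₁, map_add, map_smul, hu, hlπ, smul_eq_mul, mul_one, add_zero]
  have hπΨ : ∀ c, π (Ψ₁ c) = π (Fh c - b₀) := fun c => by
    simp only [hΨ₁, map_add, map_smul, hπu, smul_zero, zero_add, hππ]
  have hTN : ∀ᶠ c in 𝓝 c₀, T (Fh c) = N (Ψ₁ c) := by
    filter_upwards [heq, hρw] with c h1 h2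
    simp only [hT, hN]
    rw [hlΨ, hπΨ, h1]
    simp only [hε]
    rw [mul_pow, h2]
  have hTc : ContDiffAt ℂ ω T b₀ := by
    have h2 : ContDiffAt ℂ ω (fun b => π (b - b₀)) b₀ :=
      (π.contDiff.comp (contDiff_id.sub contDiff_const)).contDiffAt
    exact (hg.smul contDiffAt_const).add h2
  have hΨ₁c : ContDiffAt ℂ ω Ψ₁ c₀ := by
    have h2 : ContDiffAt ℂ ω (fun c => π (Fh c - b₀)) c₀ :=
      π.contDiff.contDiffAt.comp c₀ (hF.sub contDiffAt_const)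
    exact (hεc.smul contDiffAt_const).add h2
  have hNc : ContDiff ℂ ω N := ((lam.contDiff.pow κ).smul contDiff_const).add π.contDiff
  -- derivative of `T`
  have hTd : HasFDerivAt T ((ContinuousLinearEquiv.refl ℂ E' : E' ≃L[ℂ] E') : E' →L[ℂ] E') b₀ := by
    have h1 : HasFDerivAt gh lam b₀ := (hg.differentiableAt hn).hasFDerivAt
    have h2 : HasFDerivAt (fun b => π (b - b₀)) π b₀ := by
      have h3 : HasFDerivAt (fun w : E' => w - b₀) (ContinuousLinearMap.id ℂ E') b₀ :=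
        (hasFDerivAt_id b₀).sub_const b₀
      have h4 : HasFDerivAt π π (b₀ - b₀) := π.hasFDerivAt
      have h5 := HasFDerivAt.comp (g := π) (f := fun w : E' => w - b₀) b₀ h4 h3
      exact h5.congr_fderiv (ContinuousLinearMap.comp_id π)
    refine ((h1.smul_const u).add h2).congr_fderiv ?_
    refine ContinuousLinearMap.ext fun v => ?_
    simp [hπa]
  -- derivative of `Ψ₁`
  have hεd : HasFDerivAt ε (ρ c₀ • fderiv ℂ eh c₀) c₀ := by
    have h1 := ((he.differentiableAt hn).hasFDerivAt).mul ((hρ.differentiableAt hn).hasFDerivAt)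
    refine h1.congr_fderiv ?_
    refine ContinuousLinearMap.ext fun ξ => ?_
    simp [he0]
  have hΨ₁d : HasFDerivAt Ψ₁ ((ρ c₀ • fderiv ℂ eh c₀).smulRight u +
      π.comp (fderiv ℂ Fh c₀)) c₀ := by
    have h2 : HasFDerivAt (fun c => π (Fh c - b₀)) (π.comp (fderiv ℂ Fh c₀)) c₀ := by
      have h3 : HasFDerivAt (fun w : E => Fh w - b₀) (fderiv ℂ Fh c₀) c₀ :=
        ((hF.differentiableAt hn).hasFDerivAt).sub_const b₀
      have h4 : HasFDerivAt π π (Fh c₀ - b₀) := π.hasFDerivAt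
      exact HasFDerivAt.comp (g := π) (f := fun w : E => Fh w - b₀) c₀ h4 h3
    exact (hεd.smul_const u).add h2
  set A : E →L[ℂ] E' := (ρ c₀ • fderiv ℂ eh c₀).smulRight u + π.comp (fderiv ℂ Fh c₀) with hA
  have hAa : ∀ ξ, A ξ = (ρ c₀ * fderiv ℂ eh c₀ ξ) • u + π (fderiv ℂ Fh c₀ ξ) := fun ξ => by
    simp [hA]
  have hAs : Function.Surjective A := by
    have h1 : ∀ v, ∃ ξ, A ξ = π v := by
      intro v
      obtain ⟨ξ, hξ1, hξ2⟩ := hsub (π v) (hlπ v)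
      refine ⟨ξ, ?_⟩
      rw [hAa, hξ1, hξ2, mul_zero, zero_smul, zero_add, hππ]
    obtain ⟨ξ₀, hξ₀⟩ : ∃ ξ, fderiv ℂ eh c₀ ξ ≠ 0 := by
      by_contra hcon
      push Not at hcon
      exact hde (ContinuousLinearMap.ext hcon)
    obtain ⟨ξ₁, hξ₁⟩ := h1 (fderiv ℂ Fh c₀ ξ₀)
    have h2 : A (ξ₀ - ξ₁) = (ρ c₀ * fderiv ℂ eh c₀ ξ₀) • u := by
      rw [map_sub, hξ₁, hAa]
      abel
    intro v
    obtain ⟨ξ₂, hξ₂⟩ := h1 v
    refine ⟨(lam v * (ρ c₀ * fderiv ℂ eh c₀ ξ₀)⁻¹) • (ξ₀ - ξ₁) + ξ₂, ?_⟩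
    rw [map_add, map_smul, h2, hξ₂, smul_smul, mul_assoc,
      inv_mul_cancel₀ (mul_ne_zero hρ0 hξ₀), mul_one, hπa]
    abel
  obtain ⟨L, hL⟩ := exists_completion e₀ hAs
  set P₀ : E →L[ℂ] E₀ := (ContinuousLinearMap.snd ℂ E' E₀).comp (L : E →L[ℂ] (E' × E₀)) with hP₀
  set Ψ : E → E' × E₀ := fun c => (Ψ₁ c, P₀ (c - c₀)) with hΨ
  have hΨc : ContDiffAt ℂ ω Ψ c₀ :=
    hΨ₁c.prodMk (P₀.contDiff.comp (contDiff_id.sub contDiff_const)).contDiffAt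
  have hΨd : HasFDerivAt Ψ (L : E →L[ℂ] (E' × E₀)) c₀ := by
    have h2 : HasFDerivAt (fun c => P₀ (c - c₀)) P₀ c₀ := by
      have h3 : HasFDerivAt (fun w : E => w - c₀) (ContinuousLinearMap.id ℂ E) c₀ :=
        (hasFDerivAt_id c₀).sub_const c₀
      have h4 : HasFDerivAt P₀ P₀ (c₀ - c₀) := P₀.hasFDerivAt
      have h5 := HasFDerivAt.comp (g := P₀) (f := fun w : E => w - c₀) c₀ h4 h3
      exact h5.congr_fderiv (ContinuousLinearMap.comp_id P₀)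
    refine (hΨ₁d.prodMk h2).congr_fderiv ?_
    refine ContinuousLinearMap.ext fun ξ => ?_
    exact Prod.ext (hL ξ).symm rfl
  set R := hΨc.localInverse hΨd hn with hR
  have hRc : ContDiffAt ℂ ω R (Ψ c₀) := hΨc.to_localInverse hΨd hn
  have hstr : HasStrictFDerivAt Ψ (L : E →L[ℂ] (E' × E₀)) c₀ := hΨc.hasStrictFDerivAt' hΨd hn
  have hleft : ∀ᶠ c in 𝓝 c₀, R (Ψ c) = c := hstr.eventually_left_inverse
  have hright : ∀ᶠ p in 𝓝 (Ψ c₀), Ψ (R p) = p := hstr.eventually_right_inverse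
  have hR0 : R (Ψ c₀) = c₀ := hleft.self_of_nhds
  have hRd : HasFDerivAt R (L.symm : (E' × E₀) →L[ℂ] E) (Ψ c₀) :=
    hstr.to_localInverse.hasFDerivAt
  -- left inverse of `T`
  set G := hTc.localInverse hTd hn with hG
  have hTstr : HasStrictFDerivAt T
      ((ContinuousLinearEquiv.refl ℂ E' : E' ≃L[ℂ] E') : E' →L[ℂ] E') b₀ :=
    hTc.hasStrictFDerivAt' hTd hn
  have hGT : ∀ᶠ b in 𝓝 b₀, G (T b) = b := hTstr.eventually_left_inverse
  -- good points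
  have hRt : Tendsto R (𝓝 (Ψ c₀)) (𝓝 c₀) := by
    have := hRc.continuousAt.tendsto
    rwa [hR0] at this
  have hFt : Tendsto Fh (𝓝 c₀) (𝓝 b₀) := hF.continuousAt.tendsto
  have hΨt : Tendsto Ψ (𝓝 c₀) (𝓝 (Ψ c₀)) := hΨc.continuousAt.tendsto
  have hgood : ∀ᶠ p in 𝓝 (Ψ c₀), ContDiffAt ℂ ω R p ∧ Ψ (R p) = p ∧ R p ∈ W ∧
      T (Fh (R p)) = N (Ψ₁ (R p)) ∧ G (T (Fh (R p))) = Fh (R p) := by
    filter_upwards [hRc.eventually (by simp), hright, hRt.eventually hW, hRt.eventually hTN,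
      (hFt.comp hRt).eventually hGT] with p h1 h2 h3 h4 h5
    exact ⟨h1, h2, h3, h4, h5⟩
  obtain ⟨r, hr, hball⟩ := Metric.eventually_nhds_iff_ball.1 hgood
  -- the constant
  have hc1 : ContinuousAt (fun c => (fderiv ℂ T (Fh c)).det) c₀ := by
    have h1 : ContinuousAt (fderiv ℂ T) b₀ :=
      (hTc.fderiv_right (m := ω) (by simp)).continuousAt
    have h2 : ContinuousAt (fun c => fderiv ℂ T (Fh c)) c₀ :=
      ContinuousAt.comp (g := fderiv ℂ T) h1 hF.continuousAt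
    exact (ContinuousLinearMap.continuous_det.tendsto _).comp h2.tendsto
  have hc2 : ContinuousAt (fun c =>
      ((fderiv ℂ R (Ψ c)).comp (e₀ : E →L[ℂ] (E' × E₀))).det) c₀ := by
    have h1 : ContinuousAt (fderiv ℂ R) (Ψ c₀) :=
      (hRc.fderiv_right (m := ω) (by simp)).continuousAt
    have h2 : ContinuousAt (fun c => fderiv ℂ R (Ψ c)) c₀ :=
      ContinuousAt.comp (g := fderiv ℂ R) h1 hΨc.continuousAt
    have h3 : ContinuousAt (fun c => (fderiv ℂ R (Ψ c)).comp (e₀ : E →L[ℂ] (E' × E₀))) c₀ :=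
      h2.clm_comp continuousAt_const
    exact (ContinuousLinearMap.continuous_det.tendsto _).comp h3.tendsto
  have hv1 : (fderiv ℂ T (Fh c₀)).det ≠ 0 := by
    rw [show Fh c₀ = b₀ from rfl, hTd.fderiv]
    simp [ContinuousLinearMap.det]
  have hv2 : ((fderiv ℂ R (Ψ c₀)).comp (e₀ : E →L[ℂ] (E' × E₀))).det ≠ 0 := by
    rw [hRd.fderiv]
    have h1 : (((e₀.symm : (E' × E₀) →L[ℂ] E).comp (L : E →L[ℂ] (E' × E₀))).comp
        ((L.symm : (E' × E₀) →L[ℂ] E).comp (e₀ : E →L[ℂ] (E' × E₀)))).det = 1 := by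
      rw [← det_id' E]
      congr 1
      ext ξ
      simp
    rw [clm_det_comp] at h1
    intro h0
    rw [h0, mul_zero] at h1
    exact zero_ne_one h1
  set δ : E → ℂ := fun c => κ * ρ c ^ (κ - 1) / ((fderiv ℂ T (Fh c)).det *
    ((fderiv ℂ R (Ψ c)).comp (e₀ : E →L[ℂ] (E' × E₀))).det) with hδ
  have hδc : ContinuousAt δ c₀ :=
    (continuousAt_const.mul (hρ.continuousAt.pow _)).div (hc1.mul hc2) (mul_ne_zero hv1 hv2)
  have hδb : ∀ᶠ c in 𝓝 c₀, ‖δ c‖ < ‖δ c₀‖ + 1 :=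
    hδc.norm.eventually_lt_const (by linarith)
  refine ⟨r / 2, R, Ψ, ‖δ c₀‖ + 1, half_pos hr, by positivity, ?_⟩
  filter_upwards [hleft, hΨt.eventually (ball_mem_nhds _ (half_pos hr)), hTN, hFt.eventually hGT,
    hδb, hc1.eventually_ne hv1, hc2.eventually_ne hv2, hTN.eventually_nhds,
    hΨt.eventually hright.eventually_nhds, hF.eventually (by simp), hΨ₁c.eventually (by simp),
    hFt.eventually (hTc.eventually (by simp)), hΨt.eventually (hRc.eventually (by simp)),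
    hΨc.eventually (by simp)] with
    c h1 h2 h3 h4 h5 h6 h7 h8 h9 h10 h11 h12 h13 h14
  refine ⟨h1, ?_, ?_, ?_⟩
  · intro v hv
    have hp : ((Ψ c).1, v) ∈ ball (Ψ c₀) r := by
      rw [mem_ball, Prod.dist_eq]
      rw [mem_ball] at hv
      have h15 := max_lt_iff.1 (show max (dist (Ψ c).1 (Ψ c₀).1) (dist (Ψ c).2 (Ψ c₀).2) < r / 2
        from h2)
      refine max_lt (by linarith [h15.1]) ?_
      calc dist v (Ψ c₀).2 ≤ dist v (Ψ c).2 + dist (Ψ c).2 (Ψ c₀).2 := dist_triangle _ _ _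
        _ < r := by linarith [h14.2]
    obtain ⟨g1, g2, g3, g4, g5⟩ := hball _ hp
    refine ⟨g1, g3, ?_, by rw [g2]⟩
    have g6 : Ψ₁ (R ((Ψ c).1, v)) = Ψ₁ c := congrArg Prod.fst g2
    rw [← g5, g4, g6, ← h3, h4]
  · intro P
    have k1 : (fderiv ℂ T (Fh c)).comp (fderiv ℂ Fh c) =
        (fderiv ℂ N (Ψ₁ c)).comp (fderiv ℂ Ψ₁ c) := by
      have k2 : (T ∘ Fh) =ᶠ[𝓝 c] (N ∘ Ψ₁) := h8
      rw [← fderiv_comp c (h12.differentiableAt hn) (h10.differentiableAt hn),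
        ← fderiv_comp c (hNc.contDiffAt.differentiableAt hn) (h11.differentiableAt hn)]
      exact k2.fderiv_eq
    have k2 : (fderiv ℂ Ψ₁ c).comp (fderiv ℂ R (Ψ c)) = ContinuousLinearMap.fst ℂ E' E₀ := by
      have k3 : (Ψ₁ ∘ R) =ᶠ[𝓝 (Ψ c)] Prod.fst := by
        filter_upwards [h9] with p hp
        exact congrArg Prod.fst hp
      have k4 : DifferentiableAt ℂ Ψ₁ (R (Ψ c)) := by
        rw [h1]
        exact h11.differentiableAt hn
      have k5 := fderiv_comp (Ψ c) k4 (h13.differentiableAt hn)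
      rw [k3.fderiv_eq, fderiv_fst, h1] at k5
      exact k5.symm
    have k3 := JP_coords e₀ k1 k2 P
    have k4 : (fderiv ℂ N (Ψ₁ c)).det = κ * ε c ^ (κ - 1) := by
      have k5 : HasFDerivAt N (ContinuousLinearMap.id ℂ E' +
          ((κ : ℂ) * lam (Ψ₁ c) ^ (κ - 1) - 1) • lam.smulRight u) (Ψ₁ c) := by
        have k6 : HasFDerivAt (fun v => lam v ^ κ) (((κ : ℂ) * lam (Ψ₁ c) ^ (κ - 1)) • lam)
            (Ψ₁ c) := by
          have k7 : HasDerivAt (fun s : ℂ => s ^ κ) ((κ : ℂ) * lam (Ψ₁ c) ^ (κ - 1))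
            (lam (Ψ₁ c)) := hasDerivAt_pow κ _
          exact k7.comp_hasFDerivAt (Ψ₁ c) lam.hasFDerivAt
        refine ((k6.smul_const u).add π.hasFDerivAt).congr_fderiv ?_
        refine ContinuousLinearMap.ext fun v => ?_
        change ((κ : ℂ) * lam (Ψ₁ c) ^ (κ - 1) * lam v) • u + π v =
          v + ((κ : ℂ) * lam (Ψ₁ c) ^ (κ - 1) - 1) • (lam v • u)
        rw [hπa]
        module
      rw [k5.fderiv, det_rank_one, hu, hlΨ]
      ring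
    rw [k4] at k3
    set d := (P.comp ((fderiv ℂ R (Ψ c)).comp (ContinuousLinearMap.inr ℂ E' E₀))).det with hd
    have k5 : JP e₀ (fderiv ℂ Fh c) P = δ c * eh c ^ (κ - 1) * d := by
      simp only [hδ]
      rw [div_mul_eq_mul_div, div_mul_eq_mul_div, eq_div_iff (mul_ne_zero h6 h7)]
      have k6 : ε c ^ (κ - 1) = eh c ^ (κ - 1) * ρ c ^ (κ - 1) := by
        simp only [hε]
        rw [mul_pow]
      rw [k6] at k3
      linear_combination k3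
    rw [k5, norm_mul, norm_mul, norm_pow]
    gcongr
  · refine ⟨(ContinuousLinearMap.snd ℂ E' E₀).comp (fderiv ℂ Ψ c), ?_⟩
    have k3 : (Ψ ∘ R) =ᶠ[𝓝 (Ψ c)] id := by
      filter_upwards [h9] with p hp
      exact hp
    have k4 : DifferentiableAt ℂ Ψ (R (Ψ c)) := by
      rw [h1]
      exact h14.differentiableAt hn
    have k5 := fderiv_comp (Ψ c) k4 (h13.differentiableAt hn)
    rw [k3.fderiv_eq, fderiv_id, h1] at k5
    rw [ContinuousLinearMap.comp_assoc, ← ContinuousLinearMap.comp_assoc (fderiv ℂ Ψ c), ← k5]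
    ext v
    simp

end Coords

section Rel

variable {E E' E₀ : Type} [NormedAddCommGroup E] [NormedSpace ℂ E] [FiniteDimensional ℂ E]
  [NormedAddCommGroup E'] [NormedSpace ℂ E'] [FiniteDimensional ℂ E']
  [NormedAddCommGroup E₀] [NormedSpace ℂ E₀] [FiniteDimensional ℂ E₀]
variable {X Y : Type u} [TopologicalSpace X] [ChartedSpace E X] [IsManifold 𝓘(ℂ, E) ω X]
  [TopologicalSpace Y] [ChartedSpace E' Y] [IsManifold 𝓘(ℂ, E') ω Y]

theorem rel_bound_G {f : X → Y} (hf : ∀ x, HolM E E' f x) {S : Set Y}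
    (e₀ : E ≃L[ℂ] (E' × E₀)) {n : ℕ} (hn : 0 < n) {Θ : X → ℂ}
    (hfib : ∀ r : ℝ, 0 < r → ∃ M : ℝ, ∀ (v₀ : E₀) (Q : E₀ → X),
      (∀ v ∈ ball v₀ r, ContMDiffAt 𝓘(ℂ, E₀) 𝓘(ℂ, E) ω Q v) → InjOn Q (ball v₀ r) →
      (∀ v ∈ ball v₀ r, f (Q v) = f (Q v₀)) → f (Q v₀) ∉ S →
      ∀ P : E →L[ℂ] E₀, P.comp (mfderiv 𝓘(ℂ, E₀) 𝓘(ℂ, E) Q v₀ : E₀ →L[ℂ] E) =
        ContinuousLinearMap.id ℂ E₀ → ‖Θ (Q v₀)‖ ≤ M * ‖JP e₀ (dM E E' f (Q v₀)) P ^ n‖)
    {x₀ y : X} {y₀ : Y} (hx₀ : y ∈ (chartAt E x₀).source)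
    (hy₀ : f y ∈ (chartAt E' y₀).source) {e w : X → ℂ} {g : Y → ℂ} {κ : ℕ} (hκ : 0 < κ)
    (he : HolV E e y) (he0 : e y = 0) (hde : dif E e y ≠ 0) (hg : HolV E' g (f y))
    (hg0 : g (f y) = 0) (hdg : dif E' g (f y) ≠ 0) (hw : HolV E w y) (hw0 : w y ≠ 0)
    (heq : ∀ᶠ z in 𝓝 y, g (f z) = e z ^ κ * w z)
    (hsub : ∀ η, dif E' g (f y) η = 0 → ∃ ξ, dif E e y ξ = 0 ∧ dM E E' f y ξ = η) :
    ∃ C : ℝ, ∀ᶠ z in 𝓝 y, f z ∉ S →
      ‖jac E' (chartAt E' y₀) (f z) ^ n * Θ z‖ ≤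
        C * ‖e z‖ ^ (n * (κ - 1)) * ‖jac E (chartAt E x₀) z ^ n‖ := by
  classical
  set φ := chartAt E x₀ with hφ
  set ψ := chartAt E' y₀ with hψ
  have hmem : φ ∈ IsManifold.maximalAtlas 𝓘(ℂ, E) ω X := IsManifold.chart_mem_maximalAtlas _
  set c₀ : E := φ y with hc₀
  have hsc : φ.symm c₀ = y := φ.left_inv hx₀
  have hψf : ∀ z, f z ∈ ψ.source → HolV E (fun z => ψ (f z)) z := fun z hz =>
    HolV.comp (HolV.chart hz) (hf z)
  set Fh : E → E' := (fun z => ψ (f z)) ∘ φ.symm with hFh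
  set eh : E → ℂ := e ∘ φ.symm with heh
  set wh : E → ℂ := w ∘ φ.symm with hwh
  set gh : E' → ℂ := g ∘ ψ.symm with hgh
  have hF : ContDiffAt ℂ ω Fh c₀ := (hψf y hy₀).rep hx₀
  have heh' : ContDiffAt ℂ ω eh c₀ := he.rep hx₀
  have hwh' : ContDiffAt ℂ ω wh c₀ := hw.rep hx₀
  have hFc : Fh c₀ = ψ (f y) := by
    show ψ (f (φ.symm c₀)) = ψ (f y)
    rw [hsc]
  have hgh' : ContDiffAt ℂ ω gh (Fh c₀) := by
    rw [hFc]
    exact hg.rep hy₀
  -- derivatives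
  have d1 : dif E e y = (fderiv ℂ eh c₀).comp (dV E (φ : X → E) y) := dV_eq_chart hx₀ he
  have d2 : dif E' g (f y) = (fderiv ℂ gh (Fh c₀)).comp (dV E' (ψ : Y → E') (f y)) := by
    rw [hFc]
    exact dV_eq_chart hy₀ hg
  have d3 : dV E (fun z => ψ (f z)) y = (fderiv ℂ Fh c₀).comp (dV E (φ : X → E) y) :=
    dV_eq_chart hx₀ (hψf y hy₀)
  have d4 : dV E (fun z => ψ (f z)) y = (dV E' (ψ : Y → E') (f y)).comp (dM E E' f y) :=
    dV_comp (HolV.chart hy₀) (hf y)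
  have hde' : fderiv ℂ eh c₀ ≠ 0 := by
    intro h0
    apply hde
    rw [d1, h0]
    exact ContinuousLinearMap.zero_comp _
  have hdg' : fderiv ℂ gh (Fh c₀) ≠ 0 := by
    intro h0
    apply hdg
    rw [d2, h0]
    exact ContinuousLinearMap.zero_comp _
  have hφs : ContinuousAt φ.symm c₀ := φ.continuousAt_symm (φ.map_source hx₀)
  have hφst : Tendsto φ.symm (𝓝 c₀) (𝓝 y) := by
    have := hφs.tendsto
    rwa [hsc] at this
  have hfc : ContinuousAt f y := (hf y).continuousAt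
  have hfs : ∀ᶠ z in 𝓝 y, f z ∈ ψ.source := hfc.eventually (ψ.open_source.mem_nhds hy₀)
  have heq' : ∀ᶠ c in 𝓝 c₀, gh (Fh c) = eh c ^ κ * wh c := by
    filter_upwards [hφst.eventually heq, hφst.eventually hfs] with c h1 h2
    show g (ψ.symm (ψ (f (φ.symm c)))) = _
    rw [ψ.left_inv h2]
    exact h1
  have hsub' : ∀ η, fderiv ℂ gh (Fh c₀) η = 0 →
      ∃ ξ, fderiv ℂ eh c₀ ξ = 0 ∧ fderiv ℂ Fh c₀ ξ = η := by
    intro η hη
    obtain ⟨η', rfl⟩ := dV_chart_surj (E := E') hy₀ η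
    have h1 : dif E' g (f y) η' = 0 := by
      rw [d2]
      exact hη
    obtain ⟨ξ, h2, h3⟩ := hsub η' h1
    refine ⟨dV E (φ : X → E) y ξ, ?_, ?_⟩
    · rw [d1] at h2
      exact h2
    · have h4 := congrArg (fun T : E →L[ℂ] E' => T ξ) (d3.symm.trans d4)
      simp only [ContinuousLinearMap.comp_apply] at h4
      rw [h3] at h4
      exact h4
  have hW : φ.target ∩ {c | f (φ.symm c) ∈ ψ.source} ∈ 𝓝 c₀ :=
    Filter.inter_mem (φ.open_target.mem_nhds (φ.map_source hx₀)) (hφst.eventually hfs)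
  obtain ⟨r, R, Ψ, B, hr, hB, hev⟩ := local_coords_G e₀ hκ hF heh' hwh' hgh'
    (show e (φ.symm c₀) = 0 by rw [hsc]; exact he0) (show w (φ.symm c₀) ≠ 0 by rw [hsc]; exact hw0)
    hde' hdg' heq' hsub' hW
  obtain ⟨M, hM⟩ := hfib r hr
  refine ⟨B ^ n * |M|, ?_⟩
  filter_upwards [φ.open_source.mem_nhds hx₀, hfs, (φ.continuousAt hx₀).eventually hev] with
    z hz hfz hzc hzS
  obtain ⟨h1, h2, h3, P', hP'⟩ := hzc
  set c : E := φ z with hc
  have hscz : φ.symm c = z := φ.left_inv hz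
  -- points of the fibre
  have hx : ∀ v ∈ ball (Ψ c).2 r, f (φ.symm (R ((Ψ c).1, v))) = f z := by
    intro v hv
    obtain ⟨g1, g2, g3, g4⟩ := h2 v hv
    have g5 : ψ (f (φ.symm (R ((Ψ c).1, v)))) = ψ (f (φ.symm c)) := g3
    rw [hscz] at g5
    exact ψ.injOn g2.2 hfz g5
  have hsrc : ∀ v ∈ ball (Ψ c).2 r, φ.symm (R ((Ψ c).1, v)) ∈ φ.source := fun v hv =>
    φ.map_target (h2 v hv).2.1.1
  have hφR : ∀ v ∈ ball (Ψ c).2 r, φ (φ.symm (R ((Ψ c).1, v))) = R ((Ψ c).1, v) := fun v hv =>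
    φ.right_inv (h2 v hv).2.1.1
  have hRv : ∀ v ∈ ball (Ψ c).2 r, ContDiffAt ℂ ω (fun v => R ((Ψ c).1, v)) v := by
    intro v hv
    exact ContDiffAt.comp (g := R) (f := fun v : E₀ => ((Ψ c).1, v)) v (h2 v hv).1
      (contDiff_const.prodMk contDiff_id).contDiffAt
  set Q : E₀ → X := fun v => φ.symm (R ((Ψ c).1, v)) with hQ
  have hQhol : ∀ v ∈ ball (Ψ c).2 r, ContMDiffAt 𝓘(ℂ, E₀) 𝓘(ℂ, E) ω Q v := by
    intro v hv
    have g1 : ContMDiffAt 𝓘(ℂ, E) 𝓘(ℂ, E) ω φ.symm (R ((Ψ c).1, v)) :=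
      contMDiffAt_symm_of_mem_maximalAtlas hmem (h2 v hv).2.1.1
    exact ContMDiffAt.comp (g := φ.symm) (f := fun v => R ((Ψ c).1, v)) v g1
      (hRv v hv).contMDiffAt
  have hQinj : InjOn Q (ball (Ψ c).2 r) := by
    intro v hv v' hv' hvv
    have g2 : R ((Ψ c).1, v) = R ((Ψ c).1, v') := by
      rw [← hφR v hv, ← hφR v' hv']
      exact congrArg φ hvv
    rw [← (h2 v hv).2.2.2, ← (h2 v' hv').2.2.2, g2]
  have hv₁ : (Ψ c).2 ∈ ball (Ψ c).2 r := mem_ball_self hr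
  have hR1 : R ((Ψ c).1, (Ψ c).2) = c := h1
  have hQ1 : Q (Ψ c).2 = z := by
    show φ.symm (R ((Ψ c).1, (Ψ c).2)) = z
    rw [hR1, hscz]
  -- the left inverse of the derivative of the slice
  set P : E →L[ℂ] E₀ := P'.comp (dV E (φ : X → E) z) with hP
  obtain ⟨D, hD⟩ : ∃ D : E₀ →L[ℂ] E, D = mfderiv 𝓘(ℂ, E₀) 𝓘(ℂ, E) Q (Ψ c).2 := ⟨_, rfl⟩
  have hdQ : P.comp D = ContinuousLinearMap.id ℂ E₀ := by
    have g1 : HolV E (φ : X → E) (Q (Ψ c).2) := by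
      rw [hQ1]
      exact HolV.chart hz
    have g2 : dV E₀ (fun v => φ (Q v)) (Ψ c).2 =
        (dV E (φ : X → E) (Q (Ψ c).2)).comp D := by
      have g6 := mfderiv_comp (Ψ c).2 g1.mdiff ((hQhol _ hv₁).mdifferentiableAt (by simp))
      subst hD
      exact g6
    have g3 : (fun v => φ (Q v)) =ᶠ[𝓝 (Ψ c).2] fun v => R ((Ψ c).1, v) := by
      filter_upwards [isOpen_ball.mem_nhds hv₁] with v hv
      exact hφR v hv
    have g4 : HasFDerivAt (fun v => R ((Ψ c).1, v))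
        ((fderiv ℂ R (Ψ c)).comp (ContinuousLinearMap.inr ℂ E' E₀)) (Ψ c).2 :=
      HasFDerivAt.comp (g := R) (f := fun v : E₀ => ((Ψ c).1, v)) (Ψ c).2
        (((h2 _ hv₁).1.differentiableAt (by simp)).hasFDerivAt) (hasFDerivAt_prodMk_right _ _)
    have g5 : dV E₀ (fun v => φ (Q v)) (Ψ c).2 =
        (fderiv ℂ R (Ψ c)).comp (ContinuousLinearMap.inr ℂ E' E₀) := by
      unfold dV
      rw [g3.mfderiv_eq, mfderiv_eq_fderiv]
      exact g4.fderiv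
    rw [hP, ContinuousLinearMap.comp_assoc]
    rw [g5, hQ1] at g2
    rw [← g2]
    exact hP'
  have key := hM (Ψ c).2 Q hQhol hQinj (by rw [hQ1]; exact hx) (by rw [hQ1]; exact hzS) P
    (by subst hD; exact hdQ)
  rw [hQ1] at key
  -- the relative form
  have k1 : jac E' (ψ : Y → E') (f z) * JP e₀ (dM E E' f z) P =
      JP e₀ (fderiv ℂ Fh c) P' * jac E (φ : X → E) z := by
    have g1 : dV E (fun z => ψ (f z)) z = (fderiv ℂ Fh c).comp (dV E (φ : X → E) z) :=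
      dV_eq_chart hz (hψf z hfz)
    have g2 : dV E (fun z => ψ (f z)) z = (dV E' (ψ : Y → E') (f z)).comp (dM E E' f z) :=
      dV_comp (HolV.chart hfz) (hf z)
    have g4 := JP_left e₀ (dM E E' f z) P (dV E' (ψ : Y → E') (f z))
      (ContinuousLinearMap.id ℂ E₀)
    rw [det_id', mul_one, ContinuousLinearMap.id_comp, ← g2, g1, hP, JP_comp] at g4
    rw [hP]
    exact g4.symm
  have k3 := h3 P'
  rw [hP', det_id', norm_one, mul_one] at k3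
  have k4 : ‖eh c‖ = ‖e z‖ := by
    show ‖e (φ.symm c)‖ = ‖e z‖
    rw [hscz]
  rw [k4] at k3
  rw [norm_mul]
  calc ‖jac E' (ψ : Y → E') (f z) ^ n‖ * ‖Θ z‖
      ≤ ‖jac E' (ψ : Y → E') (f z) ^ n‖ * (M * ‖JP e₀ (dM E E' f z) P ^ n‖) := by
        gcongr
    _ ≤ ‖jac E' (ψ : Y → E') (f z) ^ n‖ * (|M| * ‖JP e₀ (dM E E' f z) P ^ n‖) := by
        gcongr
        exact le_abs_self M
    _ = |M| * ‖JP e₀ (fderiv ℂ Fh c) P'‖ ^ n * ‖jac E (φ : X → E) z ^ n‖ := by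
        rw [← norm_pow, mul_assoc |M|, ← norm_mul, ← mul_pow, ← k1, mul_pow, norm_mul]
        ring
    _ ≤ |M| * (B * ‖e z‖ ^ (κ - 1)) ^ n * ‖jac E (φ : X → E) z ^ n‖ := by
        gcongr
    _ = B ^ n * |M| * ‖e z‖ ^ (n * (κ - 1)) * ‖jac E (φ : X → E) z ^ n‖ := by
        rw [mul_pow, ← pow_mul, mul_comm (κ - 1) n]
        ring

end Rel

end Vale.Agent.P281.ELL
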