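import Vale.Agent.P281.ELL.LiftG
import Vale.Agent.P281.ELL.UpG
import Vale.Agent.P281.ELL.RelG

open scoped Manifold ContDiff Topology
open Set Filter Metric Asymptotics

namespace Vale.Agent.P281.ELL

open Vale.Agent.P281 Vale.Agent.P281.MF Vale.Agent.P281.ISO

set_option linter.unusedSectionVars false

universe u

section Core

variable {E E' E₀ : Type} [NormedAddCommGroup E] [NormedSpace ℂ E] [FiniteDimensional ℂ E]
  [NormedAddCommGroup E'] [NormedSpace ℂ E'] [FiniteDimensional ℂ E']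
  [NormedAddCommGroup E₀] [NormedSpace ℂ E₀] [FiniteDimensional ℂ E₀]
variable {X Y : Type u} [TopologicalSpace X] [ChartedSpace E X] [IsManifold 𝓘(ℂ, E) ω X]
  [TopologicalSpace Y] [ChartedSpace E' Y] [IsManifold 𝓘(ℂ, E') ω Y]

/-- a nowhere vanishing relative `N`-canonical form with bounded norms on the fibres. -/
theorem coreG [Nonempty X] {f : X → Y} (hf : ∀ x, HolM E E' f x) {S : Set Y} (hS : IsClosed S)
    (hSd : Dense Sᶜ) (hsurj : ∀ y, y ∉ S → ∃ x, f x = y)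
    (hsub : ∀ x, f x ∉ S → Function.Surjective (dM E E' f x)) (e₀ : E ≃L[ℂ] (E' × E₀))
    (hthin : ∀ x, ∃ h : X → ℂ, HolV E h x ∧ (¬ ∀ᶠ z in 𝓝 x, h z = 0) ∧
      ∀ᶠ z in 𝓝 x, (f z ∈ S → h z = 0) ∧ (h z = 0 → z ∈ closure {z | h z = 0 ∧ Good E E' f S z}))
    {N : ℕ} (hN : 0 < N) {Θ : X → ℂ}
    (hΘ : ∀ (x₀ x : X) (y₀ : Y), f x ∉ S → x ∈ (chartAt E x₀).source →
      f x ∈ (chartAt E' y₀).source → ∃ H : X → ℂ, HolV E H x ∧ ∀ᶠ z in 𝓝 x,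
        jac E' (chartAt E' y₀) (f z) ^ N * Θ z = H z * jac E (chartAt E x₀) z ^ N)
    (hΘ0 : ∀ x, f x ∉ S → Θ x ≠ 0)
    (hfib : ∀ r : ℝ, 0 < r → ∃ M : ℝ, ∀ (v₀ : E₀) (Q : E₀ → X),
      (∀ v ∈ ball v₀ r, ContMDiffAt 𝓘(ℂ, E₀) 𝓘(ℂ, E) ω Q v) → InjOn Q (ball v₀ r) →
      (∀ v ∈ ball v₀ r, f (Q v) = f (Q v₀)) → f (Q v₀) ∉ S → ∀ P : E →L[ℂ] E₀,
      P.comp (mfderiv 𝓘(ℂ, E₀) 𝓘(ℂ, E) Q v₀ : E₀ →L[ℂ] E) = ContinuousLinearMap.id ℂ E₀ →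
      ‖Θ (Q v₀)‖ ≤ M * ‖JP e₀ (dM E E' f (Q v₀)) P ^ N‖)
    {Δ : Set X → ℝ} (hsnc : IsSNCBoundary E Δ) {B : Set Y → ℝ}
    (hB : ∀ G, B G ≠ 0 → IsPrimeDivisor E' G ∧ G ⊆ S)
    (hBD : ∀ (D : Set X) (G : Set Y) (κ : ℕ), IsPrimeDivisor E D → IsPrimeDivisor E' G →
      closure (f '' D) = G → 0 < κ → (∃ z ∈ D, ∃ e g w, IsLocalEq E D e z ∧
        IsLocalEq E' G g (f z) ∧ HolAt E w z ∧ w z ≠ 0 ∧ ∀ᶠ x in 𝓝 z, g (f x) = e x ^ κ * w x) →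
      (κ : ℝ) * B G ≤ κ - 1 + Δ D)
    {j : ℕ} (h₂ : KodGE E' (fun (G : Set Y) z g => IsLocalEq E' G g z) B j) :
    KodGE E (fun (D : Set X) z g => IsLocalEq E D g z) Δ j := by
  classical
  obtain ⟨q₀, hq₀, K₁, hK₁, -⟩ := exists_denominator hsnc
  refine kodGE_upG hf hS hSd hsurj hsub hsnc.finite hsnc.prime (fun G hG => (hB G hG).1)
    (q := N * q₀) (Nat.mul_pos hN hq₀) (K₀ := fun D => N * K₁ D) (fun D => by
      push_cast; rw [hK₁ D]; ring) (Jf := fun z => Θ z ^ q₀)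
      (fun z hz => pow_ne_zero _ (hΘ0 z hz)) ?_ h₂
  intro m k t hm hk ht
  set p : ℕ := q₀ * m with hp
  have hp0 : 0 < p := Nat.mul_pos hq₀ hm
  have hnp : m * (N * q₀) = N * p := by rw [hp]; ring
  have hKD : ∀ D, m * (N * K₁ D) ≠ 0 → Δ D ≠ 0 := by
    intro D hD h0
    apply hD
    have h1 := hK₁ D
    rw [h0, mul_zero] at h1
    have h2 : K₁ D = 0 := by exact_mod_cast h1
    rw [h2]; simp
  have hkB : ∀ G, k G ≠ 0 → B G ≠ 0 := by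
    intro G hG h0
    have h1 := hk G
    rw [h0, mul_zero] at h1
    exact hG (by exact_mod_cast h1)
  have hexp : ∀ (D : Set X) (G : Set Y) (κ : ℕ), IsPrimeDivisor E D → IsPrimeDivisor E' G →
      closure (f '' D) = G → 0 < κ →
      (∃ z ∈ D, ∃ e g w, IsLocalEq E D e z ∧ IsLocalEq E' G g (f z) ∧ HolAt E w z ∧
        w z ≠ 0 ∧ ∀ᶠ x in 𝓝 z, g (f x) = e x ^ κ * w x) →
      κ * k G ≤ (m * (N * q₀)) * (κ - 1) + m * (N * K₁ D) := by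
    intro D G κ hD hG hDG hκ hwit
    have h1 := hBD D G κ hD hG hDG hκ hwit
    have h3 : ((κ * k G : ℕ) : ℝ) ≤ (((m * (N * q₀)) * (κ - 1) + m * (N * K₁ D) : ℕ) : ℝ) := by
      push_cast [Nat.cast_sub (show 1 ≤ κ from hκ)]
      rw [hk G, hK₁]
      push_cast
      have h4 : (0 : ℝ) ≤ m * (N * q₀) := by positivity
      calc (κ : ℝ) * (m * (N * q₀) * B G) = m * (N * q₀) * (κ * B G) := by ring
        _ ≤ m * (N * q₀) * (κ - 1 + Δ D) := by gcongr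
        _ = m * (N * q₀) * (κ - 1) + m * (N * (q₀ * Δ D)) := by ring
    exact_mod_cast h3
  obtain ⟨σ, hσ, hσe⟩ := liftG hf hS hthin (n := m * (N * q₀)) (Θ := fun x => Θ x ^ p)
    (fun x₀ x y₀ hx hx₀ hy₀ => by
      obtain ⟨H, hH, hHe⟩ := hΘ x₀ x y₀ hx hx₀ hy₀
      clear_value p
      refine ⟨fun z => H z ^ p, hH.pow p, ?_⟩
      filter_upwards [hHe] with z hz
      have h1 := congrArg (· ^ p) hz
      simp only [mul_pow, ← pow_mul] at h1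
      rw [hnp]
      exact h1)
    (fun x₀ y y₀ hx₀ hy₀ e w g κ hκ he he0 hde hg hg0 hdg hw hw0 heq hsub' => by
      refine rel_bound_G hf e₀ (n := m * (N * q₀)) (Nat.mul_pos hm (Nat.mul_pos hN hq₀)) ?_
        hx₀ hy₀ hκ he he0 hde hg hg0 hdg hw hw0 heq hsub'
      intro r hr
      obtain ⟨M, hM⟩ := hfib r hr
      refine ⟨M ^ p, fun v₀ Q h1 h2 h3 h4 P h5 => ?_⟩
      have h6 := hM v₀ Q h1 h2 h3 h4 P h5
      show ‖Θ (Q v₀) ^ p‖ ≤ M ^ p * ‖JP e₀ (dM E E' f (Q v₀)) P ^ (m * (N * q₀))‖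
      have h7 := pow_le_pow_left₀ (norm_nonneg _) h6 p
      rw [mul_pow, ← norm_pow, ← norm_pow, ← pow_mul] at h7
      rw [hnp]
      exact h7)
    (K := fun D => m * (N * K₁ D)) (hsnc.finite.subset fun D hD => hKD D hD)
    (fun D hD => hsnc.prime D (hKD D hD)) (fun G hG => (hB G (hkB G hG)).1)
    (fun G hG => (hB G (hkB G hG)).2) hexp ht
  exact ⟨σ, hσ, fun x hx => by rw [hσe x hx, ← pow_mul]⟩

end Core

end Vale.Agent.P281.ELL
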