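import Vale.Agent.P281.ISO.LiftQ

open scoped Manifold ContDiff Topology
open Set Filter Metric Asymptotics

namespace Vale.Agent.P281.ELL

open Vale.Agent.P281 Vale.Agent.P281.MF Vale.Agent.P281.ISO

set_option linter.unusedSectionVars false

universe u

section Lift

variable {E E' : Type} [NormedAddCommGroup E] [NormedSpace ℂ E] [FiniteDimensional ℂ E]
  [NormedAddCommGroup E'] [NormedSpace ℂ E'] [FiniteDimensional ℂ E']
variable {X Y : Type u} [TopologicalSpace X] [ChartedSpace E X] [IsManifold 𝓘(ℂ, E) ω X]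
  [TopologicalSpace Y] [ChartedSpace E' Y] [IsManifold 𝓘(ℂ, E') ω Y]

variable {f : X → Y} {S : Set Y}

theorem liftGP [Nonempty X] (hf : ∀ x, HolM E E' f x) (hS : IsClosed S)
    (hthin : ∀ x, ∃ h : X → ℂ, HolV E h x ∧ (¬ ∀ᶠ z in 𝓝 x, h z = 0) ∧
      ∀ᶠ z in 𝓝 x, (f z ∈ S → h z = 0) ∧ (h z = 0 → z ∈ closure {z | h z = 0 ∧ Good E E' f S z}))
    {n : ℕ} {Θ : X → ℂ}
    {K : Set X → ℕ} (hKfin : {D | K D ≠ 0}.Finite) (hKpr : ∀ D, K D ≠ 0 → IsPrimeDivisor E D)
    (hΘ : ∀ (x₀ x : X) (y₀ : Y), f x ∉ S → x ∈ (chartAt E x₀).source →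
      f x ∈ (chartAt E' y₀).source → ∀ (T : Finset (Set X)) (e : Set X → X → ℂ),
      (∀ D, K D ≠ 0 → D ∈ T) → (∀ D ∈ T, IsLocalEq E D (e D) x) →
      ∃ H : X → ℂ, HolV E H x ∧ ∀ᶠ z in 𝓝 x, ∏ D ∈ T, e D z ^ K D ≠ 0 →
        jac E' (chartAt E' y₀) (f z) ^ n * Θ z * ∏ D ∈ T, e D z ^ K D =
          H z * jac E (chartAt E x₀) z ^ n)
    (hrel : ∀ (x₀ y : X) (y₀ : Y), y ∈ (chartAt E x₀).source → f y ∈ (chartAt E' y₀).source →
      ∀ (e w : X → ℂ) (g : Y → ℂ) (κ : ℕ), 0 < κ → HolV E e y → e y = 0 → dif E e y ≠ 0 →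
      HolV E' g (f y) → g (f y) = 0 → dif E' g (f y) ≠ 0 → HolV E w y → w y ≠ 0 →
      (∀ᶠ z in 𝓝 y, g (f z) = e z ^ κ * w z) →
      (∀ η, dif E' g (f y) η = 0 → ∃ ξ, dif E e y ξ = 0 ∧ dM E E' f y ξ = η) →
      (∀ᶠ z in 𝓝 y, f z ∉ S → ∀ D, K D ≠ 0 → z ∉ D) →
      ∃ C : ℝ, ∀ᶠ z in 𝓝 y, f z ∉ S →
        ‖jac E' (chartAt E' y₀) (f z) ^ n * Θ z‖ ≤
          C * ‖e z‖ ^ (n * (κ - 1)) * ‖jac E (chartAt E x₀) z ^ n‖)
    {k : Set Y → ℕ} (hkpr : ∀ G, k G ≠ 0 → IsPrimeDivisor E' G) (hkS : ∀ G, k G ≠ 0 → G ⊆ S)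
    (hexp : ∀ (D : Set X) (G : Set Y) (κ : ℕ), IsPrimeDivisor E D → IsPrimeDivisor E' G →
      closure (f '' D) = G → 0 < κ →
      (∃ z ∈ D, ∃ e g w, IsLocalEq E D e z ∧ IsLocalEq E' G g (f z) ∧ HolAt E w z ∧
        w z ≠ 0 ∧ ∀ᶠ x in 𝓝 z, g (f x) = e x ^ κ * w x) →
      κ * k G ≤ n * (κ - 1) + K D)
    {t : Y → ℂ} (ht : IsSection E' (fun (G : Set Y) z g => IsLocalEq E' G g z) n k t) :
    ∃ σ : X → ℂ, IsSection E (fun (D : Set X) z g => IsLocalEq E D g z) n K σ ∧
      ∀ x, f x ∉ S → σ x = t (f x) * Θ x := by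
  classical
  obtain ⟨x₁⟩ := ‹Nonempty X›
  have hkfin : {G | k G ≠ 0}.Finite := by
    obtain ⟨T, -, -, hT, -⟩ := ht (f x₁)
    exact T.finite_toSet.subset fun G hG => hT G hG
  have hfc : ∀ x, ContinuousAt f x := fun x => (hf x).continuousAt
  have hfcont : Continuous f := continuous_iff_continuousAt.2 hfc
  set Ω : Set X := {z | f z ∉ S} with hΩ
  have hΩo : IsOpen Ω := hS.isOpen_compl.preimage hfcont
  have hΩd : Dense Ω := by
    intro x
    obtain ⟨h, -, hne, hev⟩ := hthin x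
    rw [mem_closure_iff_frequently]
    intro hcon
    apply hne
    filter_upwards [hcon, hev] with z hz hz'
    exact hz'.1 (not_not.1 hz)
  -- the section over `Ω`
  set σ₀ : X → ℂ := fun x => t (f x) * Θ x with hσ₀
  have hσ₀e : ∀ x, σ₀ x = t (f x) * Θ x := fun x => rfl
  obtain ⟨σ', hσ', hsec⟩ := extend_section (E := E) (m := n) (K := K) hΩd (σ := σ₀) (by
    intro z₀
    obtain ⟨TY, gY, aY, hTY, hgY, haY, hevY⟩ := ht (f z₀)
    obtain ⟨Den, hDen, hDne, hDev⟩ := hthin z₀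
    have heX : ∀ D, ∃ e : X → ℂ, K D ≠ 0 → IsLocalEq E D e z₀ := by
      intro D
      by_cases hD : K D = 0
      · exact ⟨fun _ => 0, fun h => absurd hD h⟩
      · obtain ⟨e, he⟩ := (hKpr D hD).2.1 z₀
        exact ⟨e, fun _ => he⟩
    choose eX heX using heX
    set TX : Finset (Set X) := hKfin.toFinset with hTX
    have hTXm : ∀ D, D ∈ TX ↔ K D ≠ 0 := fun D => by rw [hTX, Set.Finite.mem_toFinset]; rfl
    have heX' : ∀ D ∈ TX, IsLocalEq E D (eX D) z₀ := fun D hD => heX D ((hTXm D).1 hD)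
    set φ := chartAt E z₀ with hφ
    set ψ := chartAt E' (f z₀) with hψ
    have hz₀s : z₀ ∈ φ.source := mem_chart_source E z₀
    have hy₀s : f z₀ ∈ ψ.source := mem_chart_source E' (f z₀)
    set PX : X → ℂ := fun z => ∏ D ∈ TX, eX D z ^ K D with hPX
    set PY : Y → ℂ := fun y => ∏ G ∈ TY, gY G y ^ k G with hPY
    set h₀ : X → ℂ := fun z => σ₀ z * PX z / jac E φ z ^ n with hh₀
    have hgYe : ∀ᶠ z in 𝓝 z₀, ∀ G ∈ TY, IsLocalEq E' G (gY G) (f z) := by
      rw [Filter.eventually_all_finset]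
      intro G hG
      exact (hfc z₀).eventually (hgY G hG).eventually
    have heXe : ∀ᶠ z in 𝓝 z₀, ∀ D ∈ TX, IsLocalEq E D (eX D) z := by
      rw [Filter.eventually_all_finset]
      intro D hD
      exact (heX' D hD).eventually
    -- everything needed at points near `z₀`
    set W : X → Prop := fun z => (∀ G ∈ TY, IsLocalEq E' G (gY G) (f z)) ∧
      (∀ D ∈ TX, IsLocalEq E D (eX D) z) ∧ z ∈ φ.source ∧ f z ∈ ψ.source ∧ HolV E' aY (f z) ∧
      (PY (f z) ≠ 0 → t (f z) * PY (f z) = aY (f z) * jac E' ψ (f z) ^ n) with hW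
    have hWev : ∀ᶠ z in 𝓝 z₀, W z := by
      filter_upwards [hgYe, heXe, φ.open_source.mem_nhds hz₀s,
        (hfc z₀).eventually (ψ.open_source.mem_nhds hy₀s),
        (hfc z₀).eventually (HolV.eventually (E := E') haY),
        (hfc z₀).eventually hevY] with z h1 h2 h3 h4 h5 h6
      exact ⟨h1, h2, h3, h4, h5, h6⟩
    have hWW : ∀ᶠ z in 𝓝 z₀, ∀ᶠ z' in 𝓝 z, W z' := eventually_eventually_nhds.2 hWev
    have hPY0 : ∀ z, W z → f z ∉ S → PY (f z) ≠ 0 := by
      intro z hz hzS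
      refine Finset.prod_ne_zero_iff.2 fun G hG => ?_
      by_cases hk : k G = 0
      · simp [hk]
      · refine pow_ne_zero _ fun h0 => hzS (hkS G hk ((hz.1 G hG).mem_iff.2 h0))
    have hPXh : ∀ z, W z → HolV E PX z := fun z hz =>
      HolV.prod fun D hD => ((hz.2.1 D hD).holAt).pow (K D)
    have hPYh : ∀ z, W z → HolV E (fun z => PY (f z)) z := fun z hz =>
      HolV.prod fun G hG => (HolV.comp (E' := E') (hz.1 G hG).holAt (hf z)).pow (k G)
    -- holomorphy over `Ω`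
    have hTXm' : ∀ D, K D ≠ 0 → D ∈ TX := fun D hD => (hTXm D).2 hD
    have hhol : ∀ z, (∀ᶠ z' in 𝓝 z, W z') → f z ∉ S →
        ∃ H₁ : X → ℂ, HolV E H₁ z ∧ ∀ᶠ z' in 𝓝 z, PX z' ≠ 0 → h₀ z' = H₁ z' := by
      intro z hz hzS
      have hz0 := hz.self_of_nhds
      obtain ⟨H, hH, hHe⟩ := hΘ z₀ z (f z₀) hzS hz0.2.2.1 hz0.2.2.2.1 TX eX hTXm'
        (fun D hD => hz0.2.1 D hD)
      refine ⟨fun z => aY (f z) * H z / PY (f z),
        HolV.div ((HolV.comp (E' := E') hz0.2.2.2.2.1 (hf z)).mul hH)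
          (hPYh z hz0) (hPY0 z hz0 hzS), ?_⟩
      filter_upwards [hz, hHe, hΩo.mem_nhds hzS] with z' h2 h4 h5 hPX0
      have h6 := hPY0 z' h2 h5
      have h7 := h2.2.2.2.2.2 h6
      have h8 := h4 hPX0
      have hj : jac E φ z' ^ n ≠ 0 := pow_ne_zero _ (jac_chart_ne_zero h2.2.2.1)
      simp only [hh₀]
      rw [hσ₀e z', div_eq_div_iff hj h6]
      linear_combination (Θ z' * PX z') * h7 + aY (f z') * h8
    have hhol' : ∀ z, (∀ᶠ z' in 𝓝 z, W z') → f z ∉ S → PX z ≠ 0 → HolV E h₀ z := by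
      intro z hz hzS h0
      obtain ⟨H₁, hH₁, hH₁e⟩ := hhol z hz hzS
      refine hH₁.congr ?_
      filter_upwards [hH₁e, (hPXh z hz.self_of_nhds).continuousAt.eventually_ne h0] with z' h1 h2
        using h1 h2
    set P₁ : X → ℂ := fun z => ∏ D ∈ TX, eX D z with hP₁
    have hP₁h : HolV E P₁ z₀ := HolV.prod fun D hD => (heX' D hD).holAt
    set Den' : X → ℂ := fun z => Den z * P₁ z with hDen'
    have hfr : ∀ᶠ y in 𝓝 z₀, ∃ᶠ z in 𝓝 y, Den' z ≠ 0 :=
      freq_mul hDen (ne_frequently hDen hDne) (freq_prod (fun D hD => (heX' D hD).holAt)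
        (fun D hD => leq_frequently_ne (heX' D hD)))
    have hPP : ∀ z, P₁ z ≠ 0 → PX z ≠ 0 := by
      intro z hz
      refine Finset.prod_ne_zero_iff.2 fun D hD => pow_ne_zero _ ?_
      exact Finset.prod_ne_zero_iff.1 hz D hD
    obtain ⟨Q, hQ, hQe⟩ := extendM_off (h := h₀) (Den := Den') (hDen.mul hP₁h)
      (fun hcon => hfr.self_of_nhds (by simpa using hcon)) (by
      filter_upwards [hWW, hDev] with z hz hz' hz0
      exact hhol' z hz (fun hzS => left_ne_zero_of_mul hz0 (hz'.1 hzS))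
        (hPP z (right_ne_zero_of_mul hz0))) (by
      filter_upwards [hWW, hDev, eventually_eventually_nhds.2 hDev] with z hz hz' hz'' hz0
      have hself : ∀ y, (∀ᶠ z' in 𝓝 y, W z') → f y ∉ S →
          ∃ C : ℝ, ∀ᶠ w in 𝓝 y, Den' w ≠ 0 → ‖h₀ w‖ ≤ C := by
        intro y hyW hyS
        obtain ⟨H₁, hH₁, hH₁e⟩ := hhol y hyW hyS
        refine ⟨‖H₁ y‖ + 1, ?_⟩
        filter_upwards [hH₁e, (HolV.continuousAt (E := E) hH₁).norm.eventually_lt_const
          (lt_add_one ‖H₁ y‖)] with w h1 h2 h3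
        rw [h1 (hPP w (right_ne_zero_of_mul h3))]
        exact h2.le
      by_cases hDz : Den z = 0
      swap
      · exact subset_closure ⟨hz0, hself z hz fun hzS => hDz (hz'.1 hzS)⟩
      have h1 := mem_closure_iff_frequently.1 (hz'.2 hDz)
      rw [mem_closure_iff_frequently]
      have h2 : ∃ᶠ y in 𝓝 z, (Den y = 0 ∧ Good E E' f S y) ∧ (∀ᶠ z' in 𝓝 y, W z') ∧
          ∀ᶠ z' in 𝓝 y, (f z' ∈ S → Den z' = 0) :=
        h1.and_eventually ((eventually_eventually_nhds.2 hz).and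
          ((eventually_eventually_nhds.2 hz'').mono fun y hy => hy.mono fun _ h => h.1))
      -- it suffices to find such points near `y`
      suffices hsuf : ∀ y, (Den y = 0 ∧ Good E E' f S y) → (∀ᶠ z' in 𝓝 y, W z') →
          (∀ᶠ z' in 𝓝 y, (f z' ∈ S → Den z' = 0)) →
          ∃ᶠ y' in 𝓝 y, Den' y' = 0 ∧ ∃ C : ℝ, ∀ᶠ w in 𝓝 y', Den' w ≠ 0 → ‖h₀ w‖ ≤ C by
        intro hcon
        obtain ⟨y, ⟨hy1, hy2, hy3⟩, hy4⟩ :=
          (h2.and_eventually (eventually_eventually_nhds.2 hcon)).exists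
        exact hsuf y hy1 hy2 hy3 hy4
      rintro y ⟨hy0, hyg⟩ hyW hyD
      rcases hyg with hyS | ⟨D, G, e, g, w, κ, hDp, hGp, hDG, hyDm, he, hde, hg, hdg, hw, hw0,
        hev⟩
      · intro hcon
        exact hcon.self_of_nhds ⟨by rw [hDen']; simp [hy0], hself y hyW hyS⟩
      · have hrod := ROD_avoid_all₂ hf hDG hGp hDp hkfin (fun G' hG' => hkpr G' hG')
        have hrod' := ROD_avoid_all₂ (E' := E) (f := (id : X → X)) (fun x => contMDiffAt_id)
          (by rw [image_id]; exact hDp.1.closure_eq) hDp hDp hKfin (fun D' hD' => hKpr D' hD')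
        have h3 := mem_closure_iff_frequently.1 ((hrod.inter hrod').2.1 hyDm)
        refine (h3.and_eventually ((eventually_eventually_nhds.2 hyW).and
          ((eventually_eventually_nhds.2 hyD).and (he.eventually.and
          ((dif_ne_eventually he.holAt hde).and (((hfc y).eventually hg.eventually).and
          (((hfc y).eventually (dif_ne_eventually hg.holAt hdg)).and
          ((HolV.eventually (E := E) hw).and (((HolV.continuousAt (E := E) hw).eventually_ne
            hw0).and (eventually_eventually_nhds.2 hev)))))))))).mono ?_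
        rintro y' ⟨⟨⟨hy'D, hy'av⟩, -, hy'av'⟩, hW', hD', he', hde', hg', hdg', hw', hw0', hev'⟩
        have hev0 := hev'.self_of_nhds
        have hfyG : f y' ∈ G := by
          rw [← hDG]
          exact subset_closure ⟨y', hy'D, rfl⟩
        have hg0 : g (f y') = 0 := hg'.mem_iff.1 hfyG
        have he0 : e y' = 0 := he'.mem_iff.1 hy'D
        have hκ0 : 0 < κ := by
          rcases Nat.eq_zero_or_pos κ with h0 | h0
          · exfalso
            have h4 := hev0.1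
            rw [hg0, h0, pow_zero, one_mul] at h4
            exact hw0' h4.symm
          · exact h0
        refine ⟨by
          show Den y' * P₁ y' = 0
          rw [hD'.self_of_nhds (hev0.2.1.2 hy'D), zero_mul], ?_⟩
        have hoff : ∀ᶠ z in 𝓝 y', ∀ D', K D' ≠ 0 → D' ≠ D → z ∉ D' := by
          have h4 : ∀ᶠ z in 𝓝 y', ∀ D' ∈ hKfin.toFinset, D' ≠ D → z ∉ D' := by
            rw [Filter.eventually_all_finset]
            intro D' hD'
            by_cases hne : D' = D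
            · exact Eventually.of_forall fun z h => absurd hne h
            · have hD'' : K D' ≠ 0 := by simpa using hD'
              filter_upwards [(hKpr D' hD'').1.isOpen_compl.mem_nhds (hy'av' D' hD'' hne)]
                with z hz _ using hz
          filter_upwards [h4] with z hz D' hD' using hz D' (by simpa using hD')
        have hav : ∀ᶠ z in 𝓝 y', f z ∉ S → ∀ D', K D' ≠ 0 → z ∉ D' := by
          filter_upwards [hoff, hev'] with z h4 h5 hzS D' hD' hzD'
          by_cases h8 : D' = D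
          · exact hzS (h5.2.1.2 (h8 ▸ hzD'))
          · exact h4 _ hD' h8 hzD'
        have hW0 := hW'.self_of_nhds
        obtain ⟨C, hC⟩ := hrel z₀ y' (f z₀) hW0.2.2.1 hW0.2.2.2.1 e w g κ hκ0 he'.holAt he0 hde'
          hg'.holAt hg0 hdg' hw' hw0' (hev'.mono fun _ h => h.1) (hev0.2.2 hy'D) hav
        obtain ⟨C', hC'⟩ := good_bound' hf he' hg' hw' hw0' (hev'.mono fun _ h => h.1) hW0.2.1
          (K := K) (by
            intro h
            by_contra h0
            exact h ((hTXm _).2 h0)) hW0.1 (k := k) (by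
            intro h
            by_contra h0
            exact h (hTY _ h0)) (fun G' _ hk' hne' => hy'av G' hk' hne')
          (A := fun z => aY (f z))
          (HolV.comp (E' := E') hW0.2.2.2.2.1 (hf y')).continuousAt (n := n)
          (hexp D G κ hDp hGp hDG hκ0 ⟨y', hy'D, e, g, w, he', hg', hw', hw0',
            hev'.mono fun _ h => h.1⟩)
        refine ⟨max C 0 * C', ?_⟩
        filter_upwards [hC, hC', hW', hD'] with z h4 h5 h6 h7 hz0
        have hzS : f z ∉ S := fun h => left_ne_zero_of_mul hz0 (h7 h)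
        have h8 := hPY0 z h6 hzS
        have h9 := h6.2.2.2.2.2 h8
        have hj : jac E φ z ^ n ≠ 0 := pow_ne_zero _ (jac_chart_ne_zero h6.2.2.1)
        have h10 : h₀ z * (PY (f z) * jac E φ z ^ n) =
            aY (f z) * (jac E' ψ (f z) ^ n * Θ z) * PX z := by
          simp only [hh₀]
          rw [hσ₀e z]
          field_simp
          linear_combination (Θ z * PX z) * h9
        have h11 : ‖h₀ z‖ * (‖PY (f z)‖ * ‖jac E φ z ^ n‖) ≤
            (max C 0 * C') * (‖PY (f z)‖ * ‖jac E φ z ^ n‖) := by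
          calc ‖h₀ z‖ * (‖PY (f z)‖ * ‖jac E φ z ^ n‖)
              = ‖h₀ z * (PY (f z) * jac E φ z ^ n)‖ := by rw [norm_mul, norm_mul]
            _ = ‖aY (f z)‖ * ‖jac E' ψ (f z) ^ n * Θ z‖ * ‖PX z‖ := by
                rw [h10, norm_mul, norm_mul]
            _ ≤ ‖aY (f z)‖ * (C * ‖e z‖ ^ (n * (κ - 1)) * ‖jac E φ z ^ n‖) * ‖PX z‖ := by
                gcongr
                exact h4 hzS
            _ ≤ ‖aY (f z)‖ * (max C 0 * ‖e z‖ ^ (n * (κ - 1)) * ‖jac E φ z ^ n‖) * ‖PX z‖ := by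
                gcongr
                exact le_max_left _ _
            _ = max C 0 * ‖jac E φ z ^ n‖ *
                  ‖aY (f z) * e z ^ (n * (κ - 1)) * ∏ D ∈ TX, eX D z ^ K D‖ := by
                rw [norm_mul, norm_mul, norm_pow (e z)]; ring
            _ ≤ max C 0 * ‖jac E φ z ^ n‖ * (C' * ‖PY (f z)‖) := by
                gcongr
            _ = (max C 0 * C') * (‖PY (f z)‖ * ‖jac E φ z ^ n‖) := by ring
        exact le_of_mul_le_mul_right h11 (by positivity))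
    refine ⟨TX, eX, Q, fun D hD => (hTXm D).2 hD, heX', hQ, ?_⟩
    filter_upwards [hQe, eventually_eventually_nhds.2 hQe, hWW, hfr,
      hQ.eventually] with z h1 h2 h3 h4 h5 hzS hPz
    have hj : jac E φ z ^ n ≠ 0 := pow_ne_zero _ (jac_chart_ne_zero h3.self_of_nhds.2.2.1)
    have h6 : h₀ z = Q z := by
      by_contra hcon
      have h7 : ContinuousAt (fun y => h₀ y - Q y) z :=
        (hhol' z h3 hzS hPz).continuousAt.sub h5.continuousAt
      have h8 := h7.eventually_ne (sub_ne_zero.2 hcon)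
      obtain ⟨y, hy, hy1, hy2⟩ := (h4.and_eventually (h2.and h8)).exists
      exact hy2 (sub_eq_zero.2 (hy1 hy))
    show σ₀ z * PX z = Q z * jac E φ z ^ n
    rw [← h6]
    simp only [hh₀]
    rw [div_mul_cancel₀ _ hj])
  exact ⟨σ', hsec, fun x hx => by rw [hσ' x hx, hσ₀e x]⟩

end Lift

end Vale.Agent.P281.ELL
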