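import Vale.Agent.P281.ELL.RelG

/-! P281, elliptic fibrations: forms bounded on the slices of the fibres avoiding a closed set, at
the good points of a ramification divisor. -/

open scoped Manifold ContDiff Topology
open Set Filter Metric

namespace Vale.Agent.P281.ELL

open Vale.Agent.P281 Vale.Agent.P281.MF Vale.Agent.P281.ISO

set_option linter.all false

universe u

section Rel

variable {E E' E₀ : Type} [NormedAddCommGroup E] [NormedSpace ℂ E] [FiniteDimensional ℂ E]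
  [NormedAddCommGroup E'] [NormedSpace ℂ E'] [FiniteDimensional ℂ E']
  [NormedAddCommGroup E₀] [NormedSpace ℂ E₀] [FiniteDimensional ℂ E₀]
variable {X Y : Type u} [TopologicalSpace X] [ChartedSpace E X] [IsManifold 𝓘(ℂ, E) ω X]
  [TopologicalSpace Y] [ChartedSpace E' Y] [IsManifold 𝓘(ℂ, E') ω Y]

theorem rel_bound_GP {f : X → Y} (hf : ∀ x, HolM E E' f x) {S : Set Y} {A : Set X}
    (e₀ : E ≃L[ℂ] (E' × E₀)) {n : ℕ} (hn : 0 < n) {Θ : X → ℂ}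
    (hfib : ∀ r : ℝ, 0 < r → ∃ M : ℝ, ∀ (v₀ : E₀) (Q : E₀ → X),
      (∀ v ∈ ball v₀ r, ContMDiffAt 𝓘(ℂ, E₀) 𝓘(ℂ, E) ω Q v) → InjOn Q (ball v₀ r) →
      (∀ v ∈ ball v₀ r, f (Q v) = f (Q v₀)) → f (Q v₀) ∉ S → (∀ v ∈ ball v₀ r, Q v ∉ A) →
      ∀ P : E →L[ℂ] E₀, P.comp (mfderiv 𝓘(ℂ, E₀) 𝓘(ℂ, E) Q v₀ : E₀ →L[ℂ] E) =
        ContinuousLinearMap.id ℂ E₀ → ‖Θ (Q v₀)‖ ≤ M * ‖JP e₀ (dM E E' f (Q v₀)) P ^ n‖)
    {x₀ y : X} {y₀ : Y} (hx₀ : y ∈ (chartAt E x₀).source)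
    (hy₀ : f y ∈ (chartAt E' y₀).source) {e w : X → ℂ} {g : Y → ℂ} {κ : ℕ} (hκ : 0 < κ)
    (he : HolV E e y) (he0 : e y = 0) (hde : dif E e y ≠ 0) (hg : HolV E' g (f y))
    (hg0 : g (f y) = 0) (hdg : dif E' g (f y) ≠ 0) (hw : HolV E w y) (hw0 : w y ≠ 0)
    (heq : ∀ᶠ z in 𝓝 y, g (f z) = e z ^ κ * w z)
    (hsub : ∀ η, dif E' g (f y) η = 0 → ∃ ξ, dif E e y ξ = 0 ∧ dM E E' f y ξ = η)
    (hA : ∀ᶠ z in 𝓝 y, f z ∉ S → z ∉ A) :
    ∃ C : ℝ, ∀ᶠ z in 𝓝 y, f z ∉ S →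
      ‖jac E' (chartAt E' y₀) (f z) ^ n * Θ z‖ ≤
        C * ‖e z‖ ^ (n * (κ - 1)) * ‖jac E (chartAt E x₀) z ^ n‖ := by
  classical
  set φ := chartAt E x₀ with hφ
  set ψ := chartAt E' y₀ with hψ
  have hmem : φ ∈ IsManifold.maximalAtlas 𝓘(ℂ, E) ω X := IsManifold.chart_mem_maximalAtlas _
  set c₀ : E := φ y with hc₀
  have hsc : φ.symm c₀ = y := φ.left_inv hx₀
  have hψf : ∀ z, f z ∈ ψ.source → HolV E (fun z => ψ (f z)) z := fun z hz =>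
    HolV.comp (HolV.chart hz) (hf z)
  set Fh : E → E' := (fun z => ψ (f z)) ∘ φ.symm with hFh
  set eh : E → ℂ := e ∘ φ.symm with heh
  set wh : E → ℂ := w ∘ φ.symm with hwh
  set gh : E' → ℂ := g ∘ ψ.symm with hgh
  have hF : ContDiffAt ℂ ω Fh c₀ := (hψf y hy₀).rep hx₀
  have heh' : ContDiffAt ℂ ω eh c₀ := he.rep hx₀
  have hwh' : ContDiffAt ℂ ω wh c₀ := hw.rep hx₀
  have hFc : Fh c₀ = ψ (f y) := by
    show ψ (f (φ.symm c₀)) = ψ (f y)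
    rw [hsc]
  have hgh' : ContDiffAt ℂ ω gh (Fh c₀) := by
    rw [hFc]
    exact hg.rep hy₀
  -- derivatives
  have d1 : dif E e y = (fderiv ℂ eh c₀).comp (dV E (φ : X → E) y) := dV_eq_chart hx₀ he
  have d2 : dif E' g (f y) = (fderiv ℂ gh (Fh c₀)).comp (dV E' (ψ : Y → E') (f y)) := by
    rw [hFc]
    exact dV_eq_chart hy₀ hg
  have d3 : dV E (fun z => ψ (f z)) y = (fderiv ℂ Fh c₀).comp (dV E (φ : X → E) y) :=
    dV_eq_chart hx₀ (hψf y hy₀)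
  have d4 : dV E (fun z => ψ (f z)) y = (dV E' (ψ : Y → E') (f y)).comp (dM E E' f y) :=
    dV_comp (HolV.chart hy₀) (hf y)
  have hde' : fderiv ℂ eh c₀ ≠ 0 := by
    intro h0
    apply hde
    rw [d1, h0]
    exact ContinuousLinearMap.zero_comp _
  have hdg' : fderiv ℂ gh (Fh c₀) ≠ 0 := by
    intro h0
    apply hdg
    rw [d2, h0]
    exact ContinuousLinearMap.zero_comp _
  have hφs : ContinuousAt φ.symm c₀ := φ.continuousAt_symm (φ.map_source hx₀)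
  have hφst : Tendsto φ.symm (𝓝 c₀) (𝓝 y) := by
    have := hφs.tendsto
    rwa [hsc] at this
  have hfc : ContinuousAt f y := (hf y).continuousAt
  have hfs : ∀ᶠ z in 𝓝 y, f z ∈ ψ.source := hfc.eventually (ψ.open_source.mem_nhds hy₀)
  have heq' : ∀ᶠ c in 𝓝 c₀, gh (Fh c) = eh c ^ κ * wh c := by
    filter_upwards [hφst.eventually heq, hφst.eventually hfs] with c h1 h2
    show g (ψ.symm (ψ (f (φ.symm c)))) = _
    rw [ψ.left_inv h2]
    exact h1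
  have hsub' : ∀ η, fderiv ℂ gh (Fh c₀) η = 0 →
      ∃ ξ, fderiv ℂ eh c₀ ξ = 0 ∧ fderiv ℂ Fh c₀ ξ = η := by
    intro η hη
    obtain ⟨η', rfl⟩ := dV_chart_surj (E := E') hy₀ η
    have h1 : dif E' g (f y) η' = 0 := by
      rw [d2]
      exact hη
    obtain ⟨ξ, h2, h3⟩ := hsub η' h1
    refine ⟨dV E (φ : X → E) y ξ, ?_, ?_⟩
    · rw [d1] at h2
      exact h2
    · have h4 := congrArg (fun T : E →L[ℂ] E' => T ξ) (d3.symm.trans d4)
      simp only [ContinuousLinearMap.comp_apply] at h4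
      rw [h3] at h4
      exact h4
  have hW : φ.target ∩ ({c | f (φ.symm c) ∈ ψ.source} ∩
      {c | f (φ.symm c) ∉ S → φ.symm c ∉ A}) ∈ 𝓝 c₀ :=
    Filter.inter_mem (φ.open_target.mem_nhds (φ.map_source hx₀))
      (Filter.inter_mem (hφst.eventually hfs) (hφst.eventually hA))
  obtain ⟨r, R, Ψ, B, hr, hB, hev⟩ := local_coords_G e₀ hκ hF heh' hwh' hgh'
    (show e (φ.symm c₀) = 0 by rw [hsc]; exact he0) (show w (φ.symm c₀) ≠ 0 by rw [hsc]; exact hw0)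
    hde' hdg' heq' hsub' hW
  obtain ⟨M, hM⟩ := hfib r hr
  refine ⟨B ^ n * |M|, ?_⟩
  filter_upwards [φ.open_source.mem_nhds hx₀, hfs, (φ.continuousAt hx₀).eventually hev] with
    z hz hfz hzc hzS
  obtain ⟨h1, h2, h3, P', hP'⟩ := hzc
  set c : E := φ z with hc
  have hscz : φ.symm c = z := φ.left_inv hz
  -- points of the fibre
  have hx : ∀ v ∈ ball (Ψ c).2 r, f (φ.symm (R ((Ψ c).1, v))) = f z := by
    intro v hv
    obtain ⟨g1, g2, g3, g4⟩ := h2 v hv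
    have g5 : ψ (f (φ.symm (R ((Ψ c).1, v)))) = ψ (f (φ.symm c)) := g3
    rw [hscz] at g5
    exact ψ.injOn g2.2.1 hfz g5
  have hsrc : ∀ v ∈ ball (Ψ c).2 r, φ.symm (R ((Ψ c).1, v)) ∈ φ.source := fun v hv =>
    φ.map_target (h2 v hv).2.1.1
  have hφR : ∀ v ∈ ball (Ψ c).2 r, φ (φ.symm (R ((Ψ c).1, v))) = R ((Ψ c).1, v) := fun v hv =>
    φ.right_inv (h2 v hv).2.1.1
  have hRv : ∀ v ∈ ball (Ψ c).2 r, ContDiffAt ℂ ω (fun v => R ((Ψ c).1, v)) v := by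
    intro v hv
    exact ContDiffAt.comp (g := R) (f := fun v : E₀ => ((Ψ c).1, v)) v (h2 v hv).1
      (contDiff_const.prodMk contDiff_id).contDiffAt
  set Q : E₀ → X := fun v => φ.symm (R ((Ψ c).1, v)) with hQ
  have hQhol : ∀ v ∈ ball (Ψ c).2 r, ContMDiffAt 𝓘(ℂ, E₀) 𝓘(ℂ, E) ω Q v := by
    intro v hv
    have g1 : ContMDiffAt 𝓘(ℂ, E) 𝓘(ℂ, E) ω φ.symm (R ((Ψ c).1, v)) :=
      contMDiffAt_symm_of_mem_maximalAtlas hmem (h2 v hv).2.1.1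
    exact ContMDiffAt.comp (g := φ.symm) (f := fun v => R ((Ψ c).1, v)) v g1
      (hRv v hv).contMDiffAt
  have hQinj : InjOn Q (ball (Ψ c).2 r) := by
    intro v hv v' hv' hvv
    have g2 : R ((Ψ c).1, v) = R ((Ψ c).1, v') := by
      rw [← hφR v hv, ← hφR v' hv']
      exact congrArg φ hvv
    rw [← (h2 v hv).2.2.2, ← (h2 v' hv').2.2.2, g2]
  have hv₁ : (Ψ c).2 ∈ ball (Ψ c).2 r := mem_ball_self hr
  have hR1 : R ((Ψ c).1, (Ψ c).2) = c := h1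
  have hQ1 : Q (Ψ c).2 = z := by
    show φ.symm (R ((Ψ c).1, (Ψ c).2)) = z
    rw [hR1, hscz]
  -- the left inverse of the derivative of the slice
  set P : E →L[ℂ] E₀ := P'.comp (dV E (φ : X → E) z) with hP
  obtain ⟨D, hD⟩ : ∃ D : E₀ →L[ℂ] E, D = mfderiv 𝓘(ℂ, E₀) 𝓘(ℂ, E) Q (Ψ c).2 := ⟨_, rfl⟩
  have hdQ : P.comp D = ContinuousLinearMap.id ℂ E₀ := by
    have g1 : HolV E (φ : X → E) (Q (Ψ c).2) := by
      rw [hQ1]
      exact HolV.chart hz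
    have g2 : dV E₀ (fun v => φ (Q v)) (Ψ c).2 =
        (dV E (φ : X → E) (Q (Ψ c).2)).comp D := by
      have g6 := mfderiv_comp (Ψ c).2 g1.mdiff ((hQhol _ hv₁).mdifferentiableAt (by simp))
      subst hD
      exact g6
    have g3 : (fun v => φ (Q v)) =ᶠ[𝓝 (Ψ c).2] fun v => R ((Ψ c).1, v) := by
      filter_upwards [isOpen_ball.mem_nhds hv₁] with v hv
      exact hφR v hv
    have g4 : HasFDerivAt (fun v => R ((Ψ c).1, v))
        ((fderiv ℂ R (Ψ c)).comp (ContinuousLinearMap.inr ℂ E' E₀)) (Ψ c).2 :=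
      HasFDerivAt.comp (g := R) (f := fun v : E₀ => ((Ψ c).1, v)) (Ψ c).2
        (((h2 _ hv₁).1.differentiableAt (by simp)).hasFDerivAt) (hasFDerivAt_prodMk_right _ _)
    have g5 : dV E₀ (fun v => φ (Q v)) (Ψ c).2 =
        (fderiv ℂ R (Ψ c)).comp (ContinuousLinearMap.inr ℂ E' E₀) := by
      unfold dV
      rw [g3.mfderiv_eq, mfderiv_eq_fderiv]
      exact g4.fderiv
    rw [hP, ContinuousLinearMap.comp_assoc]
    rw [g5, hQ1] at g2
    rw [← g2]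
    exact hP'
  have hQA : ∀ v ∈ ball (Ψ c).2 r, Q v ∉ A := by
    intro v hv
    refine (h2 v hv).2.1.2.2 ?_
    rw [hx v hv]
    exact hzS
  have key := hM (Ψ c).2 Q hQhol hQinj (by rw [hQ1]; exact hx) (by rw [hQ1]; exact hzS) hQA P
    (by subst hD; exact hdQ)
  rw [hQ1] at key
  -- the relative form
  have k1 : jac E' (ψ : Y → E') (f z) * JP e₀ (dM E E' f z) P =
      JP e₀ (fderiv ℂ Fh c) P' * jac E (φ : X → E) z := by
    have g1 : dV E (fun z => ψ (f z)) z = (fderiv ℂ Fh c).comp (dV E (φ : X → E) z) :=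
      dV_eq_chart hz (hψf z hfz)
    have g2 : dV E (fun z => ψ (f z)) z = (dV E' (ψ : Y → E') (f z)).comp (dM E E' f z) :=
      dV_comp (HolV.chart hfz) (hf z)
    have g4 := JP_left e₀ (dM E E' f z) P (dV E' (ψ : Y → E') (f z))
      (ContinuousLinearMap.id ℂ E₀)
    rw [det_id', mul_one, ContinuousLinearMap.id_comp, ← g2, g1, hP, JP_comp] at g4
    rw [hP]
    exact g4.symm
  have k3 := h3 P'
  rw [hP', det_id', norm_one, mul_one] at k3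
  have k4 : ‖eh c‖ = ‖e z‖ := by
    show ‖e (φ.symm c)‖ = ‖e z‖
    rw [hscz]
  rw [k4] at k3
  rw [norm_mul]
  calc ‖jac E' (ψ : Y → E') (f z) ^ n‖ * ‖Θ z‖
      ≤ ‖jac E' (ψ : Y → E') (f z) ^ n‖ * (M * ‖JP e₀ (dM E E' f z) P ^ n‖) := by
        gcongr
    _ ≤ ‖jac E' (ψ : Y → E') (f z) ^ n‖ * (|M| * ‖JP e₀ (dM E E' f z) P ^ n‖) := by
        gcongr
        exact le_abs_self M
    _ = |M| * ‖JP e₀ (fderiv ℂ Fh c) P'‖ ^ n * ‖jac E (φ : X → E) z ^ n‖ := by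
        rw [← norm_pow, mul_assoc |M|, ← norm_mul, ← mul_pow, ← k1, mul_pow, norm_mul]
        ring
    _ ≤ |M| * (B * ‖e z‖ ^ (κ - 1)) ^ n * ‖jac E (φ : X → E) z ^ n‖ := by
        gcongr
    _ = B ^ n * |M| * ‖e z‖ ^ (n * (κ - 1)) * ‖jac E (φ : X → E) z ^ n‖ := by
        rw [mul_pow, ← pow_mul, mul_comm (κ - 1) n]
        ring

end Rel

end Vale.Agent.P281.ELL
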