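import Vale.Agent.P281.ELL.UpG

open scoped Manifold ContDiff Topology
open Set Filter Vale.Agent.P281

namespace Vale.Agent.P281.ELL

open Vale.Agent.P281.MF Vale.Agent.P281.ISO

universe u

theorem kodGE_upGP {E E' : Type} [NormedAddCommGroup E] [NormedSpace ℂ E] [FiniteDimensional ℂ E]
    [NormedAddCommGroup E'] [NormedSpace ℂ E'] [FiniteDimensional ℂ E'] {X Y : Type u}
    [TopologicalSpace X] [ChartedSpace E X] [IsManifold 𝓘(ℂ, E) ω X] [TopologicalSpace Y]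
    [ChartedSpace E' Y] [IsManifold 𝓘(ℂ, E') ω Y] {f : X → Y} (hf : ∀ x, HolM E E' f x)
    {S : Set Y} (hSc : IsClosed S) (hSd : Dense Sᶜ)
    (hsub : ∀ x, f x ∉ S → Function.Surjective (dM E E' f x))
    {Δ : Set X → ℝ} (hfin : {D | Δ D ≠ 0}.Finite) (hpr : ∀ D, Δ D ≠ 0 → IsPrimeDivisor E D)
    {B : Set Y → ℝ} (hB : ∀ G, B G ≠ 0 → IsPrimeDivisor E' G)
    {q : ℕ} (hq : 0 < q) {K₀ : Set X → ℕ} (hK₀ : ∀ D, (K₀ D : ℝ) = q * Δ D) {Jf R : X → ℂ}
    (hJ : ∀ z, f z ∉ S → Jf z ≠ 0)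
    (hR : ∀ y, y ∉ S → ∃ x, f x = y ∧ HolV E R x ∧ ∃ ξ, dM E E' f x ξ = 0 ∧ dif E R x ξ ≠ 0)
    (hmain : ∀ (m : ℕ) (k : Set Y → ℕ) (t : Y → ℂ), 0 < m →
      (∀ G, (k G : ℝ) = (m * q : ℕ) * B G) →
      IsSection E' (fun (G : Set Y) z g => IsLocalEq E' G g z) (m * q) k t →
      ∃ σ : X → ℂ, IsSection E (fun (D : Set X) z g => IsLocalEq E D g z) (m * q)
        (fun D => m * K₀ D) σ ∧
        ∀ z, f z ∉ S → σ z = t (f z) * Jf z ^ m)
    (hmain' : ∀ (m : ℕ) (k : Set Y → ℕ) (t : Y → ℂ), 0 < m →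
      (∀ G, (k G : ℝ) = (m * q : ℕ) * B G) →
      IsSection E' (fun (G : Set Y) z g => IsLocalEq E' G g z) (m * q) k t →
      ∃ σ : X → ℂ, IsSection E (fun (D : Set X) z g => IsLocalEq E D g z) (m * q)
        (fun D => m * K₀ D) σ ∧
        ∀ z, f z ∉ S → σ z = t (f z) * (Jf z ^ m * R z))
    {j : ℕ} (hj : KodGE E' (fun (G : Set Y) z g => IsLocalEq E' G g z) B j) :
    KodGE E (fun (D : Set X) z g => IsLocalEq E D g z) Δ (j + 1) := by
  classical
  obtain ⟨m, k, t, y₁, hm, hk, ht, hy₁, ht0, hind⟩ := hj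
  obtain ⟨y₂, hy₂⟩ := good_point ht hy₁ ht0 hind
  have hkB : ∀ G, k G ≠ 0 → IsPrimeDivisor E' G := by
    intro G hG
    refine hB G fun h0 => hG ?_
    have h1 := hk G
    rw [h0, mul_zero] at h1
    exact_mod_cast h1
  have hkfin : {G | k G ≠ 0}.Finite := by
    obtain ⟨T, g, a, hT, -⟩ := ht 0 y₁
    exact (T.finite_toSet).subset fun G hG => hT G hG
  have hdY := dense_compl_finite hkfin (fun G hG => (hkB G hG).1) (fun G hG => by
    rw [dense_iff_inter_open]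
    intro U hU hUne
    obtain ⟨x, hxU, hxD⟩ := IsLocalEq.exists_notMem (hkB G hG).2.1 hU hUne
    exact ⟨x, hxU, hxD⟩)
  have hdX := dense_compl_finite hfin (fun D hD => (hpr D hD).1) (fun D hD => by
    rw [dense_iff_inter_open]
    intro U hU hUne
    obtain ⟨x, hxU, hxD⟩ := IsLocalEq.exists_notMem (hpr D hD).2.1 hU hUne
    exact ⟨x, hxU, hxD⟩)
  have hcont : Continuous f := continuous_iff_continuousAt.2 fun x => (hf x).continuousAt
  -- an open set below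
  obtain ⟨V, hV1, hV2, hV3⟩ := eventually_nhds_iff.1 hy₂
  have hVne : (V ∩ {y | ∀ G ∈ {G | k G ≠ 0}, y ∉ G}).Nonempty :=
    hdY.2.inter_open_nonempty _ hV2 ⟨y₂, hV3⟩
  set O : Set Y := V ∩ {y | ∀ G ∈ {G | k G ≠ 0}, y ∉ G} with hO
  have hOo : IsOpen O := hV2.inter hdY.1
  have hdo : IsOpen {x | f x ∉ S} := hSc.isOpen_compl.preimage hcont
  obtain ⟨y, hyO, hyS⟩ := hSd.inter_open_nonempty _ hOo hVne
  obtain ⟨x₁, hx₁y, hRx₁, ξ, hξ, hRξ⟩ := hR y hyS
  have hx₁O : f x₁ ∈ O := hx₁y ▸ hyO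
  have hx₁S : f x₁ ∉ S := hx₁y ▸ hyS
  -- the functions
  set ρ : Fin (j + 1) → X → ℂ := Fin.snoc (α := fun _ => X → ℂ)
    (fun b : Fin j => fun z => (t b.succ (f z) / t 0 (f z)) ^ q) R with hρ
  have hρc : ∀ b : Fin j, ρ b.castSucc = fun z => (t b.succ (f z) / t 0 (f z)) ^ q := fun b => by
    rw [hρ, Fin.snoc_castSucc]
  have hρl : ρ (Fin.last j) = R := by rw [hρ, Fin.snoc_last]
  obtain ⟨hy1, hy2, hy3, hy4⟩ := hV1 _ hx₁O.1
  have hρh : ∀ b, HolV E (ρ b) x₁ := by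
    intro b
    refine Fin.lastCases ?_ (fun b => ?_) b
    · rw [hρl]; exact hRx₁
    · rw [hρc]
      exact HolV.comp (E' := E') (HolV.pow (hy3 b) q) (hf x₁)
  have hdρ : ∀ b : Fin j, dif E (ρ b.castSucc) x₁ =
      ((q : ℂ) * (t b.succ (f x₁) / t 0 (f x₁)) ^ (q - 1)) •
          (dif E' (fun w => t b.succ w / t 0 w) (f x₁)).comp (dM E E' f x₁) := by
    intro b
    rw [hρc]
    have h1 := dif_comp (HolV.pow (hy3 b) q) (hf x₁)
    rw [dif_pow (hy3 b)] at h1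
    exact h1
  have hρi : LinearIndependent ℂ (fun b => dif E (ρ b) x₁) := by
    have h5 : LinearIndependent ℂ (fun b : Fin j =>
        (dif E' (fun w => t b.succ w / t 0 w) (f x₁)).comp (dM E E' f x₁)) :=
      (linearIndependent_precomp (hsub x₁ hx₁S) _).2 hy4
    have hc : ∀ b : Fin j, (q : ℂ) * (t b.succ (f x₁) / t 0 (f x₁)) ^ (q - 1) ≠ 0 := fun b =>
      mul_ne_zero (by exact_mod_cast hq.ne') (pow_ne_zero _ (div_ne_zero (hy2 b) hy1))
    have h6 := h5.units_smul (fun b => Units.mk0 _ (hc b))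
    rw [Fintype.linearIndependent_iff] at h6 ⊢
    intro g hg
    rw [Fin.sum_univ_castSucc] at hg
    have h7 : g (Fin.last j) = 0 := by
      have h8 := congrArg (fun L : E →L[ℂ] ℂ => L ξ) hg
      have h9 : (∑ b : Fin j, g b.castSucc • dif E (ρ b.castSucc) x₁ : E →L[ℂ] ℂ) ξ = 0 := by
        rw [ContinuousLinearMap.sum_apply]
        refine Finset.sum_eq_zero fun b _ => ?_
        rw [hdρ b]
        show g b.castSucc • (((q : ℂ) * (t b.succ (f x₁) / t 0 (f x₁)) ^ (q - 1)) •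
          (dif E' (fun w => t b.succ w / t 0 w) (f x₁)) (dM E E' f x₁ ξ)) = 0
        rw [hξ, map_zero, smul_zero, smul_zero]
      have h10 : (∑ b : Fin j, g b.castSucc • dif E (ρ b.castSucc) x₁ : E →L[ℂ] ℂ) ξ +
          g (Fin.last j) * dif E (ρ (Fin.last j)) x₁ ξ = 0 := h8
      rw [h9, zero_add, hρl] at h10
      exact (mul_eq_zero.1 h10).resolve_right hRξ
    have hg' : ∑ b : Fin j, g b.castSucc • dif E (ρ b.castSucc) x₁ = 0 := by
      rw [h7] at hg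
      have h0 : (0 : ℂ) • dif E (ρ (Fin.last j)) x₁ = 0 := by
        refine ContinuousLinearMap.ext fun v => ?_
        show (0 : ℂ) * dif E (ρ (Fin.last j)) x₁ v = 0
        exact zero_mul _
      rw [h0, add_zero] at hg
      exact hg
    have h8 := h6 (fun b => g b.castSucc) (by
      rw [← hg']
      refine Finset.sum_congr rfl fun b _ => ?_
      rw [hdρ b]
      rfl)
    intro b
    refine Fin.lastCases ?_ (fun b => ?_) b
    · exact h7
    · exact h8 b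
  have hρe := linearIndependent_dif_eventually hρh hρi
  obtain ⟨N, hN1, hN2, hN3⟩ := eventually_nhds_iff.1 hρe
  obtain ⟨x, ⟨⟨hxO, hxs⟩, hxN⟩, hxD⟩ := hdX.2.inter_open_nonempty _
    (((hOo.preimage hcont).inter hdo).inter hN2) ⟨x₁, ⟨hx₁O, hx₁S⟩, hN3⟩
  -- the sections above
  have hσ : ∀ b : Fin (j + 1), ∃ σ : X → ℂ,
      IsSection E (fun (D : Set X) z g => IsLocalEq E D g z) (m * q) (fun D => m * K₀ D) σ ∧
        ∀ z, f z ∉ S → σ z = t b (f z) ^ q * Jf z ^ m := by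
    intro b
    exact hmain m (fun G => k G * q) (fun y => t b y ^ q) hm
      (fun G => by push_cast; rw [hk G]; ring) (isSection_pow (ht b) q)
  choose σ hσs hσv using hσ
  obtain ⟨σ', hσ's, hσ'v⟩ := hmain' m (fun G => k G * q) (fun y => t 0 y ^ q) hm
      (fun G => by push_cast; rw [hk G]; ring) (isSection_pow (ht 0) q)
  have hev : ∀ᶠ z in 𝓝 x, f z ∈ O ∧ Jf z ≠ 0 ∧ (∀ b, σ b z = t b (f z) ^ q * Jf z ^ m) ∧
      σ' z = t 0 (f z) ^ q * (Jf z ^ m * R z) := by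
    filter_upwards [(hOo.preimage hcont).mem_nhds hxO, hdo.mem_nhds hxs] with z h1 h2
    exact ⟨h1, hJ z h2, fun b => hσv b z h2, hσ'v z h2⟩
  set s : Fin (j + 1 + 1) → X → ℂ := Fin.snoc (α := fun _ => X → ℂ) σ σ' with hs
  have hs0 : s 0 = σ 0 := by
    rw [hs, show (0 : Fin (j + 1 + 1)) = Fin.castSucc 0 from rfl, Fin.snoc_castSucc]
  have hrat : ∀ b : Fin (j + 1), (fun z => s b.succ z / s 0 z) =ᶠ[𝓝 x] ρ b := by
    intro b
    refine Fin.lastCases ?_ (fun b => ?_) b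
    · have h0 : s (Fin.last j).succ = σ' := by
        rw [hs, Fin.succ_last, Fin.snoc_last]
      filter_upwards [hev] with z hz
      have h1 : t 0 (f z) ^ q ≠ 0 := pow_ne_zero _ (hV1 _ hz.1.1).1
      have h2 : Jf z ^ m ≠ 0 := pow_ne_zero _ hz.2.1
      rw [h0, hs0, hρl, hz.2.2.1, hz.2.2.2]
      field_simp
    · have h0 : s b.castSucc.succ = σ b.succ := by
        rw [hs, Fin.succ_castSucc, Fin.snoc_castSucc]
      filter_upwards [hev] with z hz
      have h1 : t 0 (f z) ^ q ≠ 0 := pow_ne_zero _ (hV1 _ hz.1.1).1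
      have h2 : Jf z ^ m ≠ 0 := pow_ne_zero _ hz.2.1
      rw [h0, hs0, hρc, hz.2.2.1, hz.2.2.1, mul_div_mul_right _ _ h2]
      exact (div_pow _ _ _).symm
  refine ⟨m * q, fun D => m * K₀ D, s, x, Nat.mul_pos hm hq, ?_, ?_, ?_, ?_, ?_⟩
  · intro D
    push_cast
    rw [hK₀ D]; ring
  · intro b
    refine Fin.lastCases ?_ (fun b => ?_) b
    · rw [hs, Fin.snoc_last]; exact hσ's
    · rw [hs, Fin.snoc_castSucc]; exact hσs b
  · intro D hD
    have hΔ : Δ D ≠ 0 := by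
      intro h0
      have h1 := hK₀ D
      rw [h0, mul_zero] at h1
      exact right_ne_zero_of_mul hD (by exact_mod_cast h1)
    obtain ⟨g, hg⟩ := (hpr D hΔ).2.1 x
    exact ⟨g, hg, fun h0 => hxD D hΔ (hg.mem_iff.2 h0)⟩
  · rw [hs0, hev.self_of_nhds.2.2.1]
    exact mul_ne_zero (pow_ne_zero _ (hV1 _ hxO.1).1) (pow_ne_zero _ hev.self_of_nhds.2.1)
  · have hfun : (fun b : Fin (j + 1) => dif E (fun w => s b.succ w / s 0 w) x) =
        fun b => dif E (ρ b) x := by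
      funext b
      exact dV_congr (hrat b)
    rw [hfun]
    exact hN1 x hxN

end Vale.Agent.P281.ELL
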