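import Vale.Agent.P281.ELL.CoreG
import Vale.Agent.P281.ELL.LiftGP
import Vale.Agent.P281.ELL.UpGP
import Vale.Agent.P281.ELL.RelGP

open scoped Manifold ContDiff Topology
open Set Filter Metric Asymptotics

namespace Vale.Agent.P281.ELL

open Vale.Agent.P281 Vale.Agent.P281.MF Vale.Agent.P281.ISO

set_option linter.unusedSectionVars false

universe u

section Core

variable {E E' E₀ : Type} [NormedAddCommGroup E] [NormedSpace ℂ E] [FiniteDimensional ℂ E]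
  [NormedAddCommGroup E'] [NormedSpace ℂ E'] [FiniteDimensional ℂ E']
  [NormedAddCommGroup E₀] [NormedSpace ℂ E₀] [FiniteDimensional ℂ E₀]
variable {X Y : Type u} [TopologicalSpace X] [ChartedSpace E X] [IsManifold 𝓘(ℂ, E) ω X]
  [TopologicalSpace Y] [ChartedSpace E' Y] [IsManifold 𝓘(ℂ, E') ω Y]

/-- a nowhere vanishing relative form `Θ` of weight `12` and a relative form `Ξ` of weight `12`
with a pole of order `12` along the component `Dv` of `Δ`. -/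
theorem coreGP [Nonempty X] {f : X → Y} (hf : ∀ x, HolM E E' f x) {S : Set Y} (hS : IsClosed S)
    (hSd : Dense Sᶜ)
    (hsub : ∀ x, f x ∉ S → Function.Surjective (dM E E' f x)) (e₀ : E ≃L[ℂ] (E' × E₀))
    (hthin : ∀ x, ∃ h : X → ℂ, HolV E h x ∧ (¬ ∀ᶠ z in 𝓝 x, h z = 0) ∧
      ∀ᶠ z in 𝓝 x, (f z ∈ S → h z = 0) ∧ (h z = 0 → z ∈ closure {z | h z = 0 ∧ Good E E' f S z}))
    {Θ Ξ : X → ℂ}
    (hΘ : ∀ (x₀ x : X) (y₀ : Y), f x ∉ S → x ∈ (chartAt E x₀).source →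
      f x ∈ (chartAt E' y₀).source → ∃ H : X → ℂ, HolV E H x ∧ ∀ᶠ z in 𝓝 x,
        jac E' (chartAt E' y₀) (f z) ^ 12 * Θ z = H z * jac E (chartAt E x₀) z ^ 12)
    (hΘ0 : ∀ x, f x ∉ S → Θ x ≠ 0)
    (hfib : ∀ r : ℝ, 0 < r → ∃ M : ℝ, ∀ (v₀ : E₀) (Q : E₀ → X),
      (∀ v ∈ ball v₀ r, ContMDiffAt 𝓘(ℂ, E₀) 𝓘(ℂ, E) ω Q v) → InjOn Q (ball v₀ r) →
      (∀ v ∈ ball v₀ r, f (Q v) = f (Q v₀)) → f (Q v₀) ∉ S → ∀ P : E →L[ℂ] E₀,
      P.comp (mfderiv 𝓘(ℂ, E₀) 𝓘(ℂ, E) Q v₀ : E₀ →L[ℂ] E) = ContinuousLinearMap.id ℂ E₀ →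
      ‖Θ (Q v₀)‖ ≤ M * ‖JP e₀ (dM E E' f (Q v₀)) P ^ 12‖)
    {Dv : Set X}
    (hΞ : ∀ (x₀ x : X) (y₀ : Y), f x ∉ S → x ∈ (chartAt E x₀).source →
      f x ∈ (chartAt E' y₀).source → ∀ e : X → ℂ, IsLocalEq E Dv e x →
      ∃ H : X → ℂ, HolV E H x ∧ ∀ᶠ z in 𝓝 x, e z ≠ 0 →
        jac E' (chartAt E' y₀) (f z) ^ 12 * Ξ z * e z ^ 12 = H z * jac E (chartAt E x₀) z ^ 12)
    (hfib' : ∀ M : ℕ, 0 < M → ∀ r : ℝ, 0 < r → ∃ C : ℝ, ∀ (v₀ : E₀) (Q : E₀ → X),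
      (∀ v ∈ ball v₀ r, ContMDiffAt 𝓘(ℂ, E₀) 𝓘(ℂ, E) ω Q v) → InjOn Q (ball v₀ r) →
      (∀ v ∈ ball v₀ r, f (Q v) = f (Q v₀)) → f (Q v₀) ∉ S → (∀ v ∈ ball v₀ r, Q v ∉ Dv) →
      ∀ P : E →L[ℂ] E₀,
      P.comp (mfderiv 𝓘(ℂ, E₀) 𝓘(ℂ, E) Q v₀ : E₀ →L[ℂ] E) = ContinuousLinearMap.id ℂ E₀ →
      ‖Θ (Q v₀) ^ M * Ξ (Q v₀)‖ ≤ C * ‖JP e₀ (dM E E' f (Q v₀)) P ^ (12 * (M + 1))‖)
    (hnc : ∀ y, y ∉ S → ∃ x, f x = y ∧ HolV E (fun z => Ξ z / Θ z) x ∧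
      ∃ ξ, dM E E' f x ξ = 0 ∧ dif E (fun z => Ξ z / Θ z) x ξ ≠ 0)
    {Δ : Set X → ℝ} (hsnc : IsSNCBoundary E Δ) (hDv : Δ Dv ≠ 0) {B : Set Y → ℝ}
    (hB : ∀ G, B G ≠ 0 → IsPrimeDivisor E' G ∧ G ⊆ S)
    (hBD : ∀ (D : Set X) (G : Set Y) (κ : ℕ), IsPrimeDivisor E D → IsPrimeDivisor E' G →
      closure (f '' D) = G → 0 < κ → (∃ z ∈ D, ∃ e g w, IsLocalEq E D e z ∧
        IsLocalEq E' G g (f z) ∧ HolAt E w z ∧ w z ≠ 0 ∧ ∀ᶠ x in 𝓝 z, g (f x) = e x ^ κ * w x) →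
      (κ : ℝ) * B G ≤ κ - 1 + Δ D)
    {j : ℕ} (h₂ : KodGE E' (fun (G : Set Y) z g => IsLocalEq E' G g z) B j) :
    KodGE E (fun (D : Set X) z g => IsLocalEq E D g z) Δ (j + 1) := by
  classical
  obtain ⟨q₁, hq₁, K₁, hK₁, -⟩ := exists_denominator hsnc
  set q₀ : ℕ := 2 * q₁ with hq₀d
  have hq₀ : 0 < q₀ := by omega
  have hK₂ : ∀ D, ((2 * K₁ D : ℕ) : ℝ) = q₀ * Δ D := by
    intro D
    rw [hq₀d]; push_cast; rw [hK₁ D]; ring
  have hKD0 : ∀ (m : ℕ) D, m * (12 * (2 * K₁ D)) ≠ 0 → Δ D ≠ 0 := by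
    intro m D hD h0
    apply hD
    have h1 := hK₁ D
    rw [h0, mul_zero] at h1
    have h2 : K₁ D = 0 := by exact_mod_cast h1
    rw [h2]; simp
  have hKDv : 1 ≤ K₁ Dv := by
    rcases Nat.eq_zero_or_pos (K₁ Dv) with h0 | h0
    · exfalso
      have h1 := hK₁ Dv
      rw [h0] at h1
      have h2 : (q₁ : ℝ) * Δ Dv = 0 := by rw [← h1]; simp
      have h3 : (q₁ : ℝ) ≠ 0 := by exact_mod_cast hq₁.ne'
      exact (mul_ne_zero h3 hDv) h2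
    · exact h0
  have hexp : ∀ (m : ℕ) (k : Set Y → ℕ), (∀ G, (k G : ℝ) = (m * (12 * q₀) : ℕ) * B G) →
      ∀ (D : Set X) (G : Set Y) (κ : ℕ), IsPrimeDivisor E D → IsPrimeDivisor E' G →
      closure (f '' D) = G → 0 < κ →
      (∃ z ∈ D, ∃ e g w, IsLocalEq E D e z ∧ IsLocalEq E' G g (f z) ∧ HolAt E w z ∧
        w z ≠ 0 ∧ ∀ᶠ x in 𝓝 z, g (f x) = e x ^ κ * w x) →
      κ * k G ≤ (m * (12 * q₀)) * (κ - 1) + m * (12 * (2 * K₁ D)) := by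
    intro m k hk D G κ hD hG hDG hκ hwit
    have h1 := hBD D G κ hD hG hDG hκ hwit
    have h2 := hK₂ D
    have h3 : ((κ * k G : ℕ) : ℝ) ≤ (((m * (12 * q₀)) * (κ - 1) + m * (12 * (2 * K₁ D)) : ℕ) : ℝ) := by
      have h5 : ((m * (12 * (2 * K₁ D)) : ℕ) : ℝ) = m * (12 * (q₀ * Δ D)) := by
        rw [← h2]; push_cast; ring
      rw [Nat.cast_add, h5]
      push_cast [Nat.cast_sub (show 1 ≤ κ from hκ)]
      rw [hk G]
      push_cast
      have h4 : (0 : ℝ) ≤ m * (12 * q₀) := by positivity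
      calc (κ : ℝ) * (m * (12 * q₀) * B G) = m * (12 * q₀) * (κ * B G) := by ring
        _ ≤ m * (12 * q₀) * (κ - 1 + Δ D) := by gcongr
        _ = m * (12 * q₀) * (κ - 1) + m * (12 * (q₀ * Δ D)) := by ring
    exact_mod_cast h3
  have hkB : ∀ (m : ℕ) (k : Set Y → ℕ), (∀ G, (k G : ℝ) = (m * (12 * q₀) : ℕ) * B G) →
      ∀ G, k G ≠ 0 → B G ≠ 0 := by
    intro m k hk G hG h0
    have h1 := hk G
    rw [h0, mul_zero] at h1
    exact hG (by exact_mod_cast h1)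
  refine kodGE_upGP hf hS hSd hsub hsnc.finite hsnc.prime (fun G hG => (hB G hG).1)
    (q := 12 * q₀) (by omega) (K₀ := fun D => 12 * (2 * K₁ D)) (fun D => by
      have := hK₂ D
      push_cast at this ⊢
      linear_combination 12 * this) (Jf := fun z => Θ z ^ q₀) (R := fun z => Ξ z / Θ z)
      (fun z hz => pow_ne_zero _ (hΘ0 z hz)) hnc ?_ ?_ h₂
  · intro m k t hm hk ht
    set p : ℕ := q₀ * m with hp
    have hp0 : 0 < p := Nat.mul_pos hq₀ hm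
    have hnp : m * (12 * q₀) = 12 * p := by rw [hp]; ring
    obtain ⟨σ, hσ, hσe⟩ := liftG hf hS hthin (n := m * (12 * q₀)) (Θ := fun x => Θ x ^ p)
      (fun x₀ x y₀ hx hx₀ hy₀ => by
        obtain ⟨H, hH, hHe⟩ := hΘ x₀ x y₀ hx hx₀ hy₀
        clear_value p
        refine ⟨fun z => H z ^ p, hH.pow p, ?_⟩
        filter_upwards [hHe] with z hz
        have h1 := congrArg (· ^ p) hz
        simp only [mul_pow, ← pow_mul] at h1
        rw [hnp]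
        exact h1)
      (fun x₀ y y₀ hx₀ hy₀ e w g κ hκ he he0 hde hg hg0 hdg hw hw0 heq hsub' => by
        refine rel_bound_G hf e₀ (n := m * (12 * q₀)) (Nat.mul_pos hm (by omega)) ?_
          hx₀ hy₀ hκ he he0 hde hg hg0 hdg hw hw0 heq hsub'
        intro r hr
        obtain ⟨M, hM⟩ := hfib r hr
        refine ⟨M ^ p, fun v₀ Q h1 h2 h3 h4 P h5 => ?_⟩
        have h6 := hM v₀ Q h1 h2 h3 h4 P h5
        show ‖Θ (Q v₀) ^ p‖ ≤ M ^ p * ‖JP e₀ (dM E E' f (Q v₀)) P ^ (m * (12 * q₀))‖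
        have h7 := pow_le_pow_left₀ (norm_nonneg _) h6 p
        rw [mul_pow, ← norm_pow, ← norm_pow, ← pow_mul] at h7
        rw [hnp]
        exact h7)
      (K := fun D => m * (12 * (2 * K₁ D))) (hsnc.finite.subset fun D hD => hKD0 m D hD)
      (fun D hD => hsnc.prime D (hKD0 m D hD)) (fun G hG => (hB G (hkB m k hk G hG)).1)
      (fun G hG => (hB G (hkB m k hk G hG)).2) (hexp m k hk) ht
    exact ⟨σ, hσ, fun x hx => by rw [hσe x hx, ← pow_mul]⟩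
  · intro m k t hm hk ht
    obtain ⟨p, hp⟩ : ∃ p, q₀ * m = p + 1 + 1 := ⟨q₀ * m - 2, by
      have : 2 ≤ q₀ * m := by nlinarith
      omega⟩
    have hnp : m * (12 * q₀) = 12 * (p + 1 + 1) := by rw [← hp]; ring
    have hKv : 12 ≤ m * (12 * (2 * K₁ Dv)) := by nlinarith
    obtain ⟨σ, hσ, hσe⟩ := liftGP hf hS hthin (n := m * (12 * q₀))
      (Θ := fun x => Θ x ^ (p + 1) * Ξ x)
      (K := fun D => m * (12 * (2 * K₁ D))) (hsnc.finite.subset fun D hD => hKD0 m D hD)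
      (fun D hD => hsnc.prime D (hKD0 m D hD))
      (fun x₀ x y₀ hx hx₀ hy₀ T e hT he => by
        obtain ⟨H, hH, hHe⟩ := hΘ x₀ x y₀ hx hx₀ hy₀
        have hDT : Dv ∈ T := hT Dv (by omega)
        obtain ⟨H', hH', hHe'⟩ := hΞ x₀ x y₀ hx hx₀ hy₀ (e Dv) (he Dv hDT)
        refine ⟨fun z => H z ^ (p + 1) * H' z * e Dv z ^ (m * (12 * (2 * K₁ Dv)) - 12) *
          ∏ D ∈ T.erase Dv, e D z ^ (m * (12 * (2 * K₁ D))), ?_, ?_⟩
        · refine (((hH.pow _).mul hH').mul (((he Dv hDT).holAt).pow _)).mul (HolV.prod fun D hD =>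
            ((he D (Finset.mem_of_mem_erase hD)).holAt).pow _)
        · filter_upwards [hHe, hHe'] with z hz hz' hz0
          rw [← Finset.mul_prod_erase T _ hDT] at hz0 ⊢
          have h1 : e Dv z ≠ 0 := by
            intro h0
            apply left_ne_zero_of_mul hz0
            rw [h0, zero_pow (by omega)]
          have h2 := hz' h1
          have h3 : e Dv z ^ (m * (12 * (2 * K₁ Dv))) =
              e Dv z ^ 12 * e Dv z ^ (m * (12 * (2 * K₁ Dv)) - 12) := by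
            rw [← pow_add]
            congr 1
            omega
          have h4 := congrArg (· ^ (p + 1)) hz
          simp only [mul_pow, ← pow_mul] at h4
          rw [h3, hnp, show 12 * (p + 1 + 1) = 12 * (p + 1) + 12 by ring, pow_add, pow_add]
          linear_combination (jac E' (chartAt E' y₀) (f z) ^ 12 * Ξ z * e Dv z ^ 12 *
            e Dv z ^ (m * (12 * (2 * K₁ Dv)) - 12) *
            ∏ D ∈ T.erase Dv, e D z ^ (m * (12 * (2 * K₁ D)))) * h4 +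
            (H z ^ (p + 1) * jac E (chartAt E x₀) z ^ (12 * (p + 1)) *
            e Dv z ^ (m * (12 * (2 * K₁ Dv)) - 12) *
            ∏ D ∈ T.erase Dv, e D z ^ (m * (12 * (2 * K₁ D)))) * h2)
      (fun x₀ y y₀ hx₀ hy₀ e w g κ hκ he he0 hde hg hg0 hdg hw hw0 heq hsub' hav => by
        refine rel_bound_GP hf (A := Dv) e₀ (n := m * (12 * q₀)) (Nat.mul_pos hm (by omega)) ?_
          hx₀ hy₀ hκ he he0 hde hg hg0 hdg hw hw0 heq hsub'
          (hav.mono fun z hz hzS => hz hzS Dv (by omega))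
        intro r hr
        obtain ⟨C, hC⟩ := hfib' (p + 1) (by omega) r hr
        refine ⟨C, fun v₀ Q h1 h2 h3 h4 h4' P h5 => ?_⟩
        rw [hnp]
        exact hC v₀ Q h1 h2 h3 h4 h4' P h5)
      (fun G hG => (hB G (hkB m k hk G hG)).1)
      (fun G hG => (hB G (hkB m k hk G hG)).2) (hexp m k hk) ht
    refine ⟨σ, hσ, fun x hx => ?_⟩
    rw [hσe x hx, ← pow_mul, hp, pow_succ (Θ x) (p + 1)]
    have := hΘ0 x hx
    field_simp

end Core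

end Vale.Agent.P281.ELL
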