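import Vale.Agent.P281.ELL.LiftH
import Vale.Agent.P281.ELL.UpH
import Vale.Agent.P281.ELL.RelGP

open scoped Manifold ContDiff Topology
open Set Filter Metric Asymptotics

namespace Vale.Agent.P281.ELL

open Vale.Agent.P281 Vale.Agent.P281.MF Vale.Agent.P281.ISO

set_option linter.unusedSectionVars false

universe u

section Core

variable {E E' E₀ : Type} [NormedAddCommGroup E] [NormedSpace ℂ E] [FiniteDimensional ℂ E]
  [NormedAddCommGroup E'] [NormedSpace ℂ E'] [FiniteDimensional ℂ E']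
  [NormedAddCommGroup E₀] [NormedSpace ℂ E₀] [FiniteDimensional ℂ E₀]
variable {X Y : Type u} [TopologicalSpace X] [ChartedSpace E X] [IsManifold 𝓘(ℂ, E) ω X]
  [TopologicalSpace Y] [ChartedSpace E' Y] [IsManifold 𝓘(ℂ, E') ω Y]

/-- two relative forms `Θ₀`, `Θ₁` of weight `N`, defined off the divisors of `𝒜`, with poles of
orders at most `κ₀` and bounded on the slices which avoid `𝒜`. -/
theorem coreH [Nonempty X] {f : X → Y} (hf : ∀ x, HolM E E' f x) {S : Set Y} (hS : IsClosed S)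
    (hSd : Dense Sᶜ)
    (hsub : ∀ x, f x ∉ S → Function.Surjective (dM E E' f x)) (e₀ : E ≃L[ℂ] (E' × E₀))
    (hthin : ∀ x, ∃ h : X → ℂ, HolV E h x ∧ (¬ ∀ᶠ z in 𝓝 x, h z = 0) ∧
      ∀ᶠ z in 𝓝 x, (f z ∈ S → h z = 0) ∧ (h z = 0 → z ∈ closure {z | h z = 0 ∧ Good E E' f S z}))
    {N : ℕ} (hN : 0 < N) {𝒜 : Set (Set X)} (h𝒜f : 𝒜.Finite)
    (h𝒜p : ∀ D ∈ 𝒜, IsPrimeDivisor E D) {κ₀ : Set X → ℕ} {Θ₀ Θ₁ : X → ℂ}
    (hΘ₀ : ∀ (x₀ x : X) (y₀ : Y), f x ∉ S → x ∈ (chartAt E x₀).source →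
      f x ∈ (chartAt E' y₀).source → ∀ (T : Finset (Set X)) (e : Set X → X → ℂ),
      (∀ D, κ₀ D ≠ 0 → D ∈ T) → (∀ D ∈ T, IsLocalEq E D (e D) x) →
      ∃ H : X → ℂ, HolV E H x ∧ ∀ᶠ z in 𝓝 x, (∀ D ∈ 𝒜, z ∉ D) → ∏ D ∈ T, e D z ^ κ₀ D ≠ 0 →
        jac E' (chartAt E' y₀) (f z) ^ N * Θ₀ z * ∏ D ∈ T, e D z ^ κ₀ D =
          H z * jac E (chartAt E x₀) z ^ N)
    (hΘ₁ : ∀ (x₀ x : X) (y₀ : Y), f x ∉ S → x ∈ (chartAt E x₀).source →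
      f x ∈ (chartAt E' y₀).source → ∀ (T : Finset (Set X)) (e : Set X → X → ℂ),
      (∀ D, κ₀ D ≠ 0 → D ∈ T) → (∀ D ∈ T, IsLocalEq E D (e D) x) →
      ∃ H : X → ℂ, HolV E H x ∧ ∀ᶠ z in 𝓝 x, (∀ D ∈ 𝒜, z ∉ D) → ∏ D ∈ T, e D z ^ κ₀ D ≠ 0 →
        jac E' (chartAt E' y₀) (f z) ^ N * Θ₁ z * ∏ D ∈ T, e D z ^ κ₀ D =
          H z * jac E (chartAt E x₀) z ^ N)
    (hfib₀ : ∀ r : ℝ, 0 < r → ∃ C : ℝ, ∀ (v₀ : E₀) (Q : E₀ → X),
      (∀ v ∈ ball v₀ r, ContMDiffAt 𝓘(ℂ, E₀) 𝓘(ℂ, E) ω Q v) → InjOn Q (ball v₀ r) →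
      (∀ v ∈ ball v₀ r, f (Q v) = f (Q v₀)) → f (Q v₀) ∉ S →
      (∀ v ∈ ball v₀ r, ∀ D ∈ 𝒜, Q v ∉ D) → ∀ P : E →L[ℂ] E₀,
      P.comp (mfderiv 𝓘(ℂ, E₀) 𝓘(ℂ, E) Q v₀ : E₀ →L[ℂ] E) = ContinuousLinearMap.id ℂ E₀ →
      ‖Θ₀ (Q v₀)‖ ≤ C * ‖JP e₀ (dM E E' f (Q v₀)) P ^ N‖)
    (hfib₁ : ∀ r : ℝ, 0 < r → ∃ C : ℝ, ∀ (v₀ : E₀) (Q : E₀ → X),
      (∀ v ∈ ball v₀ r, ContMDiffAt 𝓘(ℂ, E₀) 𝓘(ℂ, E) ω Q v) → InjOn Q (ball v₀ r) →
      (∀ v ∈ ball v₀ r, f (Q v) = f (Q v₀)) → f (Q v₀) ∉ S →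
      (∀ v ∈ ball v₀ r, ∀ D ∈ 𝒜, Q v ∉ D) → ∀ P : E →L[ℂ] E₀,
      P.comp (mfderiv 𝓘(ℂ, E₀) 𝓘(ℂ, E) Q v₀ : E₀ →L[ℂ] E) = ContinuousLinearMap.id ℂ E₀ →
      ‖Θ₁ (Q v₀)‖ ≤ C * ‖JP e₀ (dM E E' f (Q v₀)) P ^ N‖)
    (hnc : ∀ y, y ∉ S → ∃ x, f x = y ∧ (∀ᶠ z in 𝓝 x, Θ₀ z ≠ 0) ∧
      HolV E (fun z => Θ₁ z / Θ₀ z) x ∧
      ∃ ξ, dM E E' f x ξ = 0 ∧ dif E (fun z => Θ₁ z / Θ₀ z) x ξ ≠ 0)
    {Δ : Set X → ℝ} (hsnc : IsSNCBoundary E Δ) (hκ₀ : ∀ D, (κ₀ D : ℝ) ≤ N * Δ D) {B : Set Y → ℝ}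
    (hB : ∀ G, B G ≠ 0 → IsPrimeDivisor E' G ∧ G ⊆ S)
    (hBD : ∀ (D : Set X) (G : Set Y) (κ : ℕ), IsPrimeDivisor E D → IsPrimeDivisor E' G →
      closure (f '' D) = G → 0 < κ → (∃ z ∈ D, ∃ e g w, IsLocalEq E D e z ∧
        IsLocalEq E' G g (f z) ∧ HolAt E w z ∧ w z ≠ 0 ∧ ∀ᶠ x in 𝓝 z, g (f x) = e x ^ κ * w x) →
      (κ : ℝ) * B G ≤ κ - 1 + Δ D)
    {j : ℕ} (h₂ : KodGE E' (fun (G : Set Y) z g => IsLocalEq E' G g z) B j) :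
    KodGE E (fun (D : Set X) z g => IsLocalEq E D g z) Δ (j + 1) := by
  classical
  obtain ⟨q₀, hq₀, K₁, hK₁, -⟩ := exists_denominator hsnc
  have hKD0 : ∀ (m : ℕ) D, m * (N * K₁ D) ≠ 0 → Δ D ≠ 0 := by
    intro m D hD h0
    apply hD
    have h1 := hK₁ D
    rw [h0, mul_zero] at h1
    have h2 : K₁ D = 0 := by exact_mod_cast h1
    rw [h2]; simp
  have hκK : ∀ (m : ℕ) D, q₀ * m * κ₀ D ≤ m * (N * K₁ D) := by
    intro m D
    have h1 : ((q₀ * m * κ₀ D : ℕ) : ℝ) ≤ ((m * (N * K₁ D) : ℕ) : ℝ) := by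
      push_cast
      rw [hK₁ D]
      have h2 := hκ₀ D
      have h3 : (0 : ℝ) ≤ q₀ * m := by positivity
      calc (q₀ : ℝ) * m * κ₀ D ≤ q₀ * m * (N * Δ D) := by gcongr
        _ = m * (N * (q₀ * Δ D)) := by ring
    exact_mod_cast h1
  have hexp : ∀ (m : ℕ) (k : Set Y → ℕ), (∀ G, (k G : ℝ) = (m * (N * q₀) : ℕ) * B G) →
      ∀ (D : Set X) (G : Set Y) (κ : ℕ), IsPrimeDivisor E D → IsPrimeDivisor E' G →
      closure (f '' D) = G → 0 < κ →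
      (∃ z ∈ D, ∃ e g w, IsLocalEq E D e z ∧ IsLocalEq E' G g (f z) ∧ HolAt E w z ∧
        w z ≠ 0 ∧ ∀ᶠ x in 𝓝 z, g (f x) = e x ^ κ * w x) →
      κ * k G ≤ (m * (N * q₀)) * (κ - 1) + m * (N * K₁ D) := by
    intro m k hk D G κ hD hG hDG hκ hwit
    have h1 := hBD D G κ hD hG hDG hκ hwit
    have h3 : ((κ * k G : ℕ) : ℝ) ≤ (((m * (N * q₀)) * (κ - 1) + m * (N * K₁ D) : ℕ) : ℝ) := by
      push_cast [Nat.cast_sub (show 1 ≤ κ from hκ)]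
      rw [hk G, hK₁]
      push_cast
      have h4 : (0 : ℝ) ≤ m * (N * q₀) := by positivity
      calc (κ : ℝ) * (m * (N * q₀) * B G) = m * (N * q₀) * (κ * B G) := by ring
        _ ≤ m * (N * q₀) * (κ - 1 + Δ D) := by gcongr
        _ = m * (N * q₀) * (κ - 1) + m * (N * (q₀ * Δ D)) := by ring
    exact_mod_cast h3
  have hkB : ∀ (m : ℕ) (k : Set Y → ℕ), (∀ G, (k G : ℝ) = (m * (N * q₀) : ℕ) * B G) →
      ∀ G, k G ≠ 0 → B G ≠ 0 := by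
    intro m k hk G hG h0
    have h1 := hk G
    rw [h0, mul_zero] at h1
    exact hG (by exact_mod_cast h1)
  -- lifting with a form of weight `m N q₀` which is a monomial in `Θ₀` and `Θ₁`
  have hlift : ∀ (m : ℕ) (k : Set Y → ℕ) (t : Y → ℂ), 0 < m →
      (∀ G, (k G : ℝ) = (m * (N * q₀) : ℕ) * B G) →
      IsSection E' (fun (G : Set Y) z g => IsLocalEq E' G g z) (m * (N * q₀)) k t →
      ∀ a b : ℕ, a + b = q₀ * m →
      ∃ σ : X → ℂ, IsSection E (fun (D : Set X) z g => IsLocalEq E D g z) (m * (N * q₀))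
        (fun D => m * (N * K₁ D)) σ ∧
        ∀ z, f z ∉ S → (∀ D ∈ 𝒜, z ∉ D) → σ z = t (f z) * (Θ₀ z ^ a * Θ₁ z ^ b) := by
    intro m k t hm hk ht a b hab
    have hnp : m * (N * q₀) = N * a + N * b := by rw [← mul_add, hab]; ring
    exact liftH hf hS hthin (n := m * (N * q₀)) (Θ := fun x => Θ₀ x ^ a * Θ₁ x ^ b)
      (K := fun D => m * (N * K₁ D)) (hsnc.finite.subset fun D hD => hKD0 m D hD)
      (fun D hD => hsnc.prime D (hKD0 m D hD)) h𝒜f h𝒜p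
      (fun x₀ x y₀ hx hx₀ hy₀ T e hT he => by
        have hT' : ∀ D, κ₀ D ≠ 0 → D ∈ T := by
          intro D hD
          apply hT
          have h1 := hκK m D
          have h2 : 0 < q₀ * m * κ₀ D := Nat.mul_pos (Nat.mul_pos hq₀ hm) (Nat.pos_of_ne_zero hD)
          omega
        obtain ⟨H, hH, hHe⟩ := hΘ₀ x₀ x y₀ hx hx₀ hy₀ T e hT' he
        obtain ⟨H', hH', hHe'⟩ := hΘ₁ x₀ x y₀ hx hx₀ hy₀ T e hT' he
        refine ⟨fun z => H z ^ a * H' z ^ b *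
          ∏ D ∈ T, e D z ^ (m * (N * K₁ D) - q₀ * m * κ₀ D), ?_, ?_⟩
        · exact ((hH.pow _).mul (hH'.pow _)).mul (HolV.prod fun D hD => ((he D hD).holAt).pow _)
        · filter_upwards [hHe, hHe'] with z hz hz' hzA hz0
          have hz1 : ∏ D ∈ T, e D z ^ κ₀ D ≠ 0 := by
            refine Finset.prod_ne_zero_iff.2 fun D hD => ?_
            by_cases h0 : κ₀ D = 0
            · simp [h0]
            · refine pow_ne_zero _ fun h1 => ?_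
              have h2 := Finset.prod_ne_zero_iff.1 hz0 D hD
              apply h2
              rw [h1, zero_pow]
              have h3 := hκK m D
              have h4 : 0 < q₀ * m * κ₀ D :=
                Nat.mul_pos (Nat.mul_pos hq₀ hm) (Nat.pos_of_ne_zero h0)
              omega
          have h1 := hz hzA hz1
          have h2 := hz' hzA hz1
          have h3 : ∏ D ∈ T, e D z ^ (m * (N * K₁ D)) =
              (∏ D ∈ T, e D z ^ κ₀ D) ^ a * (∏ D ∈ T, e D z ^ κ₀ D) ^ b *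
                ∏ D ∈ T, e D z ^ (m * (N * K₁ D) - q₀ * m * κ₀ D) := by
            rw [← pow_add, hab, ← Finset.prod_pow, ← Finset.prod_mul_distrib]
            refine Finset.prod_congr rfl fun D _ => ?_
            rw [← pow_mul, ← pow_add]
            congr 1
            have := hκK m D
            have h5 : κ₀ D * (q₀ * m) = q₀ * m * κ₀ D := by ring
            omega
          have h4 := congrArg (· ^ a) h1
          have h5 := congrArg (· ^ b) h2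
          simp only [mul_pow, ← pow_mul] at h4 h5
          have h6 : (∏ D ∈ T, e D z ^ κ₀ D) ^ a * (∏ D ∈ T, e D z ^ κ₀ D) ^ b =
            (∏ D ∈ T, e D z ^ κ₀ D) ^ a * (∏ D ∈ T, e D z ^ κ₀ D) ^ b := rfl
          rw [h3, hnp, pow_add, pow_add]
          linear_combination (jac E' (chartAt E' y₀) (f z) ^ (N * b) * Θ₁ z ^ b *
            (∏ D ∈ T, e D z ^ κ₀ D) ^ b *
            ∏ D ∈ T, e D z ^ (m * (N * K₁ D) - q₀ * m * κ₀ D)) * h4 +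
            (H z ^ a * jac E (chartAt E x₀) z ^ (N * a) *
            ∏ D ∈ T, e D z ^ (m * (N * K₁ D) - q₀ * m * κ₀ D)) * h5)
      (fun x₀ y y₀ hx₀ hy₀ e w g κ hκ he he0 hde hg hg0 hdg hw hw0 heq hsub' hav => by
        refine rel_bound_GP hf (A := {z | ∃ D ∈ 𝒜, z ∈ D}) e₀ (n := m * (N * q₀))
          (Nat.mul_pos hm (Nat.mul_pos hN hq₀)) ?_
          hx₀ hy₀ hκ he he0 hde hg hg0 hdg hw hw0 heq hsub'
          (hav.mono fun z hz hzS hzA => by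
            obtain ⟨D, hD, hzD⟩ := hzA
            exact hz hzS D (Or.inr hD) hzD)
        intro r hr
        obtain ⟨C₀, hC₀⟩ := hfib₀ r hr
        obtain ⟨C₁, hC₁⟩ := hfib₁ r hr
        refine ⟨C₀ ^ a * C₁ ^ b, fun v₀ Q h1 h2 h3 h4 h4' P h5 => ?_⟩
        have hav' : ∀ v ∈ ball v₀ r, ∀ D ∈ 𝒜, Q v ∉ D := fun v hv D hD hQD =>
          h4' v hv ⟨D, hD, hQD⟩
        have h6 := pow_le_pow_left₀ (norm_nonneg _) (hC₀ v₀ Q h1 h2 h3 h4 hav' P h5) a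
        have h7 := pow_le_pow_left₀ (norm_nonneg _) (hC₁ v₀ Q h1 h2 h3 h4 hav' P h5) b
        have h8 := mul_le_mul h6 h7 (by positivity) ((pow_nonneg (norm_nonneg _) a).trans h6)
        show ‖Θ₀ (Q v₀) ^ a * Θ₁ (Q v₀) ^ b‖ ≤ _
        rw [norm_mul, norm_pow, norm_pow, hnp, pow_add, norm_mul, pow_mul, pow_mul, norm_pow,
          norm_pow]
        refine h8.trans (le_of_eq ?_)
        simp only [norm_pow, mul_pow]
        ring)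
      (fun G hG => (hB G (hkB m k hk G hG)).1)
      (fun G hG => (hB G (hkB m k hk G hG)).2) (hexp m k hk) ht
  refine kodGE_upH hf hS hSd hsub hsnc.finite hsnc.prime (fun G hG => (hB G hG).1)
    (q := N * q₀) (Nat.mul_pos hN hq₀) (K₀ := fun D => N * K₁ D) (fun D => by
      push_cast; rw [hK₁ D]; ring) (Jf := fun z => Θ₀ z ^ q₀) (R := fun z => Θ₁ z / Θ₀ z)
      h𝒜f h𝒜p (fun y hy => by
        obtain ⟨x, h1, h2, h3, h4⟩ := hnc y hy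
        exact ⟨x, h1, h2.mono fun z hz => pow_ne_zero _ hz, h3, h4⟩) ?_ ?_ h₂
  · intro m k t hm hk ht
    obtain ⟨σ, h1, h2⟩ := hlift m k t hm hk ht (q₀ * m) 0 (by simp)
    exact ⟨σ, h1, fun z hz hzA => by rw [h2 z hz hzA, pow_zero, mul_one, ← pow_mul]⟩
  · intro m k t hm hk ht
    obtain ⟨p, hp⟩ : ∃ p, q₀ * m = p + 1 := ⟨q₀ * m - 1, by
      have : 0 < q₀ * m := Nat.mul_pos hq₀ hm
      omega⟩
    obtain ⟨σ, h1, h2⟩ := hlift m k t hm hk ht p 1 hp.symm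
    refine ⟨σ, h1, fun z hz hzA hz0 => ?_⟩
    have h3 : Θ₀ z ≠ 0 := fun h0 => hz0 (by
      show Θ₀ z ^ q₀ = 0
      rw [h0, zero_pow hq₀.ne'])
    rw [h2 z hz hzA, ← pow_mul, hp, pow_one, pow_succ]
    field_simp

end Core

end Vale.Agent.P281.ELL
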