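import Vale.Agent.P281.ISO.DefsQ

namespace Vale.Agent.P281.J

open scoped Manifold ContDiff Topology
open Set

universe u

/-- The determinant of two vectors of `ℂ²`; it vanishes iff the vectors are proportional. -/
def wedge (u v : ℂ × ℂ) : ℂ := u.1 * v.2 - u.2 * v.1

section

variable (E E' : Type) [NormedAddCommGroup E] [NormedSpace ℂ E]
  [NormedAddCommGroup E'] [NormedSpace ℂ E']
variable {X Y : Type u} [TopologicalSpace X] [ChartedSpace E X]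
  [TopologicalSpace Y] [ChartedSpace E' Y]

/-- Over `Y ∖ S`, the fibres of `f : X → Y` are smooth curves with maps to `ℙ¹` (`c a`, in
homogeneous coordinates, over the open set `U a`), having at most `n` points in each fibre, étale
except over `d` distinct points `p a k y` of `ℙ¹` varying holomorphically with `y ∈ Y ∖ S`, and
with ramification index `e` at all the points over the `p a k y`; these points lie on the divisors
`D ∈ 𝒲` of `X`.  The changes of coordinates are projective and preserve the set of the `p a k y`. -/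
structure IsBranchedOver (f : X → Y) (S : Set Y) (n e d : ℕ) (𝒲 : Set (Set X)) {ι : Type u}
    (U : ι → Set Y) (p : ι → Fin d → Y → ℂ × ℂ) (c : ι → X → ℂ × ℂ) : Prop where
  cover : ∀ y, y ∉ S ↔ ∃ a, y ∈ U a
  isOpen : ∀ a, IsOpen (U a)
  branch : ∀ a k, ∀ y ∈ U a, HolAt E' (fun y => (p a k y).1) y ∧ HolAt E' (fun y => (p a k y).2) y
  distinct : ∀ a k k', ∀ y ∈ U a, k ≠ k' → wedge (p a k y) (p a k' y) ≠ 0
  surj : ∀ a, ∀ y ∈ U a, ∀ v : ℂ × ℂ, ∃ x, f x = y ∧ wedge (c a x) v = 0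
  degree : ∀ a, ∀ y ∈ U a, ∀ x : Fin (n + 1) → X, (∀ k, f (x k) = y) →
    (∀ k, wedge (c a (x k)) (c a (x 0)) = 0) → ¬ Function.Injective x
  lift : ∀ a x, f x ∈ U a → c a x ≠ 0 ∧ ∃ L : X → ℂ × ℂ, HolAt E (fun z => (L z).1) x ∧
    HolAt E (fun z => (L z).2) x ∧ L x ≠ 0 ∧ (∀ᶠ z in 𝓝 x, wedge (c a z) (L z) = 0) ∧
    ((∀ k, wedge (L x) (p a k (f x)) ≠ 0) → ∀ ξ : E, mfderiv 𝓘(ℂ, E) 𝓘(ℂ, E') f x ξ = 0 →
      (L x).1 * dif E (fun z => (L z).2) x ξ - (L x).2 * dif E (fun z => (L z).1) x ξ = 0 →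
      ξ = 0) ∧
    ∀ k, wedge (L x) (p a k (f x)) = 0 → ∃ D ∈ 𝒲, ∃ u : X → ℂ, IsLocalEq E D u x ∧
      (∀ᶠ z in 𝓝 x, wedge (L z) (p a k (f z)) = u z ^ e) ∧
      ∀ ξ : E, mfderiv 𝓘(ℂ, E) 𝓘(ℂ, E') f x ξ = 0 → dif E u x ξ = 0 → ξ = 0
  change : ∀ a b, ∀ y ∈ U a ∩ U b, ∃ (A : (ℂ × ℂ) ≃ₗ[ℂ] (ℂ × ℂ)) (σ : Equiv.Perm (Fin d)),
    (∀ x, f x = y → wedge (c b x) (A (c a x)) = 0) ∧
    ∀ k, wedge (p b (σ k) y) (A (p a k y)) = 0

end

end Vale.Agent.P281.J
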