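import Vale.Agent.P281.ELL.NonConst
import Vale.Agent.P281.ELL.DefsC

/-!
# P281: branched families, algebra for the non constancy
-/

open scoped Manifold ContDiff Topology
open Set Filter Metric

namespace Vale.Agent.P281.ELL

open Vale.Agent.P281 Vale.Agent.P281.MF Vale.Agent.P281.ISO

set_option linter.unusedSectionVars false

theorem nc_trans {u v p : ℂ × ℂ} (hu : u ≠ 0) (h1 : J.wedge u v = 0) (h2 : J.wedge u p = 0) :
    J.wedge v p = 0 := by
  unfold J.wedge at *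
  have e1 : u.1 * (v.1 * p.2 - v.2 * p.1) = 0 := by linear_combination v.1 * h2 - p.1 * h1
  have e2 : u.2 * (v.1 * p.2 - v.2 * p.1) = 0 := by linear_combination v.2 * h2 - p.2 * h1
  by_contra h
  have h3 := (mul_eq_zero.1 e1).resolve_right h
  have h4 := (mul_eq_zero.1 e2).resolve_right h
  exact hu (Prod.ext h3 h4)

theorem nc_swap {u v : ℂ × ℂ} (h : J.wedge u v = 0) : J.wedge v u = 0 := by
  unfold J.wedge at *
  linear_combination -h

theorem cov_prod {d : ℕ} {q : Fin d → ℂ} {a : Fin d → ℂ} {J : ℂ} {i : Fin d}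
    (ha : ∀ i, a i ≠ 0) :
    ∏ j ∈ Finset.univ.erase i, (q j * J / (a i * a j)) =
      (∏ j ∈ Finset.univ.erase i, q j) * J ^ (d - 1) * a i / (a i ^ (d - 1) * ∏ k, a k) := by
  have h1 : a i * ∏ j ∈ Finset.univ.erase i, a j = ∏ k, a k :=
    Finset.mul_prod_erase _ a (Finset.mem_univ i)
  have hcard : (Finset.univ.erase i).card = d - 1 := by
    rw [Finset.card_erase_of_mem (Finset.mem_univ i), Finset.card_univ, Fintype.card_fin]
  rw [Finset.prod_div_distrib, Finset.prod_mul_distrib, Finset.prod_mul_distrib,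
    Finset.prod_const, Finset.prod_const, hcard, ← h1]
  have h2 : ∏ j ∈ Finset.univ.erase i, a j ≠ 0 := Finset.prod_ne_zero_iff.2 fun j _ => ha j
  have h3 := ha i
  field_simp

/-- the ratio of the two relative forms. -/
theorem cov_alg {d : ℕ} (hd : 2 ≤ d) {q : Fin d → Fin d → ℂ} {a : Fin d → ℂ} {J : ℂ}
    (hq : ∀ i j, i ≠ j → q i j ≠ 0) (ha : ∀ i, a i ≠ 0) (hJ : J ≠ 0) :
    (∑ i, (∏ j ∈ Finset.univ.erase i, (q i j * J / (a i * a j))) ^ d) /
      (∏ i, ∏ j ∈ Finset.univ.erase i, (q i j * J / (a i * a j))) =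
    ∑ i, ((∏ j ∈ Finset.univ.erase i, q i j) ^ d / ∏ k, ∏ l ∈ Finset.univ.erase k, q k l) *
      ((∏ k, a k) ^ (d - 2) / a i ^ (d * (d - 2))) := by
  obtain ⟨m, rfl⟩ : ∃ m, d = m + 2 := ⟨d - 2, by omega⟩
  have hP : ∏ k, a k ≠ 0 := Finset.prod_ne_zero_iff.2 fun j _ => ha j
  have hQ : ∏ k, ∏ l ∈ Finset.univ.erase k, q k l ≠ 0 :=
    Finset.prod_ne_zero_iff.2 fun k _ => Finset.prod_ne_zero_iff.2 fun l hl =>
      hq k l (Finset.ne_of_mem_erase hl).symm
  have hT : ∀ i, ∏ j ∈ Finset.univ.erase i, (q i j * J / (a i * a j)) =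
      (∏ j ∈ Finset.univ.erase i, q i j) * J ^ (m + 1) / (a i ^ m * ∏ k, a k) := by
    intro i
    rw [cov_prod ha]
    have h3 := ha i
    have e1 : m + 2 - 1 = m + 1 := rfl
    rw [e1, pow_succ (a i) m]
    field_simp
  simp_rw [hT]
  rw [Finset.prod_div_distrib, Finset.prod_mul_distrib, Finset.prod_mul_distrib,
    Finset.prod_const, Finset.prod_const, Finset.card_univ, Fintype.card_fin,
    Finset.prod_pow, Finset.sum_div]
  refine Finset.sum_congr rfl fun i _ => ?_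
  have e2 : m + 2 - 2 = m := rfl
  have h4 : a i ^ ((m + 2) * m) = (a i ^ m) ^ (m + 2) := pow_mul' _ _ _
  rw [e2, h4]
  have h5 : a i ^ m ≠ 0 := pow_ne_zero _ (ha i)
  have h6 : J ^ (m + 1) ≠ 0 := pow_ne_zero _ hJ
  generalize a i ^ m = A at h5
  generalize J ^ (m + 1) = K at h6
  generalize (∏ k, a k) = P at hP
  generalize (∏ k, ∏ l ∈ Finset.univ.erase k, q k l) = R at hQ
  generalize (∏ j ∈ Finset.univ.erase i, q i j) = T
  rw [div_pow, mul_pow, mul_pow]
  field_simp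

/-- a pole has non vanishing derivatives nearby. -/
theorem pole_deriv' {g B : ℂ → ℂ} {M : ℕ} (hM : 0 < M) (hB : ContDiffAt ℂ ω B 0) (hB0 : B 0 ≠ 0)
    (hg : ∀ᶠ s in 𝓝[≠] (0 : ℂ), g s = B s / s ^ M) :
    ∃ᶠ s in 𝓝[≠] (0 : ℂ), deriv g s ≠ 0 := by
  intro hcon
  obtain ⟨k, rfl⟩ : ∃ k, M = k + 1 := ⟨M - 1, by omega⟩
  have hcon' : ∀ᶠ w in 𝓝[≠] (0 : ℂ), deriv g w = 0 := hcon.mono fun w hw => not_not.1 hw
  have h1 := eventually_eventually_nhdsWithin.2 hg
  have hhd : ∀ᶠ w in 𝓝[≠] (0 : ℂ), DifferentiableAt ℂ B w :=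
    nhdsWithin_le_nhds ((hB.eventually (by simp)).mono fun w hw => hw.differentiableAt (by simp))
  have h2 : ∀ᶠ w in 𝓝[≠] (0 : ℂ), w * deriv B w - (k + 1) * B w = 0 := by
    filter_upwards [h1, hcon', hhd, self_mem_nhdsWithin] with w hw1 hw2 hw3 hw4
    have hne : w ≠ 0 := hw4
    have hw1' : g =ᶠ[𝓝 w] fun z => B z / z ^ (k + 1) := by
      rwa [IsOpen.nhdsWithin_eq isOpen_compl_singleton hw4] at hw1
    have h6 : HasDerivAt (fun z : ℂ => z ^ (k + 1)) (((k + 1 : ℕ) : ℂ) * w ^ k) w :=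
      hasDerivAt_pow (k + 1) w
    have h7 := (hw3.hasDerivAt.div h6 (pow_ne_zero _ hne)).deriv
    have h8 : deriv g w = _ := hw1'.deriv_eq.trans h7
    rw [hw2] at h8
    have h9 := (div_eq_zero_iff.1 h8.symm).resolve_right (pow_ne_zero _ (pow_ne_zero _ hne))
    have h10 : w ^ k * (w * deriv B w - (k + 1) * B w) = 0 := by
      rw [← h9]
      push_cast
      ring
    exact (mul_eq_zero.1 h10).resolve_left (pow_ne_zero _ hne)
  have h3 : Tendsto (fun w => w * deriv B w - (k + 1) * B w) (𝓝[≠] (0 : ℂ))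
      (𝓝 (0 * deriv B 0 - (k + 1) * B 0)) := by
    have h4 : ContinuousAt (fun w => w * deriv B w - (k + 1) * B w) 0 := by
      refine (continuousAt_id.mul hB.analyticAt.deriv.continuousAt).sub
        (continuousAt_const.mul hB.continuousAt)
    exact h4.tendsto.mono_left nhdsWithin_le_nhds
  have h4 : Tendsto (fun w => w * deriv B w - (k + 1) * B w) (𝓝[≠] (0 : ℂ)) (𝓝 0) :=
    tendsto_const_nhds.congr' (h2.mono fun w hw => hw.symm)
  have h5 := tendsto_nhds_unique h3 h4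
  rw [zero_mul, zero_sub, neg_eq_zero] at h5
  rcases mul_eq_zero.1 h5 with h6 | h6
  · have : ((k + 1 : ℕ) : ℂ) = 0 := by push_cast; exact h6
    exact absurd (Nat.cast_eq_zero.1 this) (by omega)
  · exact hB0 h6

end Vale.Agent.P281.ELL
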