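import Vale.Agent.P281.ELL.DefsC
import Vale.Agent.P281.ISO.RelBound

/-!
# P281, branched fibrations: the Wronskian and the forms `ww`
-/

open scoped Manifold ContDiff Topology
open Set Filter Metric

namespace Vale.Agent.P281.ELL

open Vale.Agent.P281 Vale.Agent.P281.MF Vale.Agent.P281.ISO

universe u

/-- the Wronskian `L₁ dL₂ - L₂ dL₁` of a map to `ℂ²`. -/
noncomputable def WL (E : Type) [NormedAddCommGroup E] [NormedSpace ℂ E] {X : Type u}
    [TopologicalSpace X] [ChartedSpace E X] (L : X → ℂ × ℂ) (x : X) : E →L[ℂ] ℂ :=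
  (L x).1 • dif E (fun z => (L z).2) x - (L x).2 • dif E (fun z => (L z).1) x

variable {E E' : Type} [NormedAddCommGroup E] [NormedSpace ℂ E]
  [NormedAddCommGroup E'] [NormedSpace ℂ E']
  {X Y : Type u} [TopologicalSpace X] [ChartedSpace E X]
  [TopologicalSpace Y] [ChartedSpace E' Y]

/-- the relative form `d log ((L ∧ p_i) / (L ∧ p_j))`, up to sign. -/
noncomputable def ww (e₀ : E ≃L[ℂ] (E' × ℂ)) (f : X → Y) {d : ℕ} (p : Fin d → Y → ℂ × ℂ)
    (L : X → ℂ × ℂ) (x : X) (i j : Fin d) : ℂ :=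
  J.wedge (p i (f x)) (p j (f x)) * JP e₀ (dM E E' f x) (WL E L x) /
    (J.wedge (L x) (p i (f x)) * J.wedge (L x) (p j (f x)))

end Vale.Agent.P281.ELL
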