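import Vale.Agent.P281.ELL.CovDef
import Vale.Agent.P281.ELL.Affine
import Vale.Agent.P281.ISO.SymB

/-!
# P281, branched fibrations: the relative forms are well defined
-/

open scoped Manifold ContDiff Topology
open Set Filter Metric

namespace Vale.Agent.P281.ELL

open Vale.Agent.P281 Vale.Agent.P281.MF Vale.Agent.P281.ISO

set_option linter.unusedSectionVars false

universe u

/-! ### The wedge -/

theorem cf_prop {u v : ℂ × ℂ} (h : J.wedge u v = 0) (hu : u ≠ 0) : ∃ μ : ℂ, v = μ • u := by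
  unfold J.wedge at h
  by_cases h1 : u.1 = 0
  · have h2 : u.2 ≠ 0 := fun h2 => hu (Prod.ext h1 h2)
    refine ⟨v.2 / u.2, Prod.ext ?_ ?_⟩
    · have h3 : u.2 * v.1 = 0 := by
        rw [h1] at h
        linear_combination -h
      have h4 : v.1 = 0 := (mul_eq_zero.1 h3).resolve_left h2
      simp [h1, h4]
    · simp [h2]
  · refine ⟨v.1 / u.1, Prod.ext ?_ ?_⟩
    · simp [h1]
    · simp only [Prod.smul_snd, smul_eq_mul]
      field_simp
      linear_combination h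

theorem cf_smul (a b : ℂ) (u v : ℂ × ℂ) :
    J.wedge (a • u) (b • v) = a * b * J.wedge u v := by
  simp only [J.wedge, Prod.smul_fst, Prod.smul_snd, smul_eq_mul]
  ring

theorem cf_comm (u v : ℂ × ℂ) : J.wedge u v = -J.wedge v u := by
  simp only [J.wedge]
  ring

theorem cf_lin (A : (ℂ × ℂ) ≃ₗ[ℂ] (ℂ × ℂ)) (u : ℂ × ℂ) :
    A u = u.1 • A (1, 0) + u.2 • A (0, 1) := by
  rw [← map_smul, ← map_smul, ← map_add]
  congr 1
  simp

theorem cf_wedge_lin (A : (ℂ × ℂ) ≃ₗ[ℂ] (ℂ × ℂ)) (u v : ℂ × ℂ) :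
    J.wedge (A u) (A v) = J.wedge (A (1, 0)) (A (0, 1)) * J.wedge u v := by
  rw [cf_lin A u, cf_lin A v]
  simp only [J.wedge, Prod.fst_add, Prod.snd_add, Prod.smul_fst, Prod.smul_snd, smul_eq_mul]
  ring

theorem cf_det_ne (A : (ℂ × ℂ) ≃ₗ[ℂ] (ℂ × ℂ)) : J.wedge (A (1, 0)) (A (0, 1)) ≠ 0 := by
  intro h
  have h1 := cf_wedge_lin A (A.symm (1, 0)) (A.symm (0, 1))
  rw [h, zero_mul, A.apply_symm_apply, A.apply_symm_apply] at h1
  simp [J.wedge] at h1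

section Cov

variable {E E' : Type} [NormedAddCommGroup E] [NormedSpace ℂ E] [FiniteDimensional ℂ E]
  [NormedAddCommGroup E'] [NormedSpace ℂ E'] [FiniteDimensional ℂ E']
variable {X Y : Type u} [TopologicalSpace X] [ChartedSpace E X] [IsManifold 𝓘(ℂ, E) ω X]
  [TopologicalSpace Y] [ChartedSpace E' Y] [IsManifold 𝓘(ℂ, E') ω Y]

theorem WL_apply (L : X → ℂ × ℂ) (x : X) (ξ : E) : WL E L x ξ =
    (L x).1 * dif E (fun z => (L z).2) x ξ - (L x).2 * dif E (fun z => (L z).1) x ξ := by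
  unfold WL
  simp only [ContinuousLinearMap.sub_apply, ContinuousLinearMap.smul_apply, smul_eq_mul]

theorem cf_dif_mul {g : X → ℂ} {x : X} (hg : HolV E g x) (c : ℂ) (ξ : E) :
    dif E (fun z => c * g z) x ξ = c * dif E g x ξ := by
  have h1 := dV_smul (E := E) (lam := fun _ : X => c) (v := g) (x := x) (HolV.const c x) hg
  have h2 : dV E (fun _ : X => c) x = 0 := ISO.dif_const c x
  have h3 := congrArg (fun T : E →L[ℂ] ℂ => T ξ) h1
  simp only [h2, ContinuousLinearMap.add_apply, ContinuousLinearMap.smul_apply, smul_eq_mul,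
    ContinuousLinearMap.smulRight_apply, ContinuousLinearMap.zero_apply, zero_mul,
    add_zero] at h3
  exact h3

/-- The Wronskian of two lifts related by a projective transformation along the fibre. -/
theorem wron_key {f : X → Y} {x : X} (hf : HolM E E' f x) (e₀ : E ≃L[ℂ] (E' × ℂ))
    {L L' : X → ℂ × ℂ} (h1 : HolV E (fun z => (L z).1) x) (h2 : HolV E (fun z => (L z).2) x)
    (h1' : HolV E (fun z => (L' z).1) x) (h2' : HolV E (fun z => (L' z).2) x)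
    (hL : L x ≠ 0) (hL' : L' x ≠ 0) (hinj : ∀ ξ, dM E E' f x ξ = 0 → WL E L x ξ = 0 → ξ = 0)
    (A : (ℂ × ℂ) ≃ₗ[ℂ] (ℂ × ℂ)) (hA : ∀ᶠ z in 𝓝 x, f z = f x → J.wedge (L' z) (A (L z)) = 0) :
    ∃ (κ : ℂ) (η : E), κ ≠ 0 ∧ L' x = κ • A (L x) ∧ dM E E' f x η = 0 ∧ WL E L x η = 1 ∧
      WL E L' x η = κ ^ 2 * J.wedge (A (1, 0)) (A (0, 1)) := by
  have hAL : A (L x) ≠ 0 := fun h => hL ((LinearEquiv.map_eq_zero_iff A).1 h)
  have hw0 : J.wedge (L' x) (A (L x)) = 0 := hA.self_of_nhds rfl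
  obtain ⟨κ, hκ⟩ := cf_prop (by rw [cf_comm, hw0, neg_zero] :
    J.wedge (A (L x)) (L' x) = 0) hAL
  have hκ0 : κ ≠ 0 := by
    rintro rfl
    rw [zero_smul] at hκ
    exact hL' hκ
  -- the fibre coordinate
  set ζ : X → ℂ := fun z => (L x).1 * (L z).2 + (-(L x).2) * (L z).1 with hζdef
  have hg1 : HolV E (fun z => (L x).1 * (L z).2) x := HolV.mul (HolV.const _ x) h2
  have hg2 : HolV E (fun z => (-(L x).2) * (L z).1) x := HolV.mul (HolV.const _ x) h1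
  have hζ : HolV E ζ x := HolV.add hg1 hg2
  have hdζ : ∀ ξ, dif E ζ x ξ = WL E L x ξ := by
    intro ξ
    have h3 := congrArg (fun T : E →L[ℂ] ℂ => T ξ) (ISO.dif_add hg1 hg2)
    simp only [ContinuousLinearMap.add_apply] at h3
    rw [cf_dif_mul h2, cf_dif_mul h1] at h3
    rw [WL_apply]
    linear_combination h3
  obtain ⟨ψ, hψ, hψx, hev⟩ := coord_section hf hζ e₀ (fun ξ h3 h4 => hinj ξ h3 (by
    rw [← hdζ]
    exact h4))
  set p₀ := ζ x with hp₀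
  obtain ⟨η, hη⟩ : ∃ η : E, η = (mfderiv 𝓘(ℂ, ℂ) 𝓘(ℂ, E) ψ p₀ : ℂ →L[ℂ] E) (1 : ℂ) := ⟨_, rfl⟩
  have key : ∀ g : X → ℂ, HolV E g x →
      HasDerivAt (fun p => g (ψ p)) (dif E g x η) p₀ := by
    intro g hg
    have hg' : HolV E g (ψ p₀) := by
      rw [hψx]
      exact hg
    have h3 := slice_comp hψ hg'
    rw [← hη] at h3
    have h4 : dif E g (ψ p₀) η = dif E g x η := by rw [hψx]
    rw [h4] at h3
    rw [← h3.2]
    exact (h3.1.differentiableAt (by simp)).hasDerivAt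
  have hdf : dM E E' f x η = 0 := by
    have hfψ : MDifferentiableAt 𝓘(ℂ, E) 𝓘(ℂ, E') f (ψ p₀) := by
      rw [hψx]
      exact hf.mdifferentiableAt (by simp)
    have hc := mfderiv_comp p₀ hfψ (hψ.mdifferentiableAt (by simp))
    have he : (f ∘ ψ) =ᶠ[𝓝 p₀] fun _ => f x := hev.mono fun p hp => hp.1
    have h0 : (mfderiv 𝓘(ℂ, ℂ) 𝓘(ℂ, E') (f ∘ ψ) p₀ : ℂ →L[ℂ] E') = 0 := by
      have h3 := he.mfderiv_eq (I := 𝓘(ℂ, ℂ)) (I' := 𝓘(ℂ, E'))
      have h4 : (mfderiv 𝓘(ℂ, ℂ) 𝓘(ℂ, E') (fun _ : ℂ => f x) p₀ : ℂ →L[ℂ] E') = 0 :=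
        mfderiv_const
      exact h3.trans h4
    have h5 : (mfderiv 𝓘(ℂ, E) 𝓘(ℂ, E') f (ψ p₀) : E →L[ℂ] E')
        ((mfderiv 𝓘(ℂ, ℂ) 𝓘(ℂ, E) ψ p₀ : ℂ →L[ℂ] E) (1 : ℂ)) = 0 := by
      have h6 := congrArg (fun T : ℂ →L[ℂ] E' => T 1) (hc.symm.trans h0)
      exact h6
    rw [← hη] at h5
    have h6 : dM E E' f (ψ p₀) η = 0 := h5
    rw [hψx] at h6
    exact h6
  have hψc : Tendsto ψ (𝓝 p₀) (𝓝 x) := by
    have := hψ.continuousAt.tendsto
    rwa [hψx] at this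
  -- the four derivatives
  have k1 := key _ h1
  have k2 := key _ h2
  have k1' := key _ h1'
  have k2' := key _ h2'
  set a1 := dif E (fun z => (L z).1) x η
  set a2 := dif E (fun z => (L z).2) x η
  set b1 := dif E (fun z => (L' z).1) x η
  set b2 := dif E (fun z => (L' z).2) x η
  have hW : WL E L x η = 1 := by
    rw [← hdζ]
    have h3 : HasDerivAt (fun p => ζ (ψ p)) 1 p₀ :=
      (hasDerivAt_id p₀).congr_of_eventuallyEq (hev.mono fun p hp => hp.2)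
    exact (key ζ hζ).unique h3
  have hW' : (L x).1 * a2 - (L x).2 * a1 = 1 := by
    rw [← hW, WL_apply]
  set m := A (1, 0) with hm
  set n := A (0, 1) with hn
  have hF : HasDerivAt (fun p => (L' (ψ p)).1 * ((L (ψ p)).1 * m.2 + (L (ψ p)).2 * n.2) -
      (L' (ψ p)).2 * ((L (ψ p)).1 * m.1 + (L (ψ p)).2 * n.1))
      ((b1 * ((L (ψ p₀)).1 * m.2 + (L (ψ p₀)).2 * n.2) +
        (L' (ψ p₀)).1 * (a1 * m.2 + a2 * n.2)) -
       (b2 * ((L (ψ p₀)).1 * m.1 + (L (ψ p₀)).2 * n.1) +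
        (L' (ψ p₀)).2 * (a1 * m.1 + a2 * n.1))) p₀ :=
    (k1'.mul ((k1.mul_const m.2).add (k2.mul_const n.2))).sub
      (k2'.mul ((k1.mul_const m.1).add (k2.mul_const n.1)))
  have hF0 : (fun p => (L' (ψ p)).1 * ((L (ψ p)).1 * m.2 + (L (ψ p)).2 * n.2) -
      (L' (ψ p)).2 * ((L (ψ p)).1 * m.1 + (L (ψ p)).2 * n.1)) =ᶠ[𝓝 p₀] fun _ => 0 := by
    filter_upwards [hψc.eventually hA, hev] with p h3 h4
    have h5 := h3 h4.1
    rw [cf_lin A (L (ψ p))] at h5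
    simp only [J.wedge, Prod.fst_add, Prod.snd_add, Prod.smul_fst, Prod.smul_snd,
      smul_eq_mul] at h5
    exact h5
  have hF1 := hF.unique ((hasDerivAt_const p₀ (0 : ℂ)).congr_of_eventuallyEq hF0)
  rw [hψx] at hF1
  have hκ1 : (L' x).1 = κ * ((L x).1 * m.1 + (L x).2 * n.1) := by
    rw [hκ, cf_lin A (L x)]
    simp only [Prod.smul_fst, Prod.fst_add, smul_eq_mul]
    rfl
  have hκ2 : (L' x).2 = κ * ((L x).1 * m.2 + (L x).2 * n.2) := by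
    rw [hκ, cf_lin A (L x)]
    simp only [Prod.smul_snd, Prod.snd_add, smul_eq_mul]
    rfl
  refine ⟨κ, η, hκ0, hκ, hdf, hW, ?_⟩
  rw [WL_apply]
  show (L' x).1 * b2 - (L' x).2 * b1 = κ ^ 2 * (m.1 * n.2 - m.2 * n.1)
  rw [hκ1, hκ2] at hF1 ⊢
  linear_combination (-κ) * hF1 + κ ^ 2 * (m.1 * n.2 - m.2 * n.1) * hW'

/-- injectivity on the fibres is transported. -/
theorem wron_inj {f : X → Y} {x : X} {L L' : X → ℂ × ℂ} {η : E} {c : ℂ} (hc : c ≠ 0)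
    (hinj : ∀ ξ, dM E E' f x ξ = 0 → WL E L x ξ = 0 → ξ = 0)
    (h1 : dM E E' f x η = 0) (h2 : WL E L x η = 1) (h3 : WL E L' x η = c) :
    ∀ ξ, dM E E' f x ξ = 0 → WL E L' x ξ = 0 → ξ = 0 := by
  intro ξ h4 h5
  have h6 : ξ - WL E L x ξ • η = 0 := by
    apply hinj
    · rw [map_sub, map_smul, h1, h4, smul_zero, sub_zero]
    · rw [map_sub, map_smul, h2, smul_eq_mul, mul_one, sub_self]
  have h7 : ξ = WL E L x ξ • η := sub_eq_zero.1 h6
  have h8 : WL E L x ξ * c = 0 := by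
    have h9 := congrArg (WL E L' x) h7
    rw [h5, map_smul, h3, smul_eq_mul] at h9
    exact h9.symm
  have h9 : WL E L x ξ = 0 := (mul_eq_zero.1 h8).resolve_right hc
  exact hinj ξ h4 h9

variable {f : X → Y} {S : Set Y} {n e d : ℕ} {𝒲 : Set (Set X)} {ι : Type u} {U : ι → Set Y}
  {p : ι → Fin d → Y → ℂ × ℂ} {c : ι → X → ℂ × ℂ}

/-- admissible lifts at an unbranched point. -/
structure Val (E : Type) [NormedAddCommGroup E] [NormedSpace ℂ E] {X Y : Type u}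
    [TopologicalSpace X] [ChartedSpace E X] (f : X → Y) {d : ℕ} {ι : Type u} (U : ι → Set Y)
    (p : ι → Fin d → Y → ℂ × ℂ) (c : ι → X → ℂ × ℂ) (a : ι) (L : X → ℂ × ℂ) (x : X) : Prop where
  mem : f x ∈ U a
  ne : ∀ k, J.wedge (c a x) (p a k (f x)) ≠ 0
  hol1 : HolV E (fun z => (L z).1) x
  hol2 : HolV E (fun z => (L z).2) x
  ne0 : L x ≠ 0
  prop : ∀ᶠ z in 𝓝 x, J.wedge (c a z) (L z) = 0

theorem cf_trans {u v w : ℂ × ℂ} (hu : u ≠ 0) (h1 : J.wedge u v = 0) (h2 : J.wedge u w = 0) :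
    J.wedge v w = 0 := by
  obtain ⟨a, rfl⟩ := cf_prop h1 hu
  obtain ⟨b, rfl⟩ := cf_prop h2 hu
  simp only [J.wedge, Prod.smul_fst, Prod.smul_snd, smul_eq_mul]
  ring

theorem Val.ne' (h : J.IsBranchedOver E E' f S n e d 𝒲 U p c) {a : ι} {L : X → ℂ × ℂ} {x : X}
    (hv : Val E f U p c a L x) (k : Fin d) : J.wedge (L x) (p a k (f x)) ≠ 0 := by
  obtain ⟨μ, hμ⟩ := cf_prop hv.prop.self_of_nhds (h.lift a x hv.mem).1
  have hμ0 : μ ≠ 0 := by
    rintro rfl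
    exact hv.ne0 (by rw [hμ, zero_smul])
  rw [hμ]
  have h1 := cf_smul μ 1 (c a x) (p a k (f x))
  rw [one_smul, mul_one] at h1
  rw [h1]
  exact mul_ne_zero hμ0 (hv.ne k)

/-- the Wronskian of an admissible lift is injective on the tangent space of the fibre. -/
theorem Val.inj (hf : ∀ x, HolM E E' f x) (h : J.IsBranchedOver E E' f S n e d 𝒲 U p c)
    (e₀ : E ≃L[ℂ] (E' × ℂ)) {a : ι} {L : X → ℂ × ℂ} {x : X} (hv : Val E f U p c a L x) :
    ∀ ξ, dM E E' f x ξ = 0 → WL E L x ξ = 0 → ξ = 0 := by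
  obtain ⟨hc, L₀, g1, g2, g3, g4, g5, -⟩ := h.lift a x hv.mem
  have hv₀ : Val E f U p c a L₀ x := ⟨hv.mem, hv.ne, g1, g2, g3, g4⟩
  have hinj₀ : ∀ ξ, dM E E' f x ξ = 0 → WL E L₀ x ξ = 0 → ξ = 0 := by
    intro ξ h1 h2
    rw [WL_apply] at h2
    exact g5 (hv₀.ne' h) ξ h1 h2
  obtain ⟨κ, η, hκ, -, h1, h2, h3⟩ := wron_key (hf x) e₀ g1 g2 hv.hol1 hv.hol2 g3 hv.ne0 hinj₀
    (LinearEquiv.refl ℂ (ℂ × ℂ)) (by
      filter_upwards [g4, hv.prop] with z h1 h2 h3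
      have hz : c a z ≠ 0 := (h.lift a z (by rw [h3]; exact hv.mem)).1
      exact cf_trans hz h2 h1)
  exact wron_inj (mul_ne_zero (pow_ne_zero 2 hκ) (cf_det_ne _)) hinj₀ h1 h2 h3

/-- invariance of the forms `ww`. -/
theorem ww_inv (hf : ∀ x, HolM E E' f x) (h : J.IsBranchedOver E E' f S n e d 𝒲 U p c)
    (e₀ : E ≃L[ℂ] (E' × ℂ)) {a b : ι} {L L' : X → ℂ × ℂ} {x : X} (hv : Val E f U p c a L x)
    (hv' : Val E f U p c b L' x) : ∃ σ : Equiv.Perm (Fin d), ∀ i j,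
      ww e₀ f (p b) L' x (σ i) (σ j) = ww e₀ f (p a) L x i j := by
  obtain ⟨A, σ, hA, hσ⟩ := h.change a b (f x) ⟨hv.mem, hv'.mem⟩
  obtain ⟨κ, η, hκ, hκ', h1, h2, h3⟩ := wron_key (hf x) e₀ hv.hol1 hv.hol2 hv'.hol1 hv'.hol2
    hv.ne0 hv'.ne0 (hv.inj hf h e₀) A (by
      filter_upwards [hv.prop, hv'.prop] with z h1 h2 h3
      have hza : c a z ≠ 0 := (h.lift a z (by rw [h3]; exact hv.mem)).1
      have hzb : c b z ≠ 0 := (h.lift b z (by rw [h3]; exact hv'.mem)).1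
      obtain ⟨μ, hμ⟩ := cf_prop h1 hza
      have h4 : J.wedge (c b z) (A (L z)) = 0 := by
        have h5 := cf_smul 1 μ (c b z) (A (c a z))
        rw [one_smul, one_mul, hA z h3, mul_zero] at h5
        rw [hμ, map_smul]
        exact h5
      exact cf_trans hzb h2 h4)
  have hδ := cf_det_ne A
  set δ := J.wedge (A (1, 0)) (A (0, 1)) with hδdef
  have hJ : JP e₀ (dM E E' f x) (WL E L' x) = κ ^ 2 * δ * JP e₀ (dM E E' f x) (WL E L x) :=
    JP_scale e₀ h1 h2 (mul_ne_zero (pow_ne_zero 2 hκ) hδ) h3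
  have hp : ∀ k, ∃ ν : ℂ, ν ≠ 0 ∧ p b (σ k) (f x) = ν • A (p a k (f x)) := by
    intro k
    have h4 : p a k (f x) ≠ 0 := by
      intro h0
      apply hv.ne k
      rw [h0]
      simp [J.wedge]
    have h5 : A (p a k (f x)) ≠ 0 := fun h0 => h4 ((LinearEquiv.map_eq_zero_iff A).1 h0)
    obtain ⟨ν, hν⟩ := cf_prop (by rw [cf_comm, hσ k, neg_zero] :
      J.wedge (A (p a k (f x))) (p b (σ k) (f x)) = 0) h5
    refine ⟨ν, ?_, hν⟩
    rintro rfl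
    apply hv'.ne (σ k)
    rw [hν, zero_smul]
    simp [J.wedge]
  refine ⟨σ, fun i j => ?_⟩
  obtain ⟨νi, hνi, hi⟩ := hp i
  obtain ⟨νj, hνj, hj⟩ := hp j
  unfold ww
  rw [hJ, hi, hj, hκ', cf_smul, cf_smul, cf_smul,
    cf_wedge_lin A (p a i (f x)) (p a j (f x)), cf_wedge_lin A (L x) (p a i (f x)),
    cf_wedge_lin A (L x) (p a j (f x)), ← hδdef]
  have hc : κ ^ 2 * νi * νj * δ ^ 2 ≠ 0 :=
    mul_ne_zero (mul_ne_zero (mul_ne_zero (pow_ne_zero 2 hκ) hνi) hνj) (pow_ne_zero 2 hδ)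
  rw [← mul_div_mul_left (J.wedge (p a i (f x)) (p a j (f x)) * JP e₀ (dM E E' f x) (WL E L x))
    (J.wedge (L x) (p a i (f x)) * J.wedge (L x) (p a j (f x))) hc]
  congr 1 <;> ring

theorem exists_cov (hf : ∀ x, HolM E E' f x) (h : J.IsBranchedOver E E' f S n e d 𝒲 U p c)
    (e₀ : E ≃L[ℂ] (E' × ℂ)) :
    ∃ Θ Ψ : X → ℂ, ∀ a x, f x ∈ U a → (∀ k, J.wedge (c a x) (p a k (f x)) ≠ 0) →
      ∀ L : X → ℂ × ℂ, HolV E (fun z => (L z).1) x → HolV E (fun z => (L z).2) x → L x ≠ 0 →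
      (∀ᶠ z in 𝓝 x, J.wedge (c a z) (L z) = 0) →
      Θ x = (∏ i, ∏ j ∈ Finset.univ.erase i, ww e₀ f (p a) L x i j) ∧
      Ψ x = ∑ i, (∏ j ∈ Finset.univ.erase i, ww e₀ f (p a) L x i j) ^ d := by
  classical
  have hprod : ∀ {a b : ι} {L L' : X → ℂ × ℂ} {x : X} (σ : Equiv.Perm (Fin d)),
      (∀ i j, ww e₀ f (p b) L' x (σ i) (σ j) = ww e₀ f (p a) L x i j) → ∀ i,
      ∏ j ∈ Finset.univ.erase (σ i), ww e₀ f (p b) L' x (σ i) j =
        ∏ j ∈ Finset.univ.erase i, ww e₀ f (p a) L x i j := by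
    intro a b L L' x σ hσ i
    refine (Finset.prod_equiv σ ?_ ?_).symm
    · intro j
      simp
    · intro j _
      exact (hσ i j).symm
  let P : X → Prop := fun x => ∃ q : ι × (X → ℂ × ℂ), Val E f U p c q.1 q.2 x
  refine ⟨fun x => if hx : P x then ∏ i, ∏ j ∈ Finset.univ.erase i,
      ww e₀ f (p hx.choose.1) hx.choose.2 x i j else 0,
    fun x => if hx : P x then ∑ i, (∏ j ∈ Finset.univ.erase i,
      ww e₀ f (p hx.choose.1) hx.choose.2 x i j) ^ d else 0, ?_⟩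
  intro a x ha hne L h1 h2 h3 h4
  have hv : Val E f U p c a L x := ⟨ha, hne, h1, h2, h3, h4⟩
  have hx : P x := ⟨(a, L), hv⟩
  obtain ⟨σ, hσ⟩ := ww_inv hf h e₀ hv hx.choose_spec
  have h5 := hprod σ hσ
  constructor
  · simp only [dif_pos hx]
    rw [← Equiv.prod_comp σ]
    exact Finset.prod_congr rfl fun i _ => h5 i
  · simp only [dif_pos hx]
    rw [← Equiv.sum_comp σ]
    exact Finset.sum_congr rfl fun i _ => by rw [h5 i]

end Cov

end Vale.Agent.P281.ELL
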