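import Vale.Agent.P281.ELL.Theta

/-!
# P281: lifting the slices of the fibres of a smooth family of elliptic curves
-/

open scoped Manifold ContDiff Topology
open Set Filter Metric

namespace Vale.Agent.P281.ELL

open Vale.Agent.P281 Vale.Agent.P281.MF Vale.Agent.P281.ISO

set_option linter.unusedSectionVars false

universe u

section Slice

variable {E E' : Type} [NormedAddCommGroup E] [NormedSpace ℂ E] [FiniteDimensional ℂ E]
  [NormedAddCommGroup E'] [NormedSpace ℂ E'] [FiniteDimensional ℂ E']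
variable {X Y : Type u} [TopologicalSpace X] [ChartedSpace E X] [IsManifold 𝓘(ℂ, E) ω X]
  [TopologicalSpace Y] [ChartedSpace E' Y] [IsManifold 𝓘(ℂ, E') ω Y]

omit [TopologicalSpace X] in
/-- two continuous lifts differ by a constant. -/
theorem lift_diff {p : ℂ → X} {t : ℂ} (ht : 0 < t.im)
    (hlat : ∀ w w', p w = p w' → ∃ m n : ℤ, w' = w + m + n * t) {g g' : ℂ → ℂ} {v : ℂ}
    (hg : ContinuousAt g v) (hg' : ContinuousAt g' v) (he : ∀ᶠ z in 𝓝 v, p (g z) = p (g' z)) :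
    ∀ᶠ z in 𝓝 v, g' z = g z + (g' v - g v) := by
  have h1 : ContinuousAt (fun z => g' z - g z - (g' v - g v)) v :=
    (hg'.sub hg).sub continuousAt_const
  have h2 : ∀ᶠ z in 𝓝 v, ‖g' z - g z - (g' v - g v)‖ < min 1 t.im := by
    refine h1.norm.eventually_lt_const ?_
    simp [ht]
  obtain ⟨m₀, n₀, h3⟩ := hlat _ _ he.self_of_nhds
  filter_upwards [he, h2] with z hz hz2
  obtain ⟨m, n, h4⟩ := hlat _ _ hz
  have h5 : g' z - g z - (g' v - g v) = ((m - m₀ : ℤ) : ℂ) + ((n - n₀ : ℤ) : ℂ) * t := by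
    rw [h3, h4]; push_cast; ring
  rw [h5] at hz2
  have h6 := lattice_disc ht (hz2.trans_le (min_le_left _ _)) (hz2.trans_le (min_le_right _ _))
  rw [h6] at h5
  linear_combination h5

omit [TopologicalSpace X] in
theorem lift_deriv {p : ℂ → X} {t : ℂ} (ht : 0 < t.im)
    (hlat : ∀ w w', p w = p w' → ∃ m n : ℤ, w' = w + m + n * t) {g g' : ℂ → ℂ} {v : ℂ}
    (hg : ContinuousAt g v) (hg' : ContinuousAt g' v) (he : ∀ᶠ z in 𝓝 v, p (g z) = p (g' z)) :
    deriv g' v = deriv g v := by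
  have h1 : g' =ᶠ[𝓝 v] fun z => g z + (g' v - g v) := lift_diff ht hlat hg hg' he
  rw [h1.deriv_eq, deriv_add_const]

theorem slice_comp {Q : ℂ → X} {v : ℂ} (hQ : ContMDiffAt 𝓘(ℂ, ℂ) 𝓘(ℂ, E) ω Q v) {ζ : X → ℂ}
    (hζ : HolV E ζ (Q v)) : ContDiffAt ℂ ω (fun z => ζ (Q z)) v ∧
      deriv (fun z => ζ (Q z)) v =
        dif E ζ (Q v) ((mfderiv 𝓘(ℂ, ℂ) 𝓘(ℂ, E) Q v : ℂ →L[ℂ] E) (1 : ℂ)) := by
  have h1 : ContMDiffAt 𝓘(ℂ, ℂ) 𝓘(ℂ, ℂ) ω (ζ ∘ Q) v := ContMDiffAt.comp v hζ hQ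
  have h2 : ContDiffAt ℂ ω (ζ ∘ Q) v := contMDiffAt_iff_contDiffAt.1 h1
  refine ⟨h2, ?_⟩
  have h3 := mfderiv_comp v (hζ.mdiff) (hQ.mdifferentiableAt (by simp))
  have h4 : deriv (ζ ∘ Q) v = (mfderiv 𝓘(ℂ, ℂ) 𝓘(ℂ, ℂ) (ζ ∘ Q) v : ℂ →L[ℂ] ℂ) (1 : ℂ) := by
    rw [mfderiv_eq_fderiv]
    rfl
  show deriv (ζ ∘ Q) v = _
  rw [h4, h3]
  rfl

/-- Lifting of the slices of the fibres. -/
theorem slice_lift {f : X → Y} {S : Set Y} {ι : Type u} {U : ι → Set Y} {τ : ι → Y → ℂ}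
    {π : ι → Y → ℂ → X} (h : J.IsEllipticFamily E E' f S U τ π) {a : ι} {y : Y} (hy : y ∈ U a)
    {v₀ : ℂ} {r : ℝ} (hr : 0 < r) {Q : ℂ → X}
    (hQ : ∀ v ∈ ball v₀ r, ContMDiffAt 𝓘(ℂ, ℂ) 𝓘(ℂ, E) ω Q v)
    (hfQ : ∀ v ∈ ball v₀ r, f (Q v) = y) :
    ∃ H : ℂ → ℂ, DifferentiableOn ℂ H (ball v₀ r) ∧ (∀ v ∈ ball v₀ r, π a y (H v) = Q v) ∧
      ∀ v ∈ ball v₀ r, ∀ ζ : X → ℂ, HolV E ζ (Q v) → (∀ᶠ z in 𝓝 (Q v), π a (f z) (ζ z) = z) →
        deriv H v = dif E ζ (Q v) ((mfderiv 𝓘(ℂ, ℂ) 𝓘(ℂ, E) Q v : ℂ →L[ℂ] E) (1 : ℂ)) := by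
  obtain ⟨-, hU2, -⟩ := h
  obtain ⟨-, hU, hζ⟩ := hU2 a
  obtain ⟨-, him, hπ⟩ := hU y hy
  have hlat : ∀ w w', π a y w = π a y w' → ∃ m n : ℤ, w' = w + m + n * τ a y :=
    fun w w' hw => (hπ w w').2.1 hw
  have hbranch : ∀ v ∈ ball v₀ r, ∀ ζ : X → ℂ, (∀ᶠ z in 𝓝 (Q v), π a (f z) (ζ z) = z) →
      ∀ᶠ z in 𝓝 v, π a y (ζ (Q z)) = Q z := by
    intro v hv ζ hζπ
    filter_upwards [(hQ v hv).continuousAt.eventually hζπ, isOpen_ball.mem_nhds hv] with z hz hzb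
    rwa [hfQ z hzb] at hz
  have hloc : ∀ v ∈ ball v₀ r, ∃ g : ℂ → ℂ, ContDiffAt ℂ ω g v ∧
      ∀ᶠ z in 𝓝 v, π a y (g z) = Q z := by
    intro v hv
    obtain ⟨ζ, hζh, hζπ, -⟩ := hζ (Q v) (by rw [hfQ v hv]; exact hy)
    exact ⟨fun z => ζ (Q z), (slice_comp (hQ v hv) hζh).1, hbranch v hv ζ hζπ⟩
  choose! g hgc hgπ using hloc
  -- the derivative of the lift
  set hd : ℂ → ℂ := fun v => deriv (g v) v with hhd
  have hdev : ∀ v ∈ ball v₀ r, ∀ᶠ z in 𝓝 v, hd z = deriv (g v) z ∧ DifferentiableAt ℂ (g v) z ∧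
      z ∈ ball v₀ r ∧ π a y (g v z) = Q z := by
    intro v hv
    filter_upwards [isOpen_ball.mem_nhds hv, (hgc v hv).eventually (by simp),
      eventually_eventually_nhds.2 (hgπ v hv)] with z hz hgz hgp
    refine ⟨?_, hgz.differentiableAt (by simp), hz, hgp.self_of_nhds⟩
    refine lift_deriv him hlat hgz.continuousAt (hgc z hz).continuousAt ?_
    filter_upwards [hgp, hgπ z hz] with x hx1 hx2
    rw [hx1, hx2]
  have hdd : DifferentiableOn ℂ hd (ball v₀ r) := by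
    intro v hv
    have h1 : DifferentiableAt ℂ (deriv (g v)) v := (hgc v hv).analyticAt.deriv.differentiableAt
    have h2 : hd =ᶠ[𝓝 v] deriv (g v) := (hdev v hv).mono fun z hz => hz.1
    exact (h1.congr_of_eventuallyEq h2).differentiableWithinAt
  obtain ⟨H, hH0, hH⟩ := hdd.isExactOn_ball.with_val_at v₀ (g v₀ v₀)
  have hHd : ∀ v ∈ ball v₀ r, HasDerivAt H (hd v) v := fun v hv => hH v hv
  have hHc : ∀ v ∈ ball v₀ r, ContinuousAt H v := fun v hv => (hHd v hv).continuousAt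
  -- near every point, `H - g v` is constant
  have hconst : ∀ v ∈ ball v₀ r, ∀ᶠ z in 𝓝 v, H z = g v z + (H v - g v v) := by
    intro v hv
    obtain ⟨ε, hε, hball⟩ := Metric.eventually_nhds_iff_ball.1 (hdev v hv)
    have h1 : EqOn H (fun z => g v z + (H v - g v v)) (ball v ε) := by
      refine isOpen_ball.eqOn_of_deriv_eq (convex_ball v ε).isPreconnected ?_ ?_ ?_
        (mem_ball_self hε) ?_
      · intro z hz
        exact (hHd z (hball z hz).2.2.1).differentiableAt.differentiableWithinAt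
      · intro z hz
        exact ((hball z hz).2.1.add_const _).differentiableWithinAt
      · intro z hz
        show deriv H z = deriv (fun z => g v z + (H v - g v v)) z
        rw [(hHd z (hball z hz).2.2.1).deriv, (hball z hz).1, deriv_add_const]
      · ring
    filter_upwards [ball_mem_nhds v hε] with z hz using h1 hz
  have hlift : ball v₀ r ⊆ {v | ∀ᶠ z in 𝓝 v, π a y (H z) = Q z} := by
    refine IsPreconnected.subset_left_of_subset_union
      (v := {v | ∀ᶠ z in 𝓝 v, ¬ π a y (H z) = Q z})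
      (isOpen_iff_mem_nhds.2 fun v hv => eventually_eventually_nhds.2 hv)
      (isOpen_iff_mem_nhds.2 fun v hv => eventually_eventually_nhds.2 hv) ?_ ?_ ?_
      (convex_ball v₀ r).isPreconnected
    · rw [Set.disjoint_left]
      intro v h1 h2
      exact h2.self_of_nhds h1.self_of_nhds
    · intro v hv
      by_cases hc : ∃ m n : ℤ, H v - g v v = m + n * τ a y
      · left
        obtain ⟨m, n, hmn⟩ := hc
        filter_upwards [hconst v hv, hgπ v hv] with z hz1 hz2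
        rw [← hz2, hz1, hmn]
        refine ((hπ (g v z) _).2.2 ⟨m, n, ?_⟩).symm
        ring
      · right
        filter_upwards [hconst v hv, hgπ v hv] with z hz1 hz2 hz3
        apply hc
        rw [← hz2] at hz3
        obtain ⟨m, n, hmn⟩ := hlat _ _ hz3.symm
        refine ⟨m, n, ?_⟩
        rw [hz1] at hmn
        linear_combination hmn
    · refine ⟨v₀, mem_ball_self hr, ?_⟩
      filter_upwards [hconst v₀ (mem_ball_self hr), hgπ v₀ (mem_ball_self hr)] with z hz1 hz2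
      rw [hz1, hH0, sub_self, add_zero, hz2]
  refine ⟨H, fun v hv => (hHd v hv).differentiableAt.differentiableWithinAt,
    fun v hv => (hlift hv).self_of_nhds, ?_⟩
  intro v hv ζ hζh hζπ
  obtain ⟨h1, h2⟩ := slice_comp (hQ v hv) hζh
  rw [← h2]
  refine lift_deriv him hlat h1.continuousAt (hHc v hv) ?_
  filter_upwards [hbranch v hv ζ hζπ, hlift hv] with z hz1 hz2
  rw [hz1, hz2]

end Slice

end Vale.Agent.P281.ELL
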