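import Mathlib.NumberTheory.ModularForms.Discriminant
import Mathlib.NumberTheory.ModularForms.Bounds
import Mathlib.Analysis.Complex.CauchyIntegral

/-!
# P281, elliptic fibrations: the modular discriminant
-/

open scoped ContDiff MatrixGroups ModularForm Topology

namespace Vale.Agent.P281.ELL

open Classical in
/-- the modular discriminant, extended by `0`. -/
noncomputable def D (z : ℂ) : ℂ := if h : 0 < z.im then ModularForm.discriminant ⟨z, h⟩ else 0

theorem D_eq {z : ℂ} (h : 0 < z.im) : D z = ModularForm.discriminant ⟨z, h⟩ := dif_pos h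

theorem D_eta {z : ℂ} (h : 0 < z.im) : D z = ModularForm.eta z ^ 24 := D_eq h

theorem D_ne {z : ℂ} (h : 0 < z.im) : D z ≠ 0 := by
  rw [D_eq h]
  exact ModularForm.discriminant_ne_zero _

theorem D_hol {z : ℂ} (h : 0 < z.im) : ContDiffAt ℂ ω D z := by
  have ho : IsOpen {w : ℂ | 0 < w.im} := isOpen_lt continuous_const Complex.continuous_im
  have h1 : DifferentiableOn ℂ D {w : ℂ | 0 < w.im} := by
    have h2 : DifferentiableOn ℂ (fun w => ModularForm.eta w ^ 24) {w : ℂ | 0 < w.im} :=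
      fun w hw => ((ModularForm.differentiableAt_eta_of_mem_upperHalfPlaneSet hw).pow
        24).differentiableWithinAt
    exact h2.congr fun w hw => D_eta hw
  exact (h1.analyticAt (ho.mem_nhds h)).contDiffAt

theorem D_bound : ∃ C : ℝ, ∀ z : ℂ, 0 < z.im → ‖D z‖ * z.im ^ 6 ≤ C := by
  obtain ⟨C, hC⟩ := CuspFormClass.exists_bound (k := 12) CuspForm.discriminant
  refine ⟨C, fun z hz => ?_⟩
  have h1 := hC ⟨z, hz⟩
  have h2 : ((12 : ℤ) / 2 : ℝ) = ((6 : ℕ) : ℝ) := by norm_num
  rw [h2, Real.rpow_natCast] at h1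
  have h3 : (0 : ℝ) < z.im ^ 6 := pow_pos hz 6
  have h4 : ‖D z‖ ≤ C / z.im ^ 6 := by
    rw [D_eq hz]
    exact h1
  exact (le_div_iff₀ h3).1 h4

theorem D_smul {a b c d : ℤ} (hdet : a * d - b * c = 1) {t t' : ℂ} (ht : 0 < t.im)
    (ht' : 0 < t'.im) (h : t * (c * t' + d) = a * t' + b) :
    D t' * (c * t' + d) ^ 12 = D t := by
  let γ : SL(2, ℤ) := ⟨!![a, b; c, d], by rw [Matrix.det_fin_two_of]; exact hdet⟩
  have e00 : (γ 0 0 : ℤ) = a := rfl
  have e01 : (γ 0 1 : ℤ) = b := rfl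
  have e10 : (γ 1 0 : ℤ) = c := rfl
  have e11 : (γ 1 1 : ℤ) = d := rfl
  have hne : (c * t' + d : ℂ) ≠ 0 := by
    intro h0
    have him : (c : ℝ) * t'.im = 0 := by
      have := congrArg Complex.im h0
      simpa using this
    have hc : (c : ℝ) = 0 := by
      rcases mul_eq_zero.1 him with h1 | h1
      · exact h1
      · exact absurd h1 ht'.ne'
    have hc' : c = 0 := by exact_mod_cast hc
    rw [hc'] at h0
    have hd : (d : ℂ) = 0 := by simpa using h0
    have hd' : d = 0 := by exact_mod_cast hd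
    rw [hc', hd'] at hdet
    omega
  have hsm : γ • (⟨t', ht'⟩ : UpperHalfPlane) = ⟨t, ht⟩ := by
    apply UpperHalfPlane.ext
    rw [UpperHalfPlane.coe_specialLinearGroup_apply]
    show ((algebraMap ℤ ℝ (γ 0 0) : ℂ) * t' + (algebraMap ℤ ℝ (γ 0 1) : ℂ)) /
      ((algebraMap ℤ ℝ (γ 1 0) : ℂ) * t' + (algebraMap ℤ ℝ (γ 1 1) : ℂ)) = t
    rw [e00, e01, e10, e11]
    have h1 : ((algebraMap ℤ ℝ c : ℂ) * t' + (algebraMap ℤ ℝ d : ℂ)) = c * t' + d := by simp
    have h2 : ((algebraMap ℤ ℝ a : ℂ) * t' + (algebraMap ℤ ℝ b : ℂ)) = a * t' + b := by simp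
    rw [h1, h2, div_eq_iff hne, h]
  have hsl := congrFun (SlashInvariantForm.slash_action_generators_SL2Z ModularForm.discriminant_S_invariant
    ModularForm.discriminant_T_invariant γ) (⟨t', ht'⟩ : UpperHalfPlane)
  rw [ModularForm.SL_slash_apply, hsm] at hsl
  have hden : UpperHalfPlane.denom γ (⟨t', ht'⟩ : UpperHalfPlane) = c * t' + d := by
    have h1 := ModularGroup.denom_apply γ (⟨t', ht'⟩ : UpperHalfPlane)
    rw [e10, e11] at h1
    exact h1
  rw [hden] at hsl
  rw [D_eq ht, D_eq ht', ← hsl]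
  have h3 : (c * t' + d : ℂ) ^ (-12 : ℤ) * (c * t' + d : ℂ) ^ 12 = 1 := by
    rw [zpow_neg]
    exact inv_mul_cancel₀ (pow_ne_zero 12 hne)
  rw [mul_assoc, h3, mul_one]

theorem D_lattice {t t' l : ℂ} (ht : 0 < t.im) (ht' : 0 < t'.im)
    (h : ∀ w : ℂ, (∃ m n : ℤ, w = m + n * t) ↔ ∃ m n : ℤ, l * w = m + n * t') :
    D t' * l ^ 12 = D t := by
  -- `l ≠ 0`
  have hl : l ≠ 0 := by
    intro h0
    obtain ⟨m, n, hmn⟩ := (h (1 / 2)).2 ⟨0, 0, by rw [h0]; simp⟩
    have him : (n : ℝ) * t.im = 0 := by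
      have := congrArg Complex.im hmn
      simp at this
      rcases this with h1 | h1
      · rw [h1]; simp
      · exact absurd h1 ht.ne'
    have hn : (n : ℝ) = 0 := by
      rcases mul_eq_zero.1 him with h1 | h1
      · exact h1
      · exact absurd h1 ht.ne'
    have hn' : n = 0 := by exact_mod_cast hn
    rw [hn'] at hmn
    have h1 : (1 : ℂ) = 2 * m := by
      have : (1 / 2 : ℂ) = m := by simpa using hmn
      rw [← this]; norm_num
    have h2 : (1 : ℤ) = 2 * m := by exact_mod_cast h1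
    omega
  have hind : ∀ {s : ℂ}, 0 < s.im → ∀ {x y : ℤ}, (x + y * s : ℂ) = 0 → x = 0 ∧ y = 0 := by
    intro s hs x y hxy
    have him : (y : ℝ) * s.im = 0 := by
      have := congrArg Complex.im hxy
      simpa using this
    have hy : (y : ℝ) = 0 := by
      rcases mul_eq_zero.1 him with h1 | h1
      · exact h1
      · exact absurd h1 hs.ne'
    have hy' : y = 0 := by exact_mod_cast hy
    rw [hy'] at hxy
    have hx : (x : ℂ) = 0 := by simpa using hxy
    exact ⟨by exact_mod_cast hx, hy'⟩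
  obtain ⟨d, c, h1⟩ := (h 1).1 ⟨1, 0, by simp⟩
  obtain ⟨b, a, h2⟩ := (h t).1 ⟨0, 1, by simp⟩
  rw [mul_one] at h1
  obtain ⟨m, n, h3⟩ := (h (1 / l)).2 ⟨1, 0, by rw [mul_one_div_cancel hl]; simp⟩
  obtain ⟨m', n', h4⟩ := (h (t' / l)).2 ⟨0, 1, by rw [mul_div_cancel₀ _ hl]; simp⟩
  -- the inverse matrix
  have e1 : (1 : ℂ) = l * (m + n * t) := by rw [← h3, mul_one_div_cancel hl]
  have e2 : t' = l * (m' + n' * t) := by rw [← h4, mul_div_cancel₀ _ hl]
  have f1 : (((m * d + n * b - 1 : ℤ) : ℂ) + ((m * c + n * a : ℤ) : ℂ) * t') = 0 := by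
    push_cast
    linear_combination -e1 - (m : ℂ) * h1 - (n : ℂ) * h2
  have f2 : (((m' * d + n' * b : ℤ) : ℂ) + ((m' * c + n' * a - 1 : ℤ) : ℂ) * t') = 0 := by
    push_cast
    linear_combination -e2 - (m' : ℂ) * h1 - (n' : ℂ) * h2
  obtain ⟨g1, g2⟩ := hind ht' f1
  obtain ⟨g3, g4⟩ := hind ht' f2
  have hdet : (a * d - b * c) * (n' * m - n * m') = 1 := by
    have i1 : m * d + n * b = 1 := by omega
    have i2 : m' * c + n' * a = 1 := by omega
    linear_combination (m' * c + n' * a) * i1 + i2 - (m * c + n * a) * g3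
  have hkey : t * (c * t' + d) = a * t' + b := by
    linear_combination (-t) * h1 + h2
  -- the sign
  have hpos : 0 < (a * d - b * c : ℝ) := by
    have k1 : (t * (c * t' + d)) * (starRingEnd ℂ) (c * t' + d) =
        (a * t' + b) * (starRingEnd ℂ) (c * t' + d) := by rw [hkey]
    have k2 := congrArg Complex.im k1
    rw [mul_assoc, Complex.mul_conj] at k2
    have k3 : (t * ((Complex.normSq (c * t' + d) : ℝ) : ℂ)).im =
        t.im * Complex.normSq (c * t' + d) := by
      rw [Complex.mul_im]; simp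
    have k4 : ((a * t' + b) * (starRingEnd ℂ) (c * t' + d)).im =
        ((a : ℝ) * d - b * c) * t'.im := by
      simp [Complex.mul_im, Complex.mul_re]
      ring
    rw [k3, k4] at k2
    have hne : (c * t' + d : ℂ) ≠ 0 := by
      intro h0
      apply hl
      rw [h1, add_comm, h0]
    have k5 : 0 < t.im * Complex.normSq (c * t' + d) := mul_pos ht (Complex.normSq_pos.2 hne)
    rw [k2] at k5
    exact pos_of_mul_pos_left k5 ht'.le
  have hpos' : 0 < a * d - b * c := by exact_mod_cast hpos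
  have hdet1 : a * d - b * c = 1 := by
    rcases Int.isUnit_iff.1 (IsUnit.of_mul_eq_one _ hdet) with h5 | h5
    · exact h5
    · omega
  have h6 := D_smul hdet1 ht ht' hkey
  have h7 : l = c * t' + d := by rw [h1, add_comm]
  rw [h7]
  exact h6

end Vale.Agent.P281.ELL
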