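import Vale.Agent.P281.ELL.Defs
import Vale.Agent.P281.ELL.Disc
import Vale.Agent.P281.ISO.RelBound

/-!
# P281: the relative form of a smooth family of elliptic curves
-/

open scoped Manifold ContDiff Topology
open Set Filter Metric

namespace Vale.Agent.P281.ELL

open Vale.Agent.P281 Vale.Agent.P281.MF Vale.Agent.P281.ISO

set_option linter.unusedSectionVars false

universe u

section Theta

variable {E E' : Type} [NormedAddCommGroup E] [NormedSpace ℂ E] [FiniteDimensional ℂ E]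
  [NormedAddCommGroup E'] [NormedSpace ℂ E'] [FiniteDimensional ℂ E']

/-- `det (A, Q) = l det (A, P)` when `Q = l P` on the kernel of `A`. -/
theorem JP_scale (e : E ≃L[ℂ] (E' × ℂ)) {A : E →L[ℂ] E'} {P Q : E →L[ℂ] ℂ} {ξ : E} (h1 : A ξ = 0)
    (h2 : P ξ = 1) {l : ℂ} (hl : l ≠ 0) (h3 : Q ξ = l) : JP e A Q = l * JP e A P := by
  have h4 := JP_frame e (A := A) (P := P) (P' := Q)
    (t := (ContinuousLinearMap.id ℂ ℂ).smulRight ξ)
    (t' := (ContinuousLinearMap.id ℂ ℂ).smulRight (l⁻¹ • ξ)) (fun v => by simp [h1])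
    (fun v => by simp [h2]) (fun v => by simp [h3, hl]) (B := l⁻¹ • LinearMap.id)
    (fun v => by simp [smul_smul, mul_comm])
  rw [h4, LinearMap.det_smul, LinearMap.det_id, Module.finrank_self, pow_one, mul_one,
    ← mul_assoc, mul_inv_cancel₀ hl, one_mul]

theorem JP_ne_of_inj (e₀ : E ≃L[ℂ] (E' × ℂ)) {A : E →L[ℂ] E'} {P : E →L[ℂ] ℂ}
    (h : ∀ ξ, A ξ = 0 → P ξ = 0 → ξ = 0) : JP e₀ A P ≠ 0 := by
  intro h0
  unfold JP at h0
  have h1 : Function.Injective ((A.prod P).comp (e₀.symm : (E' × ℂ) →L[ℂ] E)) := by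
    rw [injective_iff_map_eq_zero]
    intro v hv
    have h2 := h (e₀.symm v) (Prod.mk.inj hv).1 (Prod.mk.inj hv).2
    exact (map_eq_zero_iff e₀.symm e₀.symm.injective).1 h2
  have h2 : LinearMap.ker ((A.prod P).comp
      (e₀.symm : (E' × ℂ) →L[ℂ] E) : (E' × ℂ) →ₗ[ℂ] (E' × ℂ)) = ⊥ :=
    LinearMap.ker_eq_bot.2 h1
  have h3 := (LinearMap.isUnit_iff_ker_eq_bot _).2 h2
  exact (LinearMap.isUnit_det _ h3).ne_zero h0

/-- the lattice `ℤ + ℤ t` is discrete. -/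
theorem lattice_disc {t : ℂ} (ht : 0 < t.im) {m n : ℤ} (h1 : ‖(m : ℂ) + n * t‖ < 1)
    (h2 : ‖(m : ℂ) + n * t‖ < t.im) : (m : ℂ) + n * t = 0 := by
  have h3 := Complex.abs_im_le_norm ((m : ℂ) + n * t)
  have h4 : ((m : ℂ) + n * t).im = n * t.im := by simp
  rw [h4, abs_mul, abs_of_pos ht] at h3
  have h5 : |(n : ℝ)| < 1 := by
    by_contra hcon
    rw [not_lt] at hcon
    nlinarith
  have h6 : n = 0 := by
    have : |n| < 1 := by exact_mod_cast h5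
    exact Int.abs_lt_one_iff.1 this
  subst h6
  have h7 : ‖(m : ℂ)‖ < 1 := by simpa using h1
  rw [Complex.norm_intCast] at h7
  have h8 : m = 0 := by
    have : |m| < 1 := by exact_mod_cast h7
    exact Int.abs_lt_one_iff.1 this
  simp [h8]

variable {X Y : Type u} [TopologicalSpace X] [ChartedSpace E X] [IsManifold 𝓘(ℂ, E) ω X]
  [TopologicalSpace Y] [ChartedSpace E' Y] [IsManifold 𝓘(ℂ, E') ω Y]

/-- two fibre coordinates differ by the factor `l` along the fibre. -/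
theorem branch_scale {f : X → Y} (hf : ∀ x, HolM E E' f x) (e₀ : E ≃L[ℂ] (E' × ℂ)) {x₀ : X}
    {πa πb : Y → ℂ → X} {ζ ζ' : X → ℂ} (hζ : HolV E ζ x₀) (hζ' : HolV E ζ' x₀)
    (hinj : ∀ ξ, dM E E' f x₀ ξ = 0 → dif E ζ x₀ ξ = 0 → ξ = 0)
    (hζπ : ∀ᶠ z in 𝓝 x₀, πa (f z) (ζ z) = z) (hζ'π : ∀ᶠ z in 𝓝 x₀, πb (f z) (ζ' z) = z)
    {l c t : ℂ} (ht : 0 < t.im) (hlc : ∀ w, πb (f x₀) (l * w + c) = πa (f x₀) w)
    (hlat : ∀ w w', πb (f x₀) w = πb (f x₀) w' → ∃ m n : ℤ, w' = w + m + n * t) :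
    ∃ ξ : E, dM E E' f x₀ ξ = 0 ∧ dif E ζ x₀ ξ = 1 ∧ dif E ζ' x₀ ξ = l := by
  have : CompleteSpace E := FiniteDimensional.complete ℂ E
  set φ := chartAt E x₀ with hφ
  set ψY := chartAt E' (f x₀) with hψY
  have hxs : x₀ ∈ φ.source := mem_chart_source E x₀
  have hys : f x₀ ∈ ψY.source := mem_chart_source E' (f x₀)
  have h1 : HolV E (fun z => ψY (f z)) x₀ :=
    HolV.comp (h := (ψY : Y → E')) (HolV.chart hys) (hf x₀)
  have hG1 : ContDiffAt ℂ ω ((fun z => ψY (f z)) ∘ φ.symm) (φ x₀) := h1.rep hxs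
  have hG2 : ContDiffAt ℂ ω (ζ ∘ φ.symm) (φ x₀) := hζ.rep hxs
  set G : E → E' × ℂ := fun v => (ψY (f (φ.symm v)), ζ (φ.symm v)) with hG
  have hGc : ContDiffAt ℂ ω G (φ x₀) := hG1.prodMk hG2
  set L₁ := fderiv ℂ ((fun z => ψY (f z)) ∘ φ.symm) (φ x₀) with hL₁
  set L₂ := fderiv ℂ (ζ ∘ φ.symm) (φ x₀) with hL₂
  have hGd : HasFDerivAt G (L₁.prod L₂) (φ x₀) :=
    (hG1.differentiableAt (by simp)).hasFDerivAt.prodMk
      (hG2.differentiableAt (by simp)).hasFDerivAt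
  have d1 : (dV E' (ψY : Y → E') (f x₀)).comp (dM E E' f x₀) =
      L₁.comp (dV E (φ : X → E) x₀) := by
    have h9 := dV_comp (h := (ψY : Y → E')) (HolV.chart hys) (hf x₀)
    rw [← h9]
    exact dV_eq_chart hxs h1
  have d2 : dif E ζ x₀ = L₂.comp (dV E (φ : X → E) x₀) := dV_eq_chart hxs hζ
  have hker : ∀ ξ, L₁ (dV E (φ : X → E) x₀ ξ) = 0 → dM E E' f x₀ ξ = 0 := by
    intro ξ hv1
    have e1 := congrArg (fun T : E →L[ℂ] E' => T ξ) d1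
    simp only [ContinuousLinearMap.comp_apply] at e1
    rw [hv1] at e1
    obtain ⟨A₁, hA₁⟩ := dV_chart_leftInv (E := E') hys
    have := congrArg (fun T : E' →L[ℂ] E' => T (dM E E' f x₀ ξ)) hA₁
    simp only [ContinuousLinearMap.comp_apply, ContinuousLinearMap.id_apply] at this
    rw [← this, e1, map_zero]
  have hinj' : Function.Injective (L₁.prod L₂) := by
    rw [injective_iff_map_eq_zero]
    intro v hv
    obtain ⟨ξ, rfl⟩ := dV_chart_surj (E := E) hxs v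
    have hv1 : L₁ (dV E (φ : X → E) x₀ ξ) = 0 := (Prod.mk.inj hv).1
    have hv2 : L₂ (dV E (φ : X → E) x₀ ξ) = 0 := (Prod.mk.inj hv).2
    have e4 : dif E ζ x₀ ξ = 0 := by
      rw [d2]
      exact hv2
    rw [hinj ξ (hker ξ hv1) e4, map_zero]
  have hbij : Function.Bijective ((L₁.prod L₂ : E →L[ℂ] (E' × ℂ)) : E →ₗ[ℂ] (E' × ℂ)) := by
    refine ⟨hinj', ?_⟩
    have h3 : Function.Injective (((L₁.prod L₂ : E →L[ℂ] (E' × ℂ)) : E →ₗ[ℂ] (E' × ℂ)) ∘ₗ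
        (e₀.symm.toLinearEquiv : (E' × ℂ) →ₗ[ℂ] E)) := hinj'.comp e₀.symm.injective
    have h4 := LinearMap.surjective_of_injective h3
    intro w
    obtain ⟨v, hv⟩ := h4 w
    exact ⟨e₀.symm v, hv⟩
  let L : E ≃L[ℂ] (E' × ℂ) := (LinearEquiv.ofBijective _ hbij).toContinuousLinearEquiv
  have hL : (L : E →L[ℂ] (E' × ℂ)) = L₁.prod L₂ := by ext v <;> rfl
  have hLa : ∀ v, L v = (L₁ v, L₂ v) := fun v => rfl
  have hGd' : HasFDerivAt G (L : E →L[ℂ] (E' × ℂ)) (φ x₀) := by rw [hL]; exact hGd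
  have hn : (ω : WithTop ℕ∞) ≠ 0 := by simp
  have hstr : HasStrictFDerivAt G (L : E →L[ℂ] (E' × ℂ)) (φ x₀) :=
    hGc.hasStrictFDerivAt' hGd' hn
  set R := hstr.localInverse G L (φ x₀) with hR
  have hRd : HasStrictFDerivAt R (L.symm : (E' × ℂ) →L[ℂ] E) (G (φ x₀)) :=
    hstr.to_localInverse
  have hRr : ∀ᶠ w in 𝓝 (G (φ x₀)), G (R w) = w := hstr.eventually_right_inverse
  have hR0 : R (G (φ x₀)) = φ x₀ := hstr.localInverse_apply_image
  have hG0 : G (φ x₀) = (ψY (f x₀), ζ x₀) := by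
    simp only [hG, φ.left_inv hxs]
  -- the curve
  set γ : ℂ → E := fun p => R (ψY (f x₀), p) with hγ
  have hγ0 : γ (ζ x₀) = φ x₀ := by
    simp only [hγ]
    rw [← hG0, hR0]
  have hpair : HasDerivAt (fun p : ℂ => (ψY (f x₀), p)) ((0 : E'), (1 : ℂ)) (ζ x₀) :=
    (hasDerivAt_const (ζ x₀) (ψY (f x₀))).prodMk (hasDerivAt_id (ζ x₀))
  have hγd : HasDerivAt γ (L.symm (0, 1)) (ζ x₀) := by
    have hRd' : HasFDerivAt R (L.symm : (E' × ℂ) →L[ℂ] E) (ψY (f x₀), ζ x₀) := by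
      rw [← hG0]
      exact hRd.hasFDerivAt
    exact hRd'.comp_hasDerivAt (ζ x₀) hpair
  have hγc : Tendsto γ (𝓝 (ζ x₀)) (𝓝 (φ x₀)) := by
    have := hγd.continuousAt.tendsto
    rwa [hγ0] at this
  have hsymm : Tendsto φ.symm (𝓝 (φ x₀)) (𝓝 x₀) := by
    have := (φ.continuousAt_symm (φ.map_source hxs)).tendsto
    rwa [φ.left_inv hxs] at this
  have hz : Tendsto (fun p => φ.symm (γ p)) (𝓝 (ζ x₀)) (𝓝 x₀) := hsymm.comp hγc
  have hpairc : Tendsto (fun p : ℂ => (ψY (f x₀), p)) (𝓝 (ζ x₀)) (𝓝 (G (φ x₀))) := by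
    have := hpair.continuousAt.tendsto
    rwa [← hG0] at this
  have hcurve : ∀ᶠ p in 𝓝 (ζ x₀), f (φ.symm (γ p)) = f x₀ ∧ ζ (φ.symm (γ p)) = p := by
    filter_upwards [hpairc.eventually hRr,
      hz.eventually ((hf x₀).continuousAt.eventually (ψY.open_source.mem_nhds hys))] with p h3 h4
    have h7 : ψY (f (φ.symm (γ p))) = ψY (f x₀) := (Prod.mk.inj h3).1
    have h8 : ζ (φ.symm (γ p)) = p := (Prod.mk.inj h3).2
    exact ⟨ψY.injOn h4 hys h7, h8⟩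
  have hval : ∀ᶠ p in 𝓝 (ζ x₀), ∃ m n : ℤ,
      (ζ' ∘ φ.symm) (γ p) = (l * p + c) + m + n * t := by
    filter_upwards [hcurve, hz.eventually hζπ, hz.eventually hζ'π] with p h3 h4 h5
    rw [h3.1, h3.2] at h4
    rw [h3.1] at h5
    exact hlat _ _ (by rw [hlc, h4]; exact h5.symm)
  obtain ⟨m₀, n₀, hm₀⟩ := hval.self_of_nhds
  have hgd : HasDerivAt (fun p => (ζ' ∘ φ.symm) (γ p))
      (fderiv ℂ (ζ' ∘ φ.symm) (φ x₀) (L.symm (0, 1))) (ζ x₀) := by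
    have h3 : HasFDerivAt (ζ' ∘ φ.symm) (fderiv ℂ (ζ' ∘ φ.symm) (φ x₀)) (γ (ζ x₀)) := by
      rw [hγ0]
      exact ((hζ'.rep hxs).differentiableAt (by simp)).hasFDerivAt
    exact h3.comp_hasDerivAt (ζ x₀) hγd
  have hconst : ∀ᶠ p in 𝓝 (ζ x₀),
      (ζ' ∘ φ.symm) (γ p) = l * p + (c + m₀ + n₀ * t) := by
    have hcont : ContinuousAt (fun p => (ζ' ∘ φ.symm) (γ p) - (l * p + (c + m₀ + n₀ * t)))
        (ζ x₀) := hgd.continuousAt.sub (by fun_prop)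
    have h0 : (ζ' ∘ φ.symm) (γ (ζ x₀)) - (l * (ζ x₀) + (c + m₀ + n₀ * t)) = 0 := by
      rw [hm₀]
      ring
    have h3 : ∀ᶠ p in 𝓝 (ζ x₀),
        ‖(ζ' ∘ φ.symm) (γ p) - (l * p + (c + m₀ + n₀ * t))‖ < min 1 t.im := by
      have h4 := hcont.norm.eventually_lt_const (u := min 1 t.im) (by
        show ‖(ζ' ∘ φ.symm) (γ (ζ x₀)) - (l * (ζ x₀) + (c + m₀ + n₀ * t))‖ < min 1 t.im
        rw [h0, norm_zero]
        exact lt_min one_pos ht)
      exact h4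
    filter_upwards [hval, h3] with p hp1 hp2
    obtain ⟨m, n, hmn⟩ := hp1
    have h5 : (ζ' ∘ φ.symm) (γ p) - (l * p + (c + m₀ + n₀ * t)) =
        ((m - m₀ : ℤ) : ℂ) + ((n - n₀ : ℤ) : ℂ) * t := by
      rw [hmn]
      push_cast
      ring
    rw [h5] at hp2
    have h6 := lattice_disc ht (hp2.trans_le (min_le_left _ _)) (hp2.trans_le (min_le_right _ _))
    rw [h6] at h5
    exact sub_eq_zero.1 h5
  have hlin : HasDerivAt (fun p : ℂ => l * p + (c + m₀ + n₀ * t)) l (ζ x₀) := by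
    have h3 : HasDerivAt (fun p : ℂ => l * p) (l * 1) (ζ x₀) :=
      (hasDerivAt_id (ζ x₀)).const_mul l
    rw [mul_one] at h3
    exact h3.add_const _
  have hl' : fderiv ℂ (ζ' ∘ φ.symm) (φ x₀) (L.symm (0, 1)) = l :=
    hgd.unique (hlin.congr_of_eventuallyEq hconst)
  obtain ⟨ξ, hξ⟩ := dV_chart_surj (E := E) hxs (L.symm (0, 1))
  have h3 := hLa (L.symm (0, 1))
  rw [L.apply_symm_apply] at h3
  have h4 : L₁ (L.symm (0, 1)) = 0 := (Prod.mk.inj h3).1.symm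
  have h5 : L₂ (L.symm (0, 1)) = 1 := (Prod.mk.inj h3).2.symm
  refine ⟨ξ, hker ξ (by rw [hξ]; exact h4), ?_, ?_⟩
  · rw [d2]
    show L₂ (dV E (φ : X → E) x₀ ξ) = 1
    rw [hξ, h5]
  · have d3 : dif E ζ' x₀ = (fderiv ℂ (ζ' ∘ φ.symm) (φ x₀)).comp (dV E (φ : X → E) x₀) :=
      dV_eq_chart hxs hζ'
    rw [d3]
    show fderiv ℂ (ζ' ∘ φ.symm) (φ x₀) (dV E (φ : X → E) x₀ ξ) = l
    rw [hξ, hl']

theorem exists_theta_of {D : ℂ → ℂ} (hD0 : ∀ z : ℂ, 0 < z.im → D z ≠ 0)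
    (hDh : ∀ z : ℂ, 0 < z.im → ContDiffAt ℂ ω D z)
    (hDl : ∀ t t' l : ℂ, 0 < t.im → 0 < t'.im →
      (∀ w : ℂ, (∃ m n : ℤ, w = m + n * t) ↔ ∃ m n : ℤ, l * w = m + n * t') →
      D t' * l ^ 12 = D t)
    {f : X → Y} (hf : ∀ x, HolM E E' f x) {S : Set Y} {ι : Type u} {U : ι → Set Y}
    {τ : ι → Y → ℂ} {π : ι → Y → ℂ → X} (h : J.IsEllipticFamily E E' f S U τ π)
    (e₀ : E ≃L[ℂ] (E' × ℂ)) :
    ∃ Θ : X → ℂ, (∀ a x, f x ∈ U a → ∀ ζ : X → ℂ, HolV E ζ x →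
        (∀ᶠ z in 𝓝 x, π a (f z) (ζ z) = z) →
        Θ x = D (τ a (f x)) * JP e₀ (dM E E' f x) (dif E ζ x) ^ 12) ∧
      (∀ x, f x ∉ S → Θ x ≠ 0) ∧
      (∀ (x₀ x : X) (y₀ : Y), f x ∉ S → x ∈ (chartAt E x₀).source →
        f x ∈ (chartAt E' y₀).source → ∃ H : X → ℂ, HolV E H x ∧
        ∀ᶠ z in 𝓝 x, jac E' (chartAt E' y₀) (f z) ^ 12 * Θ z =
          H z * jac E (chartAt E x₀) z ^ 12) := by
  classical
  obtain ⟨hcov, hloc, htr⟩ := h
  have hfc : ∀ x, ContinuousAt f x := fun x => (hf x).continuousAt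
  -- the value does not depend on the choices
  have key : ∀ a b x, f x ∈ U a → f x ∈ U b → ∀ ζ ζ' : X → ℂ, HolV E ζ x → HolV E ζ' x →
      (∀ᶠ z in 𝓝 x, π a (f z) (ζ z) = z) → (∀ᶠ z in 𝓝 x, π b (f z) (ζ' z) = z) →
      (∀ ξ, dM E E' f x ξ = 0 → dif E ζ x ξ = 0 → ξ = 0) →
      D (τ b (f x)) * JP e₀ (dM E E' f x) (dif E ζ' x) ^ 12 =
        D (τ a (f x)) * JP e₀ (dM E E' f x) (dif E ζ x) ^ 12 := by
    intro a b x ha hb ζ ζ' hζ hζ' hζπ hζ'π hinj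
    obtain ⟨l, c, hlc⟩ := htr a b (f x) ⟨ha, hb⟩
    have hya := (hloc a).2.1 (f x) ha
    have hyb := (hloc b).2.1 (f x) hb
    have hlatt : ∀ w : ℂ, (∃ m n : ℤ, w = m + n * τ a (f x)) ↔
        ∃ m n : ℤ, l * w = m + n * τ b (f x) := by
      intro w
      have h1 := (hya.2.2 0 w).2
      have h2 := (hyb.2.2 c (l * w + c)).2
      have h3 : π b (f x) c = π a (f x) 0 := by
        have := hlc 0
        rwa [mul_zero, zero_add] at this
      constructor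
      · rintro ⟨m, n, hmn⟩
        have h4 : π a (f x) 0 = π a (f x) w := h1.2 ⟨m, n, by rw [hmn]; ring⟩
        obtain ⟨m', n', h5⟩ := h2.1 (by rw [h3, hlc, h4])
        exact ⟨m', n', by linear_combination h5⟩
      · rintro ⟨m, n, hmn⟩
        have h4 : π b (f x) c = π b (f x) (l * w + c) := h2.2 ⟨m, n, by rw [hmn]; ring⟩
        rw [h3, hlc] at h4
        obtain ⟨m', n', h5⟩ := h1.1 h4
        exact ⟨m', n', by linear_combination h5⟩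
    have hl : l ≠ 0 := by
      intro h0
      obtain ⟨m, n, h1⟩ := (hlatt (1 / 2)).2 ⟨0, 0, by rw [h0]; simp⟩
      have h2 := congrArg Complex.im h1
      have h3 : (0 : ℝ) = n * (τ a (f x)).im := by simpa using h2
      have h4 : (n : ℝ) = 0 := by
        rcases mul_eq_zero.1 h3.symm with h5 | h5
        · exact h5
        · exact absurd h5 hya.2.1.ne'
      have h5 : n = 0 := by exact_mod_cast h4
      rw [h5] at h1
      have h6 := congrArg Complex.re h1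
      have h7 : (1 / 2 : ℝ) = m := by simpa using h6
      have h8 : ((1 : ℤ) : ℝ) = ((2 * m : ℤ) : ℝ) := by
        push_cast
        linarith
      have h9 : (1 : ℤ) = 2 * m := by exact_mod_cast h8
      omega
    obtain ⟨ξ, hξ1, hξ2, hξ3⟩ := branch_scale hf e₀ (πa := π a) (πb := π b) hζ hζ' hinj hζπ hζ'π
      hyb.2.1 hlc (fun w w' hw => ((hyb.2.2 w w').2).1 hw)
    rw [JP_scale e₀ hξ1 hξ2 hl hξ3, mul_pow, ← mul_assoc,
      hDl _ _ _ hya.2.1 hyb.2.1 hlatt]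
  -- the definition
  have hex : ∀ x, ∃ v : ℂ, ∀ a, f x ∈ U a → ∀ ζ : X → ℂ, HolV E ζ x →
      (∀ᶠ z in 𝓝 x, π a (f z) (ζ z) = z) →
      v = D (τ a (f x)) * JP e₀ (dM E E' f x) (dif E ζ x) ^ 12 := by
    intro x
    by_cases hx : ∃ a, f x ∈ U a
    · obtain ⟨a, ha⟩ := hx
      obtain ⟨ζ, hζ, hζπ, hinj⟩ := (hloc a).2.2 x ha
      refine ⟨D (τ a (f x)) * JP e₀ (dM E E' f x) (dif E ζ x) ^ 12, fun b hb ζ' hζ' hζ'π => ?_⟩
      exact (key a b x ha hb ζ ζ' hζ hζ' hζπ hζ'π hinj).symm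
    · exact ⟨0, fun a ha => absurd ⟨a, ha⟩ hx⟩
  choose Θ hΘ using hex
  refine ⟨Θ, fun a x ha ζ hζ hζπ => hΘ x a ha ζ hζ hζπ, ?_, ?_⟩
  · intro x hx
    obtain ⟨a, ha⟩ := (hcov (f x)).1 hx
    obtain ⟨ζ, hζ, hζπ, hinj⟩ := (hloc a).2.2 x ha
    rw [hΘ x a ha ζ hζ hζπ]
    exact mul_ne_zero (hD0 _ ((hloc a).2.1 (f x) ha).2.1)
      (pow_ne_zero _ (JP_ne_of_inj e₀ hinj))
  · intro x₀ x y₀ hx hx₀ hy₀
    obtain ⟨a, ha⟩ := (hcov (f x)).1 hx
    obtain ⟨ζ, hζ, hζπ, hinj⟩ := (hloc a).2.2 x ha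
    have hζ : HolV E ζ x := hζ
    set φ := chartAt E x₀ with hφ
    set ψ := chartAt E' y₀ with hψ
    let A₁ : X → E' := fun x => ψ (f x)
    have hA₁ : HolV E A₁ x := HolV.comp (h := (ψ : Y → E')) (HolV.chart hy₀) (hf x)
    let A : X → (E →L[ℂ] E') := fun z => fderiv ℂ (A₁ ∘ φ.symm) (φ z)
    let P : X → (E →L[ℂ] ℂ) := fun z => fderiv ℂ (ζ ∘ φ.symm) (φ z)
    have hA : HolV E A x := by
      refine HolV.comp_contDiff (G := fderiv ℂ (A₁ ∘ φ.symm)) ?_ (HolV.chart hx₀)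
      exact (hA₁.rep hx₀).fderiv_right (by simp)
    have hP : HolV E P x := by
      refine HolV.comp_contDiff (G := fderiv ℂ (ζ ∘ φ.symm)) ?_ (HolV.chart hx₀)
      exact (hζ.rep hx₀).fderiv_right (by simp)
    have hM := holV_JP e₀ hA hP
    have hJ : HolV E (fun z => JP e₀ (A z) (P z)) x :=
      HolV.comp_contDiff contDiff_det.contDiffAt hM
    have hτ : HolV E (fun z => τ a (f z)) x :=
      HolV.comp (E' := E') (h := τ a) ((hloc a).2.1 (f x) ha).1 (hf x)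
    have hDτ : HolV E (fun z => D (τ a (f z))) x :=
      HolV.comp_contDiff (G := D) (hDh _ ((hloc a).2.1 (f x) ha).2.1) hτ
    refine ⟨fun z => D (τ a (f z)) * JP e₀ (A z) (P z) ^ 12, hDτ.mul (hJ.pow 12), ?_⟩
    filter_upwards [hA₁.eventually, hζ.eventually, φ.open_source.mem_nhds hx₀,
      (hfc x).eventually (ψ.open_source.mem_nhds hy₀), eventually_eventually_nhds.2 hζπ,
      (hfc x).eventually ((hloc a).1.mem_nhds ha)] with z h2 h3 h4 h5 h6 h7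
    have h8 : (dV E' (ψ : Y → E') (f z)).comp (dM E E' f z) =
        (A z).comp (dV E (φ : X → E) z) := by
      have h9 := dV_comp (h := (ψ : Y → E')) (HolV.chart h5) (hf z)
      rw [← h9]
      exact dV_eq_chart h4 h2
    have h10 : (ContinuousLinearMap.id ℂ ℂ).comp (dif E ζ z) =
        (P z).comp (dV E (φ : X → E) z) := by
      rw [ContinuousLinearMap.id_comp]
      exact dV_eq_chart h4 h3
    have h11 := JP_left e₀ (dM E E' f z) (dif E ζ z) (dV E' (ψ : Y → E') (f z))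
      (ContinuousLinearMap.id ℂ ℂ)
    rw [h8, h10, JP_comp, det_id', mul_one] at h11
    have h12 : JP e₀ (A z) (P z) * jac E φ z =
        jac E' ψ (f z) * JP e₀ (dM E E' f z) (dif E ζ z) := h11
    rw [hΘ z a h7 ζ h3 h6]
    calc jac E' ψ (f z) ^ 12 * (D (τ a (f z)) * JP e₀ (dM E E' f z) (dif E ζ z) ^ 12)
        = D (τ a (f z)) * (jac E' ψ (f z) * JP e₀ (dM E E' f z) (dif E ζ z)) ^ 12 := by ring
      _ = D (τ a (f z)) * JP e₀ (A z) (P z) ^ 12 * jac E φ z ^ 12 := by rw [← h12]; ring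

theorem exists_theta {f : X → Y} (hf : ∀ x, HolM E E' f x) {S : Set Y} {ι : Type u}
    {U : ι → Set Y} {τ : ι → Y → ℂ} {π : ι → Y → ℂ → X}
    (h : J.IsEllipticFamily E E' f S U τ π) (e₀ : E ≃L[ℂ] (E' × ℂ)) :
    ∃ Θ : X → ℂ, (∀ a x, f x ∈ U a → ∀ ζ : X → ℂ, HolV E ζ x →
        (∀ᶠ z in 𝓝 x, π a (f z) (ζ z) = z) →
        Θ x = D (τ a (f x)) * JP e₀ (dM E E' f x) (dif E ζ x) ^ 12) ∧
      (∀ x, f x ∉ S → Θ x ≠ 0) ∧
      (∀ (x₀ x : X) (y₀ : Y), f x ∉ S → x ∈ (chartAt E x₀).source →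
        f x ∈ (chartAt E' y₀).source → ∃ H : X → ℂ, HolV E H x ∧
        ∀ᶠ z in 𝓝 x, jac E' (chartAt E' y₀) (f z) ^ 12 * Θ z =
          H z * jac E (chartAt E x₀) z ^ 12) :=
  exists_theta_of (fun _ hz => D_ne hz) (fun _ hz => D_hol hz)
    (fun _ _ _ ht ht' hw => D_lattice ht ht' hw) hf h e₀

end Theta

end Vale.Agent.P281.ELL
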