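import Vale.Agent.P281.ELL.CovLocal
import Vale.Agent.P281.ELL.Theta
import Vale.Agent.P281.ELL.Slice
import Vale.Agent.P281.ELL.Affine

/-!
# P281, branched fibrations: the relative forms are well defined
-/

open scoped Manifold ContDiff Topology
open Set Filter Metric

namespace Vale.Agent.P281.ELL.CF515

open Vale.Agent.P281 Vale.Agent.P281.MF Vale.Agent.P281.ISO Vale.Agent.P281.ELL

set_option linter.unusedSectionVars false
set_option linter.unusedVariables false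

universe u

theorem lin_exp (A : (ℂ × ℂ) ≃ₗ[ℂ] (ℂ × ℂ)) (u : ℂ × ℂ) :
    A u = u.1 • A (1, 0) + u.2 • A (0, 1) := by
  have h : u = u.1 • ((1 : ℂ), (0 : ℂ)) + u.2 • ((0 : ℂ), (1 : ℂ)) := by ext <;> simp
  conv_lhs => rw [h, map_add, map_smul, map_smul]

theorem wedge_lin (A : (ℂ × ℂ) ≃ₗ[ℂ] (ℂ × ℂ)) (u v : ℂ × ℂ) :
    J.wedge (A u) (A v) = J.wedge (A (1, 0)) (A (0, 1)) * J.wedge u v := by
  rw [lin_exp A u, lin_exp A v]
  unfold J.wedge
  simp only [Prod.fst_add, Prod.snd_add, Prod.smul_fst, Prod.smul_snd, smul_eq_mul]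
  ring

theorem det_ne (A : (ℂ × ℂ) ≃ₗ[ℂ] (ℂ × ℂ)) : J.wedge (A (1, 0)) (A (0, 1)) ≠ 0 := by
  intro h
  have h1 := wedge_lin A (A.symm (1, 0)) (A.symm (0, 1))
  rw [A.apply_symm_apply, A.apply_symm_apply, h, zero_mul] at h1
  unfold J.wedge at h1
  simp at h1

theorem prop_of {u v : ℂ × ℂ} (hu : u ≠ 0) (hv : v ≠ 0) (h : J.wedge v u = 0) :
    ∃ m : ℂ, m ≠ 0 ∧ v = m • u := by
  unfold J.wedge at h
  by_cases h1 : u.1 = 0
  · have h2 : u.2 ≠ 0 := fun h2 => hu (Prod.ext h1 h2)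
    have h3 : v.1 = 0 := by
      rw [h1, mul_zero, sub_zero] at h
      exact (mul_eq_zero.1 h).resolve_right h2
    have h4 : v.2 ≠ 0 := fun h4 => hv (Prod.ext h3 h4)
    refine ⟨v.2 / u.2, div_ne_zero h4 h2, ?_⟩
    ext
    · simp [h1, h3]
    · simp [h2]
  · have h4 : v.1 ≠ 0 := by
      intro h3
      rw [h3, zero_mul, zero_sub, neg_eq_zero] at h
      exact hv (Prod.ext h3 ((mul_eq_zero.1 h).resolve_right h1))
    refine ⟨v.1 / u.1, div_ne_zero h4 h1, ?_⟩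
    ext
    · simp [h1]
    · simp only [Prod.smul_snd, smul_eq_mul]
      field_simp
      linear_combination -h

section Man

variable {E E' : Type} [NormedAddCommGroup E] [NormedSpace ℂ E] [FiniteDimensional ℂ E]
  [NormedAddCommGroup E'] [NormedSpace ℂ E'] [FiniteDimensional ℂ E']
variable {X Y : Type u} [TopologicalSpace X] [ChartedSpace E X] [IsManifold 𝓘(ℂ, E) ω X]
  [TopologicalSpace Y] [ChartedSpace E' Y] [IsManifold 𝓘(ℂ, E') ω Y]

/-- the curve in the fibre. -/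
theorem fibre_curve (e₀ : E ≃L[ℂ] (E' × ℂ)) {f : X → Y} {x : X} (hf : HolM E E' f x) {ζ : X → ℂ}
    (hζ : HolV E ζ x) (hinj : ∀ ξ, dM E E' f x ξ = 0 → dif E ζ x ξ = 0 → ξ = 0) :
    ∃ ξ₀ : E, dM E E' f x ξ₀ = 0 ∧ (∀ ξ, dM E E' f x ξ = 0 → ∃ s : ℂ, ξ = s • ξ₀) ∧
      ∀ F : X → ℂ, HolV E F x → (∀ᶠ z in 𝓝 x, f z = f x → F z = 0) → dif E F x ξ₀ = 0 := by
  obtain ⟨ψ, hψ, hψ0, hψe⟩ := coord_section hf hζ e₀ hinj
  set ξ₀ : E := (mfderiv 𝓘(ℂ, ℂ) 𝓘(ℂ, E) ψ (ζ x) : ℂ →L[ℂ] E) (1 : ℂ) with hξ₀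
  have hdf : dM E E' f x ξ₀ = 0 := by
    have h1 := mfderiv_comp (I := 𝓘(ℂ, ℂ)) (I' := 𝓘(ℂ, E)) (I'' := 𝓘(ℂ, E')) (ζ x)
      (g := f) (f := ψ) (by rw [hψ0]; exact hf.mdifferentiableAt (by simp))
      (hψ.mdifferentiableAt (by simp))
    have h2 : f ∘ ψ =ᶠ[𝓝 (ζ x)] fun _ => f x := hψe.mono fun p hp => hp.1
    rw [h2.mfderiv_eq, mfderiv_const, hψ0] at h1
    exact (congrArg (fun T : ℂ →L[ℂ] E' => T (1 : ℂ)) h1).symm
  have hco : ∀ F : X → ℂ, HolV E F x → dif E F x ξ₀ = deriv (fun p => F (ψ p)) (ζ x) := by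
    intro F hF
    have h1 := (slice_comp (E := E) hψ (ζ := F) (by rw [hψ0]; exact hF)).2
    rw [h1, hψ0]
    rfl
  have hζ1 : dif E ζ x ξ₀ = 1 := by
    rw [hco ζ hζ]
    have h2 : (fun p => ζ (ψ p)) =ᶠ[𝓝 (ζ x)] fun p => p := hψe.mono fun p hp => hp.2
    rw [h2.deriv_eq, deriv_id'']
  refine ⟨ξ₀, hdf, fun ξ hξ => ⟨dif E ζ x ξ, ?_⟩, fun F hF hF0 => ?_⟩
  · have h1 := hinj (ξ - dif E ζ x ξ • ξ₀) (by rw [map_sub, map_smul, hξ, hdf]; simp)
      (by rw [map_sub, map_smul, hζ1]; simp)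
    exact sub_eq_zero.1 h1
  · rw [hco F hF]
    have hψc : Tendsto ψ (𝓝 (ζ x)) (𝓝 x) := by
      have := hψ.continuousAt.tendsto
      rwa [hψ0] at this
    have h2 : (fun p => F (ψ p)) =ᶠ[𝓝 (ζ x)] fun _ => 0 := by
      filter_upwards [hψe, hψc.eventually hF0] with p hp1 hp2 using hp2 hp1.1
    rw [h2.deriv_eq, deriv_const]

theorem dif_lin {l1 l2 : X → ℂ} {x : X} (h1 : HolV E l1 x) (h2 : HolV E l2 x) (a b : ℂ) (ξ : E) :
    dif E (fun z => a * l1 z + b * l2 z) x ξ = a * dif E l1 x ξ + b * dif E l2 x ξ := by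
  have c0 : ∀ c : ℂ, dif E (fun _ : X => c) x ξ = 0 := fun c => by
    unfold dif
    rw [mfderiv_const]
    rfl
  rw [dif_addC ((HolV.const a x).mul h1) ((HolV.const b x).mul h2)]
  show dif E (fun z => a * l1 z) x ξ + dif E (fun z => b * l2 z) x ξ = _
  rw [dif_mulC (HolV.const a x) h1, dif_mulC (HolV.const b x) h2, c0, c0]
  ring

/-- comparison of the Wronskians of two lifts, the second one up to a projectivity. -/
theorem compare (e₀ : E ≃L[ℂ] (E' × ℂ)) {f : X → Y} {x : X} (hf : HolM E E' f x)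
    {L L' : X → ℂ × ℂ} (hL1 : HolV E (fun z => (L z).1) x) (hL2 : HolV E (fun z => (L z).2) x)
    (hL1' : HolV E (fun z => (L' z).1) x) (hL2' : HolV E (fun z => (L' z).2) x) (hL0 : L x ≠ 0)
    (hinj : ∀ ξ : E, dM E E' f x ξ = 0 →
      (L x).1 * dif E (fun z => (L z).2) x ξ - (L x).2 * dif E (fun z => (L z).1) x ξ = 0 →
      ξ = 0) (A : (ℂ × ℂ) ≃ₗ[ℂ] (ℂ × ℂ)) {nu : ℂ} (hnu : L' x = nu • A (L x))
    (hnu0 : nu ≠ 0) (hF : ∀ᶠ z in 𝓝 x, f z = f x → J.wedge (L' z) (A (L z)) = 0) :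
    JP e₀ (dM E E' f x) (WL E L' x) =
      nu ^ 2 * J.wedge (A (1, 0)) (A (0, 1)) * JP e₀ (dM E E' f x) (WL E L x) := by
  -- the fibre coordinate
  obtain ⟨ζ, hζ, hζi⟩ : ∃ ζ : X → ℂ, HolV E ζ x ∧
      ∀ ξ, dM E E' f x ξ = 0 → dif E ζ x ξ = 0 → ξ = 0 := by
    by_cases h0 : (L x).1 = 0
    · have h2 : (L x).2 ≠ 0 := fun h2 => hL0 (Prod.ext h0 h2)
      have hz : HolV E (fun z => (L z).1 / (L z).2) x := hL1.div hL2 h2
      refine ⟨fun z => (L z).1 / (L z).2, hz, fun ξ hξ h3 => hinj ξ hξ ?_⟩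
      have h4 : dif E (fun z => (L z).1) x ξ =
          dif E (fun z => (L z).1 / (L z).2 * (L z).2) x ξ := by
        unfold dif
        congr 1
        refine Filter.EventuallyEq.mfderiv_eq ?_
        filter_upwards [hL2.continuousAt.eventually_ne h2] with z hz2
        exact (div_mul_cancel₀ _ hz2).symm
      rw [dif_mulC hz hL2, h3, zero_mul, add_zero, h0, zero_div, zero_mul] at h4
      rw [h0, h4]; ring
    · have hz : HolV E (fun z => (L z).2 / (L z).1) x := hL2.div hL1 h0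
      refine ⟨fun z => (L z).2 / (L z).1, hz, fun ξ hξ h3 => hinj ξ hξ ?_⟩
      have h4 : dif E (fun z => (L z).2) x ξ =
          dif E (fun z => (L z).2 / (L z).1 * (L z).1) x ξ := by
        unfold dif
        congr 1
        refine Filter.EventuallyEq.mfderiv_eq ?_
        filter_upwards [hL1.continuousAt.eventually_ne h0] with z hz2
        exact (div_mul_cancel₀ _ hz2).symm
      rw [dif_mulC hz hL1, h3, zero_mul, add_zero] at h4
      rw [h4]; field_simp; ring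
  obtain ⟨ξ₀, hξ₀, hspan, hvan⟩ := fibre_curve e₀ hf hζ hζi
  set al := (A (1, 0)).1 with hal
  set ga := (A (1, 0)).2 with hga
  set be := (A (0, 1)).1 with hbe
  set de := (A (0, 1)).2 with hde
  have hA1 : ∀ u : ℂ × ℂ, (A u).1 = al * u.1 + be * u.2 := fun u => by
    rw [lin_exp A u]
    simp only [Prod.fst_add, Prod.smul_fst, smul_eq_mul]
    ring
  have hA2 : ∀ u : ℂ × ℂ, (A u).2 = ga * u.1 + de * u.2 := fun u => by
    rw [lin_exp A u]
    simp only [Prod.snd_add, Prod.smul_snd, smul_eq_mul]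
    ring
  set g1 : X → ℂ := fun z => al * (L z).1 + be * (L z).2 with hg1
  set g2 : X → ℂ := fun z => ga * (L z).1 + de * (L z).2 with hg2
  have hg1h : HolV E g1 x := ((HolV.const al x).mul hL1).add ((HolV.const be x).mul hL2)
  have hg2h : HolV E g2 x := ((HolV.const ga x).mul hL1).add ((HolV.const de x).mul hL2)
  set F : X → ℂ := fun z => 1 * ((L' z).1 * g2 z) + (-1) * ((L' z).2 * g1 z) with hFd
  have hFh : HolV E F x :=
    ((HolV.const (1 : ℂ) x).mul (hL1'.mul hg2h)).add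
      ((HolV.const (-1 : ℂ) x).mul (hL2'.mul hg1h))
  have hF0 : dif E F x ξ₀ = 0 := by
    refine hvan F hFh (hF.mono fun z hz hfz => ?_)
    have h1 := hz hfz
    unfold J.wedge at h1
    rw [hA1, hA2] at h1
    simp only [hFd, hg1, hg2]
    linear_combination h1
  rw [hFd, dif_lin (hL1'.mul hg2h) (hL2'.mul hg1h), dif_mulC hL1' hg2h, dif_mulC hL2' hg1h,
    hg1, hg2, dif_lin hL1 hL2, dif_lin hL1 hL2] at hF0
  have e1 : (L' x).1 = nu * (al * (L x).1 + be * (L x).2) := by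
    rw [hnu, ← hA1]; rfl
  have e2 : (L' x).2 = nu * (ga * (L x).1 + de * (L x).2) := by
    rw [hnu, ← hA2]; rfl
  have key : (L' x).1 * dif E (fun z => (L' z).2) x ξ₀ -
      (L' x).2 * dif E (fun z => (L' z).1) x ξ₀ = nu ^ 2 * (al * de - ga * be) *
      ((L x).1 * dif E (fun z => (L z).2) x ξ₀ - (L x).2 * dif E (fun z => (L z).1) x ξ₀) := by
    rw [e1, e2] at hF0 ⊢
    linear_combination (-nu) * hF0
  rw [← JP_smul]
  refine JP_ker e₀ fun ξ hξ => ?_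
  obtain ⟨s, rfl⟩ := hspan ξ hξ
  show (L' x).1 * dif E (fun z => (L' z).2) x (s • ξ₀) -
      (L' x).2 * dif E (fun z => (L' z).1) x (s • ξ₀) =
      (nu ^ 2 * (al * de - ga * be)) * ((L x).1 * dif E (fun z => (L z).2) x (s • ξ₀) -
        (L x).2 * dif E (fun z => (L z).1) x (s • ξ₀))
  rw [map_smul, map_smul, map_smul, map_smul]
  simp only [smul_eq_mul]
  linear_combination s * key

theorem exists_cov {f : X → Y} (hf : ∀ x, HolM E E' f x) {S : Set Y} {n e d : ℕ}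
    {𝒲 : Set (Set X)} {ι : Type u} {U : ι → Set Y} {p : ι → Fin d → Y → ℂ × ℂ}
    {c : ι → X → ℂ × ℂ} (h : J.IsBranchedOver E E' f S n e d 𝒲 U p c) (hd : 3 ≤ d)
    (he : 0 < e) (e₀ : E ≃L[ℂ] (E' × ℂ)) :
    ∃ Θ Ψ : X → ℂ, ∀ a x, f x ∈ U a → (∀ k, J.wedge (c a x) (p a k (f x)) ≠ 0) →
      ∀ L : X → ℂ × ℂ, HolV E (fun z => (L z).1) x → HolV E (fun z => (L z).2) x → L x ≠ 0 →
      (∀ᶠ z in 𝓝 x, J.wedge (c a z) (L z) = 0) →
      Θ x = (∏ i, ∏ j ∈ Finset.univ.erase i, ww e₀ f (p a) L x i j) ∧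
      Ψ x = ∑ i, (∏ j ∈ Finset.univ.erase i, ww e₀ f (p a) L x i j) ^ d := by
  classical
  have key : ∀ a b x, f x ∈ U a → f x ∈ U b → (∀ k, J.wedge (c a x) (p a k (f x)) ≠ 0) →
      ∀ L L' : X → ℂ × ℂ, HolV E (fun z => (L z).1) x → HolV E (fun z => (L z).2) x →
      HolV E (fun z => (L' z).1) x → HolV E (fun z => (L' z).2) x → L x ≠ 0 → L' x ≠ 0 →
      (∀ᶠ z in 𝓝 x, J.wedge (c a z) (L z) = 0) → (∀ᶠ z in 𝓝 x, J.wedge (c b z) (L' z) = 0) →
      (∀ ξ : E, dM E E' f x ξ = 0 →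
        (L x).1 * dif E (fun z => (L z).2) x ξ - (L x).2 * dif E (fun z => (L z).1) x ξ = 0 →
        ξ = 0) →
      (∏ i, ∏ j ∈ Finset.univ.erase i, ww e₀ f (p a) L x i j) =
        (∏ i, ∏ j ∈ Finset.univ.erase i, ww e₀ f (p b) L' x i j) ∧
      (∑ i, (∏ j ∈ Finset.univ.erase i, ww e₀ f (p a) L x i j) ^ d) =
        ∑ i, (∏ j ∈ Finset.univ.erase i, ww e₀ f (p b) L' x i j) ^ d := by
    intro a b x ha hb hoff L L' hL1 hL2 hL1' hL2' hL0 hL0' hcL hcL' hinj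
    obtain ⟨A, σ, hA, hσ⟩ := h.change a b (f x) ⟨ha, hb⟩
    have hfc : ContinuousAt f x := (hf x).continuousAt
    have hAne : ∀ u : ℂ × ℂ, u ≠ 0 → A u ≠ 0 := fun u hu h0 =>
      hu ((map_eq_zero_iff A A.injective).1 h0)
    have hF : ∀ᶠ z in 𝓝 x, f z = f x → J.wedge (L' z) (A (L z)) = 0 := by
      filter_upwards [hcL, hcL', hfc.eventually ((h.isOpen a).mem_nhds ha),
        hfc.eventually ((h.isOpen b).mem_nhds hb)] with z h1 h2 h3 h4 h5
      have h6 := hA z h5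
      have h7 : J.wedge (A (c a z)) (A (L z)) = 0 := by rw [wedge_lin, h1, mul_zero]
      have h6' : J.wedge (A (c a z)) (c b z) = 0 := by
        unfold J.wedge at h6 ⊢
        linear_combination -h6
      have h8 : J.wedge (c b z) (A (L z)) = 0 :=
        wedge_zero_of (hAne _ (h.lift a z h3).1) h6' h7
      exact wedge_zero_of (h.lift b z h4).1 h2 h8
    obtain ⟨nu, hnu0, hnu⟩ := prop_of (hAne _ hL0) hL0' (hF.self_of_nhds rfl)
    have hcmp := compare e₀ (hf x) hL1 hL2 hL1' hL2' hL0 hinj A hnu hnu0 hF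
    have hpne : ∀ a, f x ∈ U a → ∀ k, p a k (f x) ≠ 0 := by
      intro a ha k h0
      obtain ⟨k', hk'⟩ : ∃ k' : Fin d, k ≠ k' := by
        by_cases h1 : k = ⟨0, by omega⟩
        · exact ⟨⟨1, by omega⟩, by rw [h1]; simp [Fin.ext_iff]⟩
        · exact ⟨⟨0, by omega⟩, h1⟩
      apply h.distinct a k k' (f x) ha hk'
      rw [h0]
      unfold J.wedge
      simp
    have hmu : ∀ k, ∃ m : ℂ, m ≠ 0 ∧ p b (σ k) (f x) = m • A (p a k (f x)) := fun k =>
      prop_of (hAne _ (hpne a ha k)) (hpne b hb (σ k)) (hσ k)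
    choose mu hmu0 hmu using hmu
    have hLa : ∀ k, J.wedge (L x) (p a k (f x)) ≠ 0 := by
      intro k
      have h1 : J.wedge (L x) (c a x) = 0 := by
        have := hcL.self_of_nhds
        unfold J.wedge at this ⊢
        linear_combination -this
      exact wedge_ne_of hL0 h1 (hoff k)
    set D := J.wedge (A (1, 0)) (A (0, 1)) with hDd
    have hD0 : D ≠ 0 := det_ne A
    have hsm : ∀ (m n : ℂ) (u v : ℂ × ℂ), J.wedge (m • A u) (n • A v) =
        m * n * (D * J.wedge u v) := fun m n u v => by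
      rw [hDd, ← wedge_lin]
      unfold J.wedge
      simp only [Prod.smul_fst, Prod.smul_snd, smul_eq_mul]
      ring
    have hww : ∀ i j, ww e₀ f (p b) L' x (σ i) (σ j) = ww e₀ f (p a) L x i j := by
      intro i j
      unfold ww
      rw [hcmp, hmu i, hmu j, hnu, hsm, hsm, hsm]
      have h1 := hLa i
      have h2 := hLa j
      have h3 := hmu0 i
      have h4 := hmu0 j
      field_simp
    have hrow : ∀ i, ∏ j ∈ Finset.univ.erase (σ i), ww e₀ f (p b) L' x (σ i) j =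
        ∏ j ∈ Finset.univ.erase i, ww e₀ f (p a) L x i j := by
      intro i
      symm
      refine Finset.prod_bij (fun j _ => σ j) ?_ ?_ ?_ ?_
      · intro j hj
        exact Finset.mem_erase.2 ⟨fun h0 => (Finset.mem_erase.1 hj).1 (σ.injective h0),
          Finset.mem_univ _⟩
      · intro j _ j' _ h0
        exact σ.injective h0
      · intro j hj
        refine ⟨σ.symm j, Finset.mem_erase.2 ⟨fun h0 => (Finset.mem_erase.1 hj).1 ?_,
          Finset.mem_univ _⟩, σ.apply_symm_apply j⟩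
        rw [← h0, σ.apply_symm_apply]
      · intro j _
        exact (hww i j).symm
    constructor
    · rw [← Equiv.prod_comp σ (fun i => ∏ j ∈ Finset.univ.erase i, ww e₀ f (p b) L' x i j)]
      exact Finset.prod_congr rfl fun i _ => (hrow i).symm
    · rw [← Equiv.sum_comp σ
        (fun i => (∏ j ∈ Finset.univ.erase i, ww e₀ f (p b) L' x i j) ^ d)]
      exact Finset.sum_congr rfl fun i _ => by rw [hrow i]
  have hex : ∀ x, ∃ v : ℂ × ℂ, ∀ a, f x ∈ U a → (∀ k, J.wedge (c a x) (p a k (f x)) ≠ 0) →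
      ∀ L : X → ℂ × ℂ, HolV E (fun z => (L z).1) x → HolV E (fun z => (L z).2) x → L x ≠ 0 →
      (∀ᶠ z in 𝓝 x, J.wedge (c a z) (L z) = 0) →
      v.1 = (∏ i, ∏ j ∈ Finset.univ.erase i, ww e₀ f (p a) L x i j) ∧
      v.2 = ∑ i, (∏ j ∈ Finset.univ.erase i, ww e₀ f (p a) L x i j) ^ d := by
    intro x
    by_cases hx : ∃ a, f x ∈ U a ∧ ∀ k, J.wedge (c a x) (p a k (f x)) ≠ 0
    · obtain ⟨a, ha, hoff⟩ := hx
      obtain ⟨hcx, L, hL1, hL2, hL0, hcL, hli, -⟩ := h.lift a x ha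
      have h1 : J.wedge (L x) (c a x) = 0 := by
        have := hcL.self_of_nhds
        unfold J.wedge at this ⊢
        linear_combination -this
      have hli' := hli fun k => wedge_ne_of hL0 h1 (hoff k)
      refine ⟨(∏ i, ∏ j ∈ Finset.univ.erase i, ww e₀ f (p a) L x i j,
        ∑ i, (∏ j ∈ Finset.univ.erase i, ww e₀ f (p a) L x i j) ^ d), ?_⟩
      intro b hb _ L' hL1' hL2' hL0' hcL'
      exact key a b x ha hb hoff L L' hL1 hL2 hL1' hL2' hL0 hL0' hcL hcL' hli'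
    · exact ⟨0, fun a ha hoff => absurd ⟨a, ha, hoff⟩ hx⟩
  choose v hv using hex
  exact ⟨fun x => (v x).1, fun x => (v x).2, fun a x ha hoff L hL1 hL2 hL0 hcL =>
    hv x a ha hoff L hL1 hL2 hL0 hcL⟩

end Man

end Vale.Agent.P281.ELL.CF515
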