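import Vale.Agent.P281.ELL.CovDef
import Vale.Agent.P281.ELL.Theta

/-! P281 (C3, second hand): one-forms on the fibres near a branch point. (helper124) -/

open scoped Manifold ContDiff Topology
open Set Filter Metric

namespace Vale.Agent.P281.ELL

open Vale.Agent.P281 Vale.Agent.P281.MF Vale.Agent.P281.ISO

set_option linter.unusedSectionVars false

universe u

section A

variable {E E' : Type} [NormedAddCommGroup E] [NormedSpace ℂ E] [FiniteDimensional ℂ E]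
  [NormedAddCommGroup E'] [NormedSpace ℂ E'] [FiniteDimensional ℂ E']

/-- `det (A, P)` depends only on `P` on the kernel of `A`. -/
theorem JP_congr_ker (e₀ : E ≃L[ℂ] (E' × ℂ)) {A : E →L[ℂ] E'} {P P' : E →L[ℂ] ℂ}
    (h : ∀ ξ, A ξ = 0 → P ξ = P' ξ) : JP e₀ A P = JP e₀ A P' := by
  have h1 : ((P - P' : E →L[ℂ] ℂ) : E →ₗ[ℂ] ℂ) ∈
      LinearMap.range (A : E →ₗ[ℂ] E').dualMap := by
    rw [LinearMap.range_dualMap_eq_dualAnnihilator_ker, Submodule.mem_dualAnnihilator]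
    intro w hw
    have h2 : A w = 0 := hw
    show (P - P') w = 0
    rw [sub_apply, h w h2, sub_self]
  obtain ⟨φ, hφ⟩ := h1
  set φ' : E' →L[ℂ] ℂ := LinearMap.toContinuousLinearMap φ with hφ'
  have h3 : ∀ w, P w = P' w + φ' (A w) := by
    intro w
    have h4 := LinearMap.congr_fun hφ w
    have h5 : φ (A w) = P w - P' w := h4
    have h6 : φ' (A w) = φ (A w) := rfl
    rw [h6, h5]; ring
  unfold JP
  have h7 : (A.prod P).comp (e₀.symm : (E' × ℂ) →L[ℂ] E) =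
      (ContinuousLinearMap.id ℂ (E' × ℂ) + (ContinuousLinearMap.inr ℂ E' ℂ).comp
        (φ'.comp (ContinuousLinearMap.fst ℂ E' ℂ))).comp
      ((A.prod P').comp (e₀.symm : (E' × ℂ) →L[ℂ] E)) := by
    refine ContinuousLinearMap.ext fun w => ?_
    refine Prod.ext ?_ ?_
    · simp
    · simp [h3]
  rw [h7, clm_det_comp, det_id_add (fun v => by simp), one_mul]

/-- `det (A, c P) = c det (A, P)`. -/
theorem JP_smul (e₀ : E ≃L[ℂ] (E' × ℂ)) (A : E →L[ℂ] E') (P : E →L[ℂ] ℂ) (c : ℂ) :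
    JP e₀ A (c • P) = c * JP e₀ A P := by
  have h3 := JP_left e₀ A P (ContinuousLinearMap.id ℂ E') (c • ContinuousLinearMap.id ℂ ℂ)
  have h4 : (c • ContinuousLinearMap.id ℂ ℂ).det = c := by
    have : (c • ContinuousLinearMap.id ℂ ℂ).det = LinearMap.det (c • (LinearMap.id : ℂ →ₗ[ℂ] ℂ)) :=
      rfl
    rw [this, LinearMap.det_smul, LinearMap.det_id]
    simp
  rw [det_id', one_mul, h4] at h3
  rw [← h3]
  congr 1

end A

section B

variable {E E' : Type} [NormedAddCommGroup E] [NormedSpace ℂ E] [FiniteDimensional ℂ E]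
  [NormedAddCommGroup E'] [NormedSpace ℂ E'] [FiniteDimensional ℂ E']
variable {X Y : Type u} [TopologicalSpace X] [ChartedSpace E X] [IsManifold 𝓘(ℂ, E) ω X]
  [TopologicalSpace Y] [ChartedSpace E' Y] [IsManifold 𝓘(ℂ, E') ω Y]

/-- a relative holomorphic one-form is holomorphic, compared with the charts. -/
theorem form_local {f : X → Y} (hf : ∀ x, HolM E E' f x) (e₀ : E ≃L[ℂ] (E' × ℂ))
    {x₀ x : X} {y₀ : Y} (hx₀ : x ∈ (chartAt E x₀).source) (hy₀ : f x ∈ (chartAt E' y₀).source)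
    {α₁ α₂ ζ₁ ζ₂ : X → ℂ} (hα₁ : HolV E α₁ x) (hα₂ : HolV E α₂ x) (hζ₁ : HolV E ζ₁ x)
    (hζ₂ : HolV E ζ₂ x) : ∃ h : X → ℂ, HolV E h x ∧ ∀ᶠ z in 𝓝 x,
      jac E' (chartAt E' y₀) (f z) *
        JP e₀ (dM E E' f z) (α₁ z • dif E ζ₁ z + α₂ z • dif E ζ₂ z) =
      h z * jac E (chartAt E x₀) z := by
  have hfc : ∀ x, ContinuousAt f x := fun x => (hf x).continuousAt
  set φ := chartAt E x₀ with hφ
  set ψ := chartAt E' y₀ with hψ
  let A₁ : X → E' := fun x => ψ (f x)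
  have hA₁ : HolV E A₁ x := HolV.comp (h := (ψ : Y → E')) (HolV.chart hy₀) (hf x)
  let A : X → (E →L[ℂ] E') := fun z => fderiv ℂ (A₁ ∘ φ.symm) (φ z)
  let P₁ : X → (E →L[ℂ] ℂ) := fun z => fderiv ℂ (ζ₁ ∘ φ.symm) (φ z)
  let P₂ : X → (E →L[ℂ] ℂ) := fun z => fderiv ℂ (ζ₂ ∘ φ.symm) (φ z)
  have hA : HolV E A x := by
    refine HolV.comp_contDiff (G := fderiv ℂ (A₁ ∘ φ.symm)) ?_ (HolV.chart hx₀)
    exact (hA₁.rep hx₀).fderiv_right (by simp)
  have hP₁ : HolV E P₁ x := by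
    refine HolV.comp_contDiff (G := fderiv ℂ (ζ₁ ∘ φ.symm)) ?_ (HolV.chart hx₀)
    exact (hζ₁.rep hx₀).fderiv_right (by simp)
  have hP₂ : HolV E P₂ x := by
    refine HolV.comp_contDiff (G := fderiv ℂ (ζ₂ ∘ φ.symm)) ?_ (HolV.chart hx₀)
    exact (hζ₂.rep hx₀).fderiv_right (by simp)
  have hP : HolV E (fun z => α₁ z • P₁ z + α₂ z • P₂ z) x :=
    (hα₁.smul hP₁).add (hα₂.smul hP₂)
  have hM := holV_JP e₀ hA hP
  have hJ : HolV E (fun z => JP e₀ (A z) (α₁ z • P₁ z + α₂ z • P₂ z)) x :=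
    HolV.comp_contDiff contDiff_det.contDiffAt hM
  refine ⟨_, hJ, ?_⟩
  filter_upwards [hA₁.eventually, hζ₁.eventually, hζ₂.eventually, φ.open_source.mem_nhds hx₀,
    (hfc x).eventually (ψ.open_source.mem_nhds hy₀)] with z h2 h3 h3' h4 h5
  have h8 : (dV E' (ψ : Y → E') (f z)).comp (dM E E' f z) =
      (A z).comp (dV E (φ : X → E) z) := by
    have h9 := dV_comp (h := (ψ : Y → E')) (HolV.chart h5) (hf z)
    rw [← h9]
    exact dV_eq_chart h4 h2
  have h10a : dif E ζ₁ z = (P₁ z).comp (dV E (φ : X → E) z) := dV_eq_chart h4 h3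
  have h10b : dif E ζ₂ z = (P₂ z).comp (dV E (φ : X → E) z) := dV_eq_chart h4 h3'
  have h10 : (ContinuousLinearMap.id ℂ ℂ).comp (α₁ z • dif E ζ₁ z + α₂ z • dif E ζ₂ z) =
      (α₁ z • P₁ z + α₂ z • P₂ z).comp (dV E (φ : X → E) z) := by
    rw [ContinuousLinearMap.id_comp, h10a, h10b]
    rfl
  have h11 := JP_left e₀ (dM E E' f z) (α₁ z • dif E ζ₁ z + α₂ z • dif E ζ₂ z)
    (dV E' (ψ : Y → E') (f z)) (ContinuousLinearMap.id ℂ ℂ)
  rw [h8, h10, JP_comp, det_id', mul_one] at h11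
  exact h11.symm

theorem dif_mulG {a b : X → ℂ} {x : X} (ha : HolV E a x) (hb : HolV E b x) (ξ : E) :
    dif E (fun z => a z * b z) x ξ = a x * dif E b x ξ + dif E a x ξ * b x := by
  have h1 := dV_smul (E := E) (lam := a) (v := b) ha hb
  have h2 := congrArg (fun T : E →L[ℂ] ℂ => T ξ) h1
  exact h2

/-- at a branch point, the Wronskian on the fibres is divisible by `u ^ (e - 1)`. -/
theorem wronsk_branch {f : X → Y} (hf : ∀ x, HolM E E' f x) (e₀ : E ≃L[ℂ] (E' × ℂ))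
    {x₀ x : X} {y₀ : Y} (hx₀ : x ∈ (chartAt E x₀).source) (hy₀ : f x ∈ (chartAt E' y₀).source)
    {L : X → ℂ × ℂ} (hL₁ : HolV E (fun z => (L z).1) x) (hL₂ : HolV E (fun z => (L z).2) x)
    {p : Y → ℂ × ℂ} (hp₁ : HolV E' (fun y => (p y).1) (f x)) (hp₂ : HolV E' (fun y => (p y).2) (f x))
    (hp0 : p (f x) ≠ 0) {u : X → ℂ} (hu : HolV E u x) {e : ℕ} (he : 0 < e)
    (hue : ∀ᶠ z in 𝓝 x, J.wedge (L z) (p (f z)) = u z ^ e) :
    ∃ h : X → ℂ, HolV E h x ∧ ∀ᶠ z in 𝓝 x,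
      jac E' (chartAt E' y₀) (f z) * JP e₀ (dM E E' f z) (WL E L z) =
      u z ^ (e - 1) * h z * jac E (chartAt E x₀) z := by
  have hfc : ∀ x, ContinuousAt f x := fun x => (hf x).continuousAt
  -- the relation on the kernel
  have key : ∀ᶠ z in 𝓝 x, ∀ ξ, dM E E' f z ξ = 0 →
      (p (f z)).2 * dif E (fun z => (L z).1) z ξ - (p (f z)).1 * dif E (fun z => (L z).2) z ξ =
        (e : ℂ) * u z ^ (e - 1) * dif E u z ξ := by
    have hp₁' : ∀ᶠ z in 𝓝 x, HolV E' (fun y => (p y).1) (f z) := (hfc x).eventually hp₁.eventually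
    have hp₂' : ∀ᶠ z in 𝓝 x, HolV E' (fun y => (p y).2) (f z) := (hfc x).eventually hp₂.eventually
    filter_upwards [hL₁.eventually, hL₂.eventually, hp₁', hp₂', hu.eventually,
      eventually_eventually_nhds.2 hue] with z g1 g2 g3 g4 g5 g6 ξ hξ
    have q1 : HolV E (fun z => (p (f z)).1) z := HolV.comp (E' := E') (h := fun y => (p y).1) g3 (hf z)
    have q2 : HolV E (fun z => (p (f z)).2) z := HolV.comp (E' := E') (h := fun y => (p y).2) g4 (hf z)
    have k1 : dif E (fun z => (p (f z)).1) z ξ = 0 := by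
      have := dif_comp g3 (hf z)
      have h2 := congrArg (fun T : E →L[ℂ] ℂ => T ξ) this
      refine h2.trans ?_
      show dif E' (fun y => (p y).1) (f z) (dM E E' f z ξ) = 0
      rw [hξ, map_zero]
    have k2 : dif E (fun z => (p (f z)).2) z ξ = 0 := by
      have := dif_comp g4 (hf z)
      have h2 := congrArg (fun T : E →L[ℂ] ℂ => T ξ) this
      refine h2.trans ?_
      show dif E' (fun y => (p y).2) (f z) (dM E E' f z ξ) = 0
      rw [hξ, map_zero]
    have e1 : dif E (fun z => (L z).1 * (p (f z)).2) z ξ =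
        dif E (fun z => u z ^ e + (L z).2 * (p (f z)).1) z ξ := by
      have : (fun z => (L z).1 * (p (f z)).2) =ᶠ[𝓝 z]
          (fun z => u z ^ e + (L z).2 * (p (f z)).1) := by
        filter_upwards [g6] with w hw
        rw [← hw]
        unfold J.wedge
        ring
      have h2 := dV_congr (E := E) this
      exact congrArg (fun T : E →L[ℂ] ℂ => T ξ) h2
    have e2 : dif E (fun z => u z ^ e + (L z).2 * (p (f z)).1) z ξ =
        dif E (fun z => u z ^ e) z ξ + dif E (fun z => (L z).2 * (p (f z)).1) z ξ := by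
      have h1 := ((g5.pow e).mdiff.hasMFDerivAt.add (g2.mul q1).mdiff.hasMFDerivAt).mfderiv
      have h2 := congrArg (fun T : E →L[ℂ] ℂ => T ξ) h1
      exact h2
    have e3 : dif E (fun z => u z ^ e) z ξ = (e : ℂ) * u z ^ (e - 1) * dif E u z ξ := by
      rw [dif_pow g5 e]
      rfl
    rw [dif_mulG g1 q2, k2, e2, e3, dif_mulG g2 q1, k1] at e1
    linear_combination e1
  have hcase : (p (f x)).1 ≠ 0 ∨ (p (f x)).2 ≠ 0 := by
    by_contra hcon
    push Not at hcon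
    exact hp0 (Prod.ext hcon.1 hcon.2)
  have q1 : HolV E (fun z => (p (f z)).1) x := HolV.comp (E' := E') (h := fun y => (p y).1) hp₁ (hf x)
  have q2 : HolV E (fun z => (p (f z)).2) x := HolV.comp (E' := E') (h := fun y => (p y).2) hp₂ (hf x)
  have hec : HolV E (fun _ : X => (e : ℂ)) x := HolV.const _ _
  have hm1 : HolV E (fun _ : X => (-1 : ℂ)) x := HolV.const _ _
  obtain ⟨k, rfl⟩ : ∃ k, e = k + 1 := ⟨e - 1, by omega⟩
  rcases hcase with h0 | h0
  · obtain ⟨h, hh, hhe⟩ := form_local hf e₀ hx₀ hy₀ (α₁ := fun z => u z / (p (f z)).1)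
      (α₂ := fun z => -1 * (((k + 1 : ℕ) : ℂ) * (L z).1 / (p (f z)).1))
      (ζ₁ := fun z => (L z).1) (ζ₂ := u) (hu.div q1 h0) (hm1.mul ((hec.mul hL₁).div q1 h0)) hL₁ hu
    refine ⟨h, hh, ?_⟩
    filter_upwards [hhe, key, hue, q1.continuousAt.eventually_ne h0] with z g1 g2 g3 g4
    have g3' : (L z).1 * (p (f z)).2 - (L z).2 * (p (f z)).1 = u z ^ (k + 1) := g3
    have e1 : JP e₀ (dM E E' f z) (WL E L z) = u z ^ (k + 1 - 1) *
        JP e₀ (dM E E' f z) ((u z / (p (f z)).1) • dif E (fun z => (L z).1) z +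
          (-1 * (((k + 1 : ℕ) : ℂ) * (L z).1 / (p (f z)).1)) • dif E u z) := by
      rw [← JP_smul]
      refine JP_congr_ker e₀ fun ξ hξ => ?_
      have h3 := g2 ξ hξ
      unfold WL
      show (L z).1 * dif E (fun z => (L z).2) z ξ - (L z).2 * dif E (fun z => (L z).1) z ξ =
        u z ^ (k + 1 - 1) * ((u z / (p (f z)).1) * dif E (fun z => (L z).1) z ξ +
          (-1 * (((k + 1 : ℕ) : ℂ) * (L z).1 / (p (f z)).1)) * dif E u z ξ)
      rw [Nat.add_sub_cancel] at h3 ⊢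
      field_simp
      rw [pow_succ] at g3'
      linear_combination (-(L z).1) * h3 + dif E (fun z => (L z).1) z ξ * g3'
    rw [e1]
    linear_combination (u z ^ (k + 1 - 1)) * g1
  · obtain ⟨h, hh, hhe⟩ := form_local hf e₀ hx₀ hy₀ (α₁ := fun z => u z / (p (f z)).2)
      (α₂ := fun z => -1 * (((k + 1 : ℕ) : ℂ) * (L z).2 / (p (f z)).2))
      (ζ₁ := fun z => (L z).2) (ζ₂ := u) (hu.div q2 h0) (hm1.mul ((hec.mul hL₂).div q2 h0)) hL₂ hu
    refine ⟨h, hh, ?_⟩
    filter_upwards [hhe, key, hue, q2.continuousAt.eventually_ne h0] with z g1 g2 g3 g4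
    have g3' : (L z).1 * (p (f z)).2 - (L z).2 * (p (f z)).1 = u z ^ (k + 1) := g3
    have e1 : JP e₀ (dM E E' f z) (WL E L z) = u z ^ (k + 1 - 1) *
        JP e₀ (dM E E' f z) ((u z / (p (f z)).2) • dif E (fun z => (L z).2) z +
          (-1 * (((k + 1 : ℕ) : ℂ) * (L z).2 / (p (f z)).2)) • dif E u z) := by
      rw [← JP_smul]
      refine JP_congr_ker e₀ fun ξ hξ => ?_
      have h3 := g2 ξ hξ
      unfold WL
      show (L z).1 * dif E (fun z => (L z).2) z ξ - (L z).2 * dif E (fun z => (L z).1) z ξ =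
        u z ^ (k + 1 - 1) * ((u z / (p (f z)).2) * dif E (fun z => (L z).2) z ξ +
          (-1 * (((k + 1 : ℕ) : ℂ) * (L z).2 / (p (f z)).2)) * dif E u z ξ)
      rw [Nat.add_sub_cancel] at h3 ⊢
      field_simp
      rw [pow_succ] at g3'
      linear_combination (-(L z).2) * h3 + dif E (fun z => (L z).2) z ξ * g3'
    rw [e1]
    linear_combination (u z ^ (k + 1 - 1)) * g1

end B

end Vale.Agent.P281.ELL
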