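import Vale.Agent.P281.ELL.CovDef
import Vale.Agent.P281.MF.Up

/-!
# P281, branched fibrations: local shape of the relative forms
-/

open scoped Manifold ContDiff Topology
open Set Filter Metric

namespace Vale.Agent.P281.ELL

open Vale.Agent.P281 Vale.Agent.P281.MF Vale.Agent.P281.ISO

set_option linter.unusedSectionVars false
set_option linter.unusedVariables false

universe u

section Lin

variable {E E' : Type} [NormedAddCommGroup E] [NormedSpace ℂ E] [FiniteDimensional ℂ E]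
  [NormedAddCommGroup E'] [NormedSpace ℂ E'] [FiniteDimensional ℂ E']

theorem JP_zero_of (e : E ≃L[ℂ] (E' × ℂ)) {A : E →L[ℂ] E'} {P : E →L[ℂ] ℂ} {ξ : E} (h0 : ξ ≠ 0)
    (h1 : A ξ = 0) (h2 : P ξ = 0) : JP e A P = 0 := by
  by_contra h
  unfold JP at h
  have h3 : IsUnit (((A.prod P).comp (e.symm : (E' × ℂ) →L[ℂ] E) :
      (E' × ℂ) →L[ℂ] (E' × ℂ)) : (E' × ℂ) →ₗ[ℂ] (E' × ℂ)) :=
    (LinearMap.isUnit_iff_isUnit_det _).2 (isUnit_iff_ne_zero.2 h)
  have h4 := (LinearMap.isUnit_iff_ker_eq_bot _).1 h3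
  have h5 : e ξ ∈ LinearMap.ker (((A.prod P).comp (e.symm : (E' × ℂ) →L[ℂ] E) :
      (E' × ℂ) →L[ℂ] (E' × ℂ)) : (E' × ℂ) →ₗ[ℂ] (E' × ℂ)) := by
    rw [LinearMap.mem_ker]
    show (A (e.symm (e ξ)), P (e.symm (e ξ))) = 0
    rw [e.symm_apply_apply, h1, h2]
    rfl
  rw [h4] at h5
  exact h0 ((map_eq_zero_iff e e.injective).1 ((Submodule.mem_bot ℂ).1 h5))

theorem exists_ker (e : E ≃L[ℂ] (E' × ℂ)) (A : E →L[ℂ] E') : ∃ ξ : E, ξ ≠ 0 ∧ A ξ = 0 := by
  by_contra hcon
  push Not at hcon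
  have h1 : Function.Injective ((A : E →L[ℂ] E') : E →ₗ[ℂ] E') := by
    rw [injective_iff_map_eq_zero]
    intro ξ hξ
    by_contra h0
    exact hcon ξ h0 hξ
  have h2 := LinearMap.finrank_le_finrank_of_injective h1
  have h3 := e.toLinearEquiv.finrank_eq
  rw [Module.finrank_prod, Module.finrank_self] at h3
  omega

theorem JP_ker (e : E ≃L[ℂ] (E' × ℂ)) {A : E →L[ℂ] E'} {P P' : E →L[ℂ] ℂ}
    (h : ∀ ξ, A ξ = 0 → P ξ = P' ξ) : JP e A P = JP e A P' := by
  obtain ⟨ξ, hξ0, hξ⟩ := exists_ker e A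
  by_cases hc : P ξ = 0
  · rw [JP_zero_of e hξ0 hξ hc, JP_zero_of e hξ0 hξ (by rw [← h ξ hξ]; exact hc)]
  · have hc' : P' ξ ≠ 0 := by rw [← h ξ hξ]; exact hc
    refine JP_indep e (t := (ContinuousLinearMap.id ℂ ℂ).smulRight ((P ξ)⁻¹ • ξ)) ?_ ?_ ?_
    · intro v; simp [hξ]
    · intro v; simp [← h ξ hξ, hc]
    · intro v; simp [hc]

theorem JP_smul (e : E ≃L[ℂ] (E' × ℂ)) (c : ℂ) (A : E →L[ℂ] E') (P : E →L[ℂ] ℂ) :
    JP e A (c • P) = c * JP e A P := by
  have h := JP_left e A P (ContinuousLinearMap.id ℂ E') (c • ContinuousLinearMap.id ℂ ℂ)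
  have h1 : (ContinuousLinearMap.id ℂ E').comp A = A := by ext x; rfl
  have h2 : (c • ContinuousLinearMap.id ℂ ℂ).comp P = c • P := by ext x; rfl
  have h3 : (c • ContinuousLinearMap.id ℂ ℂ).det = c := by
    show LinearMap.det (c • (LinearMap.id : ℂ →ₗ[ℂ] ℂ)) = c
    rw [LinearMap.det_smul, LinearMap.det_id, Module.finrank_self, pow_one, mul_one]
  rw [h1, h2, h3, det_id', one_mul] at h
  exact h

end Lin

section Man

variable {E E' : Type} [NormedAddCommGroup E] [NormedSpace ℂ E] [FiniteDimensional ℂ E]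
  [NormedAddCommGroup E'] [NormedSpace ℂ E'] [FiniteDimensional ℂ E']
variable {X Y : Type u} [TopologicalSpace X] [ChartedSpace E X] [IsManifold 𝓘(ℂ, E) ω X]
  [TopologicalSpace Y] [ChartedSpace E' Y] [IsManifold 𝓘(ℂ, E') ω Y]

theorem dif_addC {g h : X → ℂ} {p : X} (hg : HolV E g p) (hh : HolV E h p) :
    dif E (fun w => g w + h w) p = dif E g p + dif E h p := by
  have h1 := (hg.mdiff.hasMFDerivAt.add hh.mdiff.hasMFDerivAt).mfderiv
  exact h1

theorem dif_mulC {g h : X → ℂ} {p : X} (hg : HolV E g p) (hh : HolV E h p) (ξ : E) :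
    dif E (fun w => g w * h w) p ξ = g p * dif E h p ξ + dif E g p ξ * h p := by
  have h1 := dV_smul (E := E) (lam := g) (v := h) hg hh
  have h2 := congrArg (fun T : E →L[ℂ] ℂ => T ξ) h1
  exact h2

/-- the Wronskian near a point over a branch point. -/
theorem wronsk (e₀ : E ≃L[ℂ] (E' × ℂ)) {f : X → Y} {z : X} (hf : HolM E E' f z) {l1 l2 : X → ℂ}
    (h1 : HolV E l1 z) (h2 : HolV E l2 z) {q1 q2 : Y → ℂ}
    (hq1 : HolV E' q1 (f z)) (hq2 : HolV E' q2 (f z)) {u : X → ℂ} (hu : HolV E u z) {m : ℕ}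
    (hrel : ∀ᶠ z' in 𝓝 z, l1 z' * q2 (f z') = l2 z' * q1 (f z') + u z' ^ (m + 1)) :
    q1 (f z) * JP e₀ (dM E E' f z) (l1 z • dif E l2 z - l2 z • dif E l1 z) =
      u z ^ m * JP e₀ (dM E E' f z)
        (u z • dif E l1 z + (-((m + 1 : ℕ) : ℂ) * l1 z) • dif E u z) ∧
    q2 (f z) * JP e₀ (dM E E' f z) (l1 z • dif E l2 z - l2 z • dif E l1 z) =
      u z ^ m * JP e₀ (dM E E' f z)
        (u z • dif E l2 z + (-((m + 1 : ℕ) : ℂ) * l2 z) • dif E u z) := by
  have hQ1 : HolV E (fun z => q1 (f z)) z := HolV.comp (E' := E') (h := q1) hq1 hf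
  have hQ2 : HolV E (fun z => q2 (f z)) z := HolV.comp (E' := E') (h := q2) hq2 hf
  have hz := hrel.self_of_nhds
  have hd : ∀ ξ, dM E E' f z ξ = 0 → dif E l1 z ξ * q2 (f z) =
      dif E l2 z ξ * q1 (f z) + ((m + 1 : ℕ) : ℂ) * u z ^ m * dif E u z ξ := by
    intro ξ hξ
    have e1 : dif E (fun z' => l1 z' * q2 (f z')) z =
        dif E (fun z' => l2 z' * q1 (f z') + u z' ^ (m + 1)) z := by
      unfold dif
      exact Filter.EventuallyEq.mfderiv_eq hrel
    rw [dif_addC (h2.mul hQ1) (hu.pow (m + 1)), dif_pow hu (m + 1)] at e1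
    have e2 := congrArg (fun T : E →L[ℂ] ℂ => T ξ) e1
    have e3 : dif E (fun z => q1 (f z)) z ξ = 0 := by
      rw [dif_comp hq1 hf]
      show dif E' q1 (f z) (dM E E' f z ξ) = 0
      rw [hξ, map_zero]
    have e4 : dif E (fun z => q2 (f z)) z ξ = 0 := by
      rw [dif_comp hq2 hf]
      show dif E' q2 (f z) (dM E E' f z ξ) = 0
      rw [hξ, map_zero]
    have e5 : dif E (fun z' => l1 z' * q2 (f z')) z ξ =
        dif E (fun z' => l2 z' * q1 (f z')) z ξ +
          (((m + 1 : ℕ) : ℂ) * u z ^ (m + 1 - 1)) * dif E u z ξ := e2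
    rw [dif_mulC h1 hQ2, dif_mulC h2 hQ1, e3, e4, Nat.add_sub_cancel] at e5
    linear_combination e5
  constructor
  · rw [← JP_smul, ← JP_smul]
    refine JP_ker e₀ fun ξ hξ => ?_
    have h3 := hd ξ hξ
    show q1 (f z) * (l1 z * dif E l2 z ξ - l2 z * dif E l1 z ξ) =
      u z ^ m * (u z * dif E l1 z ξ + (-((m + 1 : ℕ) : ℂ) * l1 z) * dif E u z ξ)
    linear_combination (-(l1 z)) * h3 + dif E l1 z ξ * hz
  · rw [← JP_smul, ← JP_smul]
    refine JP_ker e₀ fun ξ hξ => ?_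
    have h3 := hd ξ hξ
    show q2 (f z) * (l1 z * dif E l2 z ξ - l2 z * dif E l1 z ξ) =
      u z ^ m * (u z * dif E l2 z ξ + (-((m + 1 : ℕ) : ℂ) * l2 z) * dif E u z ξ)
    linear_combination (-(l2 z)) * h3 + dif E l2 z ξ * hz

/-- holomorphic representation of `det (df, form)`. -/
theorem form_rep (e₀ : E ≃L[ℂ] (E' × ℂ)) {f : X → Y} (hf : ∀ x, HolM E E' f x) {x₀ x : X}
    {y₀ : Y} (hx₀ : x ∈ (chartAt E x₀).source) (hy₀ : f x ∈ (chartAt E' y₀).source)
    {g1 h1 g2 h2 : X → ℂ} (hg1 : HolV E g1 x) (hh1 : HolV E h1 x) (hg2 : HolV E g2 x)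
    (hh2 : HolV E h2 x) :
    ∃ J : X → ℂ, HolV E J x ∧ ∀ᶠ z in 𝓝 x, J z * jac E (chartAt E x₀) z =
      jac E' (chartAt E' y₀) (f z) *
        JP e₀ (dM E E' f z) (g1 z • dif E h1 z + g2 z • dif E h2 z) := by
  set φ := chartAt E x₀ with hφ
  set ψ := chartAt E' y₀ with hψ
  have hfc : ContinuousAt f x := (hf x).continuousAt
  let A₁ : X → E' := fun x => ψ (f x)
  have hA₁ : HolV E A₁ x := HolV.comp (h := (ψ : Y → E')) (HolV.chart hy₀) (hf x)
  let A : X → (E →L[ℂ] E') := fun z => fderiv ℂ (A₁ ∘ φ.symm) (φ z)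
  let P1 : X → (E →L[ℂ] ℂ) := fun z => fderiv ℂ (h1 ∘ φ.symm) (φ z)
  let P2 : X → (E →L[ℂ] ℂ) := fun z => fderiv ℂ (h2 ∘ φ.symm) (φ z)
  have hA : HolV E A x := by
    refine HolV.comp_contDiff (G := fderiv ℂ (A₁ ∘ φ.symm)) ?_ (HolV.chart hx₀)
    exact (hA₁.rep hx₀).fderiv_right (by simp)
  have hP1 : HolV E P1 x := by
    refine HolV.comp_contDiff (G := fderiv ℂ (h1 ∘ φ.symm)) ?_ (HolV.chart hx₀)
    exact (hh1.rep hx₀).fderiv_right (by simp)
  have hP2 : HolV E P2 x := by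
    refine HolV.comp_contDiff (G := fderiv ℂ (h2 ∘ φ.symm)) ?_ (HolV.chart hx₀)
    exact (hh2.rep hx₀).fderiv_right (by simp)
  have hP : HolV E (fun z => g1 z • P1 z + g2 z • P2 z) x := (hg1.smul hP1).add (hg2.smul hP2)
  have hM := holV_JP e₀ hA hP
  have hJ : HolV E (fun z => JP e₀ (A z) (g1 z • P1 z + g2 z • P2 z)) x :=
    HolV.comp_contDiff contDiff_det.contDiffAt hM
  refine ⟨fun z => JP e₀ (A z) (g1 z • P1 z + g2 z • P2 z), hJ, ?_⟩
  filter_upwards [hA₁.eventually, hh1.eventually, hh2.eventually, φ.open_source.mem_nhds hx₀,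
    hfc.eventually (ψ.open_source.mem_nhds hy₀)] with z h2' h3 h3' h4 h5
  have h8 : (dV E' (ψ : Y → E') (f z)).comp (dM E E' f z) =
      (A z).comp (dV E (φ : X → E) z) := by
    have h9 := dV_comp (h := (ψ : Y → E')) (HolV.chart h5) (hf z)
    rw [← h9]
    exact dV_eq_chart h4 h2'
  have h10 : (ContinuousLinearMap.id ℂ ℂ).comp (g1 z • dif E h1 z + g2 z • dif E h2 z) =
      (g1 z • P1 z + g2 z • P2 z).comp (dV E (φ : X → E) z) := by
    rw [ContinuousLinearMap.id_comp]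
    have e1 : dif E h1 z = (P1 z).comp (dV E (φ : X → E) z) := dV_eq_chart h4 h3
    have e2 : dif E h2 z = (P2 z).comp (dV E (φ : X → E) z) := dV_eq_chart h4 h3'
    rw [e1, e2]
    ext ξ
    rfl
  have h11 := JP_left e₀ (dM E E' f z) (g1 z • dif E h1 z + g2 z • dif E h2 z)
    (dV E' (ψ : Y → E') (f z)) (ContinuousLinearMap.id ℂ ℂ)
  rw [h8, h10, JP_comp, det_id', mul_one] at h11
  exact h11

/-- the product of the local equations contains the required power of `u`. -/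
theorem px_factor {K : Set X → ℕ} {T : Finset (Set X)} {eD : Set X → X → ℂ} {x : X}
    (hT : ∀ D, K D ≠ 0 → D ∈ T) (heD : ∀ D ∈ T, IsLocalEq E D (eD D) x) {D₀ : Set X} {u : X → ℂ}
    (hu : IsLocalEq E D₀ u x) {M : ℕ} (hM : M ≤ K D₀) :
    ∃ R : X → ℂ, HolV E R x ∧ ∀ᶠ z in 𝓝 x, ∏ D ∈ T, eD D z ^ K D = u z ^ M * R z := by
  classical
  by_cases h0 : K D₀ = 0
  · have hM0 : M = 0 := by omega
    refine ⟨fun z => ∏ D ∈ T, eD D z ^ K D, HolV.prod fun D hD => ((heD D hD).holAt).pow (K D),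
      Eventually.of_forall fun z => ?_⟩
    rw [hM0, pow_zero, one_mul]
  · have hD₀ : D₀ ∈ T := hT D₀ h0
    obtain ⟨v, hv, -, hve⟩ := leq_unit hu (heD D₀ hD₀)
    refine ⟨fun z => u z ^ (K D₀ - M) * v z ^ K D₀ * ∏ D ∈ T.erase D₀, eD D z ^ K D,
      ((hu.holAt.pow (K D₀ - M)).mul (hv.pow (K D₀))).mul
        (HolV.prod fun D hD => ((heD D (Finset.mem_of_mem_erase hD)).holAt).pow (K D)), ?_⟩
    filter_upwards [hve] with z hz
    rw [← Finset.mul_prod_erase T (fun D => eD D z ^ K D) hD₀, hz, mul_pow]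
    obtain ⟨r, hr⟩ := Nat.exists_eq_add_of_le hM
    rw [hr, Nat.add_sub_cancel_left]
    ring

end Man

/-- algebra of one row of the product. -/
theorem row_eq {d : ℕ} {k i : Fin d} (hik : i ≠ k) {w h : Fin d → ℂ} {u : ℂ} {m : ℕ}
    (hk : u * w k = h k) (ho : ∀ j, j ≠ i → j ≠ k → w j = u ^ m * h j) :
    u * ∏ j ∈ Finset.univ.erase i, w j =
      u ^ (m * (d - 2)) * ∏ j ∈ Finset.univ.erase i, h j := by
  classical
  have hmem : k ∈ Finset.univ.erase i := Finset.mem_erase.2 ⟨hik.symm, Finset.mem_univ _⟩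
  rw [← Finset.mul_prod_erase _ w hmem, ← Finset.mul_prod_erase _ h hmem]
  have h1 : ∏ j ∈ (Finset.univ.erase i).erase k, w j =
      ∏ j ∈ (Finset.univ.erase i).erase k, (u ^ m * h j) := by
    refine Finset.prod_congr rfl fun j hj => ?_
    have h2 := Finset.mem_erase.1 hj
    exact ho j (Finset.mem_erase.1 h2.2).1 h2.1
  rw [h1, Finset.prod_mul_distrib, Finset.prod_const, Finset.card_erase_of_mem hmem,
    Finset.card_erase_of_mem (Finset.mem_univ _), Finset.card_univ, Fintype.card_fin,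
    ← mul_assoc, hk, ← pow_mul, Nat.sub_sub]
  ring

theorem row_k {d : ℕ} {k : Fin d} {w h : Fin d → ℂ} {u : ℂ}
    (ho : ∀ j, j ≠ k → u * w j = h j) :
    u ^ (d - 1) * ∏ j ∈ Finset.univ.erase k, w j = ∏ j ∈ Finset.univ.erase k, h j := by
  classical
  have h1 : (u ^ (d - 1)) = ∏ _j ∈ Finset.univ.erase k, u := by
    rw [Finset.prod_const, Finset.card_erase_of_mem (Finset.mem_univ _), Finset.card_univ,
      Fintype.card_fin]
  rw [h1, ← Finset.prod_mul_distrib]
  exact Finset.prod_congr rfl fun j hj => ho j (Finset.mem_erase.1 hj).1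

/-- algebra of the products near a branch point. -/
theorem prod_alg {d : ℕ} (hd : 2 ≤ d) {k : Fin d} {w h : Fin d → Fin d → ℂ} {u : ℂ} {m : ℕ}
    (hkj : ∀ j, j ≠ k → u * w k j = h k j) (hik : ∀ i, i ≠ k → u * w i k = h i k)
    (ho : ∀ i j, i ≠ k → j ≠ k → j ≠ i → w i j = u ^ m * h i j) :
    u ^ (2 * (d - 1)) * (∏ i, ∏ j ∈ Finset.univ.erase i, w i j) =
      u ^ (m * (d - 1) * (d - 2)) * (∏ i, ∏ j ∈ Finset.univ.erase i, h i j) ∧
    u ^ (d * (d - 1)) * (∑ i, (∏ j ∈ Finset.univ.erase i, w i j) ^ d) =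
      (∏ j ∈ Finset.univ.erase k, h k j) ^ d + ∑ i ∈ Finset.univ.erase k,
        u ^ (d * (d - 2)) * (u ^ (m * (d - 2)) * ∏ j ∈ Finset.univ.erase i, h i j) ^ d := by
  classical
  have hrk := row_k (w := w k) (h := h k) (u := u) (k := k) hkj
  have hri : ∀ i, i ≠ k → u * ∏ j ∈ Finset.univ.erase i, w i j =
      u ^ (m * (d - 2)) * ∏ j ∈ Finset.univ.erase i, h i j := fun i hi =>
    row_eq hi (hik i hi) fun j hj1 hj2 => ho i j hi hj2 hj1
  obtain ⟨d', rfl⟩ : ∃ d', d = d' + 2 := ⟨d - 2, by omega⟩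
  have hs1 : d' + 2 - 1 = d' + 1 := rfl
  have hs2 : d' + 2 - 2 = d' := rfl
  rw [hs2] at hri
  rw [hs1] at hrk
  rw [hs1, hs2]
  constructor
  · rw [← Finset.mul_prod_erase Finset.univ (fun i => ∏ j ∈ Finset.univ.erase i, w i j)
      (Finset.mem_univ k), ← Finset.mul_prod_erase Finset.univ
      (fun i => ∏ j ∈ Finset.univ.erase i, h i j) (Finset.mem_univ k), ← hrk]
    have h1 : ∏ i ∈ Finset.univ.erase k, (u * ∏ j ∈ Finset.univ.erase i, w i j) =
        ∏ i ∈ Finset.univ.erase k, (u ^ (m * d') * ∏ j ∈ Finset.univ.erase i, h i j) :=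
      Finset.prod_congr rfl fun i hi => hri i (Finset.mem_erase.1 hi).1
    rw [Finset.prod_mul_distrib, Finset.prod_mul_distrib, Finset.prod_const, Finset.prod_const,
      Finset.card_erase_of_mem (Finset.mem_univ _), Finset.card_univ, Fintype.card_fin,
      hs1] at h1
    have e1 : u ^ (2 * (d' + 1)) = u ^ (d' + 1) * u ^ (d' + 1) := by rw [two_mul, pow_add]
    have e2 : u ^ (m * (d' + 1) * d') = (u ^ (m * d')) ^ (d' + 1) := by
      rw [← pow_mul]; congr 1; ring
    rw [e1, e2]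
    linear_combination (u ^ (d' + 1) * ∏ j ∈ Finset.univ.erase k, w k j) * h1
  · rw [← Finset.add_sum_erase Finset.univ
      (fun i => (∏ j ∈ Finset.univ.erase i, w i j) ^ (d' + 2)) (Finset.mem_univ k), mul_add,
      Finset.mul_sum]
    congr 1
    · rw [← hrk, mul_pow, ← pow_mul]
      congr 2
      ring
    · refine Finset.sum_congr rfl fun i hi => ?_
      rw [← hri i (Finset.mem_erase.1 hi).1, mul_pow, ← mul_assoc, ← pow_add]
      congr 2

theorem scale_prod {d : ℕ} (c : ℂ) (F : Fin d → Fin d → ℂ) :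
    ∏ i, ∏ j ∈ Finset.univ.erase i, (c * F i j) =
      c ^ (d * (d - 1)) * ∏ i, ∏ j ∈ Finset.univ.erase i, F i j := by
  classical
  have h1 : ∀ i : Fin d, ∏ j ∈ Finset.univ.erase i, (c * F i j) =
      c ^ (d - 1) * ∏ j ∈ Finset.univ.erase i, F i j := fun i => by
    rw [Finset.prod_mul_distrib, Finset.prod_const,
      Finset.card_erase_of_mem (Finset.mem_univ _), Finset.card_univ, Fintype.card_fin]
  rw [Finset.prod_congr rfl fun i _ => h1 i, Finset.prod_mul_distrib, Finset.prod_const,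
    Finset.card_univ, Fintype.card_fin, ← pow_mul, mul_comm (d - 1) d]

theorem scale_sum {d : ℕ} (c : ℂ) (F : Fin d → Fin d → ℂ) :
    ∑ i, (∏ j ∈ Finset.univ.erase i, (c * F i j)) ^ d =
      c ^ (d * (d - 1)) * ∑ i, (∏ j ∈ Finset.univ.erase i, F i j) ^ d := by
  classical
  rw [Finset.mul_sum]
  refine Finset.sum_congr rfl fun i _ => ?_
  rw [Finset.prod_mul_distrib, Finset.prod_const,
      Finset.card_erase_of_mem (Finset.mem_univ _), Finset.card_univ, Fintype.card_fin, mul_pow,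
      ← pow_mul, mul_comm (d - 1) d]

theorem wedge_ne_of {c L p : ℂ × ℂ} (hc : c ≠ 0) (hcL : J.wedge c L = 0)
    (hLp : J.wedge L p ≠ 0) : J.wedge c p ≠ 0 := by
  intro h0
  unfold J.wedge at h0 hcL hLp
  have h1 : c.1 * (L.1 * p.2 - L.2 * p.1) = 0 := by linear_combination L.1 * h0 - p.1 * hcL
  have h2 : c.2 * (L.1 * p.2 - L.2 * p.1) = 0 := by linear_combination L.2 * h0 - p.2 * hcL
  apply hc
  ext
  · exact (mul_eq_zero.1 h1).resolve_right hLp
  · exact (mul_eq_zero.1 h2).resolve_right hLp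

theorem wedge_zero_of {L p q : ℂ × ℂ} (hL : L ≠ 0) (h1 : J.wedge L p = 0)
    (h2 : J.wedge L q = 0) : J.wedge p q = 0 := by
  by_contra h0
  unfold J.wedge at h1 h2 h0
  have h3 : L.1 * (p.1 * q.2 - p.2 * q.1) = 0 := by linear_combination p.1 * h2 - q.1 * h1
  have h4 : L.2 * (p.1 * q.2 - p.2 * q.1) = 0 := by linear_combination p.2 * h2 - q.2 * h1
  apply hL
  ext
  · exact (mul_eq_zero.1 h3).resolve_right h0
  · exact (mul_eq_zero.1 h4).resolve_right h0

/-- cancellation of the powers of `u`. -/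
theorem cancel_alg {u th s t s' : ℂ} (hu : u ≠ 0) {al be N b M : ℕ}
    (h1 : u ^ be * th = u ^ al * t) (h2 : u ^ N * s = s')
    (hM : be * b + N ≤ M + al * b) :
    u ^ M * (th ^ b * s) = u ^ (M + al * b - (be * b + N)) * (t ^ b * s') := by
  obtain ⟨r, hr⟩ := Nat.exists_eq_add_of_le hM
  rw [hr, Nat.add_sub_cancel_left]
  have h3 : u ^ (be * b + N) ≠ 0 := pow_ne_zero _ hu
  apply mul_left_cancel₀ h3
  calc u ^ (be * b + N) * (u ^ M * (th ^ b * s))
      = u ^ M * (u ^ be * th) ^ b * (u ^ N * s) := by rw [pow_add, pow_mul]; ring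
    _ = u ^ M * (u ^ al * t) ^ b * s' := by rw [h1, h2]
    _ = u ^ (M + al * b) * (t ^ b * s') := by rw [pow_add, pow_mul]; ring
    _ = u ^ (be * b + N) * (u ^ r * (t ^ b * s')) := by rw [hr, pow_add]; ring

section Main

variable {E E' : Type} [NormedAddCommGroup E] [NormedSpace ℂ E] [FiniteDimensional ℂ E]
  [NormedAddCommGroup E'] [NormedSpace ℂ E'] [FiniteDimensional ℂ E']
variable {X Y : Type u} [TopologicalSpace X] [ChartedSpace E X] [IsManifold 𝓘(ℂ, E) ω X]
  [TopologicalSpace Y] [ChartedSpace E' Y] [IsManifold 𝓘(ℂ, E') ω Y]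

theorem neg_form (a b : ℂ) (P Q : E →L[ℂ] ℂ) : a • P - b • Q = a • P + (-b) • Q := by
  refine ContinuousLinearMap.ext fun ξ => ?_
  show a * P ξ - b * Q ξ = a * P ξ + (-b) * Q ξ
  ring

theorem hol_wedge {v w : X → ℂ × ℂ} {x : X} (hv1 : HolV E (fun z => (v z).1) x)
    (hv2 : HolV E (fun z => (v z).2) x) (hw1 : HolV E (fun z => (w z).1) x)
    (hw2 : HolV E (fun z => (w z).2) x) : HolV E (fun z => J.wedge (v z) (w z)) x := by
  have h1 := (hv1.mul hw2).add ((HolV.const (-1 : ℂ) x).mul (hv2.mul hw1))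
  refine h1.congr (Eventually.of_forall fun z => ?_)
  show (v z).1 * (w z).2 - (v z).2 * (w z).1 = (v z).1 * (w z).2 + -1 * ((v z).2 * (w z).1)
  ring

theorem cov_local {f : X → Y} (hf : ∀ x, HolM E E' f x) {S : Set Y} {n e d : ℕ}
    {𝒲 : Set (Set X)} {ι : Type u} {U : ι → Set Y} {p : ι → Fin d → Y → ℂ × ℂ}
    {c : ι → X → ℂ × ℂ} (h : J.IsBranchedOver E E' f S n e d 𝒲 U p c) (hd : 2 ≤ d)
    (e₀ : E ≃L[ℂ] (E' × ℂ)) {Θ Ψ : X → ℂ}
    (hC : ∀ a x, f x ∈ U a → (∀ k, J.wedge (c a x) (p a k (f x)) ≠ 0) → ∀ L : X → ℂ × ℂ,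
      HolV E (fun z => (L z).1) x → HolV E (fun z => (L z).2) x → L x ≠ 0 →
      (∀ᶠ z in 𝓝 x, J.wedge (c a z) (L z) = 0) →
      Θ x = (∏ i, ∏ j ∈ Finset.univ.erase i, ww e₀ f (p a) L x i j) ∧
      Ψ x = ∑ i, (∏ j ∈ Finset.univ.erase i, ww e₀ f (p a) L x i j) ^ d)
    {B : ℕ} (hB : 1 ≤ B) {K : Set X → ℕ}
    (hK : ∀ D ∈ 𝒲, (d - 1) * ((B - 1) * 2 + d) - (d - 1) * (B - 1) * (e - 1) * (d - 2) ≤ K D)
    (x₀ x : X) (y₀ : Y) (hx : f x ∉ S) (hx₀ : x ∈ (chartAt E x₀).source)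
    (hy₀ : f x ∈ (chartAt E' y₀).source) (T : Finset (Set X)) (eD : Set X → X → ℂ)
    (hT : ∀ D, K D ≠ 0 → D ∈ T) (heD : ∀ D ∈ T, IsLocalEq E D (eD D) x) :
    (∃ H : X → ℂ, HolV E H x ∧ ∀ᶠ z in 𝓝 x, (∀ D ∈ 𝒲, z ∉ D) → ∏ D ∈ T, eD D z ^ K D ≠ 0 →
      jac E' (chartAt E' y₀) (f z) ^ (B * d * (d - 1)) * (Θ z ^ (B - 1) * Ψ z) *
        ∏ D ∈ T, eD D z ^ K D = H z * jac E (chartAt E x₀) z ^ (B * d * (d - 1))) ∧
    (∃ H : X → ℂ, HolV E H x ∧ ∀ᶠ z in 𝓝 x, (∀ D ∈ 𝒲, z ∉ D) → ∏ D ∈ T, eD D z ^ K D ≠ 0 →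
      jac E' (chartAt E' y₀) (f z) ^ (B * d * (d - 1)) * Θ z ^ B *
        ∏ D ∈ T, eD D z ^ K D = H z * jac E (chartAt E x₀) z ^ (B * d * (d - 1))) := by
  classical
  obtain ⟨b, rfl⟩ : ∃ b, B = b + 1 := ⟨B - 1, by omega⟩
  rw [Nat.add_sub_cancel] at hK ⊢
  obtain ⟨a, ha⟩ := (h.cover (f x)).1 hx
  obtain ⟨hcx, L, hL1, hL2, hL0, hcL, -, hbr⟩ := h.lift a x ha
  have hL1 : HolV E (fun z => (L z).1) x := hL1
  have hL2 : HolV E (fun z => (L z).2) x := hL2
  have hfc : ContinuousAt f x := (hf x).continuousAt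
  set φ := chartAt E x₀ with hφ
  set ψ := chartAt E' y₀ with hψ
  have hp1 : ∀ i, HolV E (fun z => (p a i (f z)).1) x := fun i =>
    HolV.comp (E' := E') (h := fun y => (p a i y).1) (h.branch a i (f x) ha).1 (hf x)
  have hp2 : ∀ i, HolV E (fun z => (p a i (f z)).2) x := fun i =>
    HolV.comp (E' := E') (h := fun y => (p a i y).2) (h.branch a i (f x) ha).2 (hf x)
  set av : Fin d → X → ℂ := fun i z => J.wedge (L z) (p a i (f z)) with hav
  set wd : Fin d → Fin d → X → ℂ := fun i j z => J.wedge (p a i (f z)) (p a j (f z)) with hwd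
  have havh : ∀ i, HolV E (av i) x := fun i => hol_wedge hL1 hL2 (hp1 i) (hp2 i)
  have hwdh : ∀ i j, HolV E (wd i j) x := fun i j => hol_wedge (hp1 i) (hp2 i) (hp1 j) (hp2 j)
  have hnL2 : HolV E (fun z => -(L z).2) x := by
    refine ((HolV.const (-1 : ℂ) x).mul hL2).congr (Eventually.of_forall fun z => ?_)
    show -(L z).2 = -1 * (L z).2
    ring
  obtain ⟨JJ, hJJ, hJJe⟩ := form_rep e₀ hf hx₀ hy₀ (g1 := fun z => (L z).1)
    (h1 := fun z => (L z).2) (g2 := fun z => -(L z).2) (h2 := fun z => (L z).1) hL1 hL2 hnL2 hL1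
  set w : Fin d → Fin d → X → ℂ := fun i j z => wd i j z * JJ z / (av i z * av j z) with hw
  set th : X → ℂ := fun z => ∏ i, ∏ j ∈ Finset.univ.erase i, w i j z with hth
  set sm : X → ℂ := fun z => ∑ i, (∏ j ∈ Finset.univ.erase i, w i j z) ^ d with hsm
  have hWL : ∀ z, WL E L z = (L z).1 • dif E (fun z => (L z).2) z +
      (-(L z).2) • dif E (fun z => (L z).1) z := fun z => neg_form _ _ _ _
  -- the values near `x`
  have hL0e : ∀ᶠ z in 𝓝 x, L z ≠ 0 := by
    by_cases h0 : (L x).1 = 0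
    · have h1 : (L x).2 ≠ 0 := fun h1 => hL0 (Prod.ext h0 h1)
      filter_upwards [hL2.continuousAt.eventually_ne h1] with z hz hz0
      exact hz (by rw [hz0]; rfl)
    · filter_upwards [hL1.continuousAt.eventually_ne h0] with z hz hz0
      exact hz (by rw [hz0]; rfl)
  have hval : ∀ᶠ z in 𝓝 x, (∀ i, av i z ≠ 0) →
      jac E' ψ (f z) ^ (d * (d - 1)) * Θ z = jac E φ z ^ (d * (d - 1)) * th z ∧
      jac E' ψ (f z) ^ (d * (d - 1)) * Ψ z = jac E φ z ^ (d * (d - 1)) * sm z := by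
    filter_upwards [hJJe, hL1.eventually, hL2.eventually, hL0e, eventually_eventually_nhds.2 hcL,
      hfc.eventually ((h.isOpen a).mem_nhds ha)] with z h1 h2 h3 h4 h5 h6 h7
    obtain ⟨hΘ, hΨ⟩ := hC a z h6 (fun k => wedge_ne_of (h.lift a z h6).1 h5.self_of_nhds (h7 k))
      L h2 h3 h4 h5
    have hww : ∀ i j, jac E' ψ (f z) * ww e₀ f (p a) L z i j = jac E φ z * w i j z := by
      intro i j
      have h8 : jac E' ψ (f z) * JP e₀ (dM E E' f z) (WL E L z) = JJ z * jac E φ z := by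
        rw [hWL]; exact h1.symm
      show jac E' ψ (f z) * (wd i j z * JP e₀ (dM E E' f z) (WL E L z) / (av i z * av j z)) =
        jac E φ z * (wd i j z * JJ z / (av i z * av j z))
      calc jac E' ψ (f z) * (wd i j z * JP e₀ (dM E E' f z) (WL E L z) / (av i z * av j z))
          = wd i j z * (jac E' ψ (f z) * JP e₀ (dM E E' f z) (WL E L z)) /
            (av i z * av j z) := by ring
        _ = jac E φ z * (wd i j z * JJ z / (av i z * av j z)) := by rw [h8]; ring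
    constructor
    · rw [hΘ, ← scale_prod, ← scale_prod]
      exact Finset.prod_congr rfl fun i _ => Finset.prod_congr rfl fun j _ => hww i j
    · rw [hΨ, ← scale_sum, ← scale_sum]
      refine Finset.sum_congr rfl fun i _ => ?_
      congr 1
      exact Finset.prod_congr rfl fun j _ => hww i j
  -- it is enough to find the holomorphic functions
  suffices hG : ∃ G1 G2 : X → ℂ, HolV E G1 x ∧ HolV E G2 x ∧ ∀ᶠ z in 𝓝 x, (∀ D ∈ 𝒲, z ∉ D) →
      (∀ i, av i z ≠ 0) ∧ (th z ^ b * sm z) * ∏ D ∈ T, eD D z ^ K D = G1 z ∧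
      th z ^ (b + 1) * ∏ D ∈ T, eD D z ^ K D = G2 z by
    obtain ⟨G1, G2, hG1, hG2, hGe⟩ := hG
    have hexp : ∀ y : ℂ, y ^ ((b + 1) * d * (d - 1)) = (y ^ (d * (d - 1))) ^ (b + 1) := by
      intro y
      rw [← pow_mul]
      congr 1
      ring
    refine ⟨⟨G1, hG1, ?_⟩, ⟨G2, hG2, ?_⟩⟩
    · filter_upwards [hGe, hval] with z h1 h2 h3 h4
      obtain ⟨h5, h6, -⟩ := h1 h3
      obtain ⟨h7, h8⟩ := h2 h5
      rw [hexp, hexp, ← h6]
      calc (jac E' ψ (f z) ^ (d * (d - 1))) ^ (b + 1) * (Θ z ^ b * Ψ z) *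
            ∏ D ∈ T, eD D z ^ K D
          = (jac E' ψ (f z) ^ (d * (d - 1)) * Θ z) ^ b *
            (jac E' ψ (f z) ^ (d * (d - 1)) * Ψ z) * ∏ D ∈ T, eD D z ^ K D := by
            rw [pow_succ, mul_pow]; ring
        _ = _ := by rw [h7, h8, pow_succ, mul_pow]; ring
    · filter_upwards [hGe, hval] with z h1 h2 h3 h4
      obtain ⟨h5, -, h6⟩ := h1 h3
      obtain ⟨h7, h8⟩ := h2 h5
      rw [hexp, hexp, ← h6]
      calc (jac E' ψ (f z) ^ (d * (d - 1))) ^ (b + 1) * Θ z ^ (b + 1) *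
            ∏ D ∈ T, eD D z ^ K D
          = (jac E' ψ (f z) ^ (d * (d - 1)) * Θ z) ^ (b + 1) * ∏ D ∈ T, eD D z ^ K D := by
            rw [mul_pow]
        _ = _ := by rw [h7, mul_pow]; ring
  by_cases hall : ∀ i, av i x ≠ 0
  · -- away from the branch points
    have hwh : ∀ i j, HolV E (w i j) x := fun i j =>
      ((hwdh i j).mul hJJ).div ((havh i).mul (havh j)) (mul_ne_zero (hall i) (hall j))
    have hthh : HolV E th x := HolV.prod fun i _ => HolV.prod fun j _ => hwh i j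
    have hsmh : HolV E sm x := HolV.sum fun i _ => (HolV.prod fun j _ => hwh i j).pow d
    have hPX : HolV E (fun z => ∏ D ∈ T, eD D z ^ K D) x :=
      HolV.prod fun D hD => ((heD D hD).holAt).pow (K D)
    refine ⟨fun z => (th z ^ b * sm z) * ∏ D ∈ T, eD D z ^ K D,
      fun z => th z ^ (b + 1) * ∏ D ∈ T, eD D z ^ K D, ((hthh.pow b).mul hsmh).mul hPX,
      (hthh.pow (b + 1)).mul hPX, ?_⟩
    have hne : ∀ᶠ z in 𝓝 x, ∀ i, av i z ≠ 0 :=
      Filter.eventually_all.2 fun i => (havh i).continuousAt.eventually_ne (hall i)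
    filter_upwards [hne] with z hz _
    exact ⟨hz, rfl, rfl⟩
  · -- over a branch point
    push Not at hall
    obtain ⟨k, hk⟩ := hall
    obtain ⟨D₀, hD₀, u, hu, hue, -⟩ := hbr k hk
    have hu : IsLocalEq E D₀ u x := hu
    have huh : HolV E u x := hu.holAt
    have hux : u x ^ e = 0 := by rw [← hue.self_of_nhds]; exact hk
    have he0 : e ≠ 0 := by rintro rfl; simp at hux
    obtain ⟨m, rfl⟩ : ∃ m, e = m + 1 := ⟨e - 1, by omega⟩
    rw [Nat.add_sub_cancel] at hK
    have hdist : ∀ i, i ≠ k → av i x ≠ 0 := by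
      intro i hi h0
      exact h.distinct a k i (f x) ha hi.symm (wedge_zero_of hL0 hk h0)
    obtain ⟨i₁, hi₁⟩ : ∃ i₁ : Fin d, i₁ ≠ k := by
      by_cases h0 : k = ⟨0, by omega⟩
      · exact ⟨⟨1, by omega⟩, by rw [h0]; simp [Fin.ext_iff]⟩
      · exact ⟨⟨0, by omega⟩, fun h1 => h0 h1.symm⟩
    -- the Wronskian is divisible by `u ^ m`
    obtain ⟨g, hg, hge⟩ : ∃ g : X → ℂ, HolV E g x ∧ ∀ᶠ z in 𝓝 x, JJ z = u z ^ m * g z := by
      have hrel : ∀ᶠ z in 𝓝 x, ∀ᶠ z' in 𝓝 z, (L z').1 * (p a k (f z')).2 =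
          (L z').2 * (p a k (f z')).1 + u z' ^ (m + 1) := by
        refine eventually_eventually_nhds.2 (hue.mono fun z hz => ?_)
        have hz' : (L z).1 * (p a k (f z)).2 - (L z).2 * (p a k (f z)).1 = u z ^ (m + 1) := hz
        linear_combination hz'
      have hbk1 : ∀ᶠ z in 𝓝 x, HolV E' (fun y => (p a k y).1) (f z) :=
        (hfc.eventually ((h.isOpen a).mem_nhds ha)).mono fun z hz => (h.branch a k (f z) hz).1
      have hbk2 : ∀ᶠ z in 𝓝 x, HolV E' (fun y => (p a k y).2) (f z) :=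
        (hfc.eventually ((h.isOpen a).mem_nhds ha)).mono fun z hz => (h.branch a k (f z) hz).2
      have hjne : ∀ᶠ z in 𝓝 x, jac E φ z ≠ 0 := by
        filter_upwards [φ.open_source.mem_nhds hx₀] with z hz
        exact jac_chart_ne_zero hz
      have hq0 : (p a k (f x)).1 ≠ 0 ∨ (p a k (f x)).2 ≠ 0 := by
        by_contra hcon
        push Not at hcon
        apply h.distinct a k i₁ (f x) ha hi₁.symm
        unfold J.wedge
        rw [hcon.1, hcon.2]
        ring
      rcases hq0 with hq0 | hq0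
      · have hco : HolV E (fun z => -((m + 1 : ℕ) : ℂ) * (L z).1) x :=
          (HolV.const (-((m + 1 : ℕ) : ℂ)) x).mul hL1
        obtain ⟨J1, hJ1, hJ1e⟩ := form_rep e₀ hf hx₀ hy₀ (g1 := u)
          (h1 := fun z => (L z).1) (g2 := fun z => -((m + 1 : ℕ) : ℂ) * (L z).1) (h2 := u)
          huh hL1 hco huh
        refine ⟨fun z => J1 z / (p a k (f z)).1, hJ1.div (hp1 k) hq0, ?_⟩
        filter_upwards [hrel, hbk1, hbk2, hjne, hL1.eventually, hL2.eventually,
          huh.eventually, hJJe, hJ1e, (hp1 k).continuousAt.eventually_ne hq0]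
          with z h1 h2 h3 h4 h5 h6 h7 h8 h9 h10
        have h11 := (wronsk e₀ (hf z) h5 h6 h2 h3 h7 h1).1
        have h12 : JP e₀ (dM E E' f z) ((L z).1 • dif E (fun z => (L z).2) z -
            (L z).2 • dif E (fun z => (L z).1) z) = JP e₀ (dM E E' f z)
            ((L z).1 • dif E (fun z => (L z).2) z +
              (-(L z).2) • dif E (fun z => (L z).1) z) := by
          rw [neg_form]
        rw [h12] at h11
        have h13 : (p a k (f z)).1 * JJ z = u z ^ m * J1 z := by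
          apply mul_right_cancel₀ h4
          calc (p a k (f z)).1 * JJ z * jac E φ z
              = (p a k (f z)).1 * (JJ z * jac E φ z) := by ring
            _ = jac E' ψ (f z) * ((p a k (f z)).1 * JP e₀ (dM E E' f z)
                ((L z).1 • dif E (fun z => (L z).2) z +
                  (-(L z).2) • dif E (fun z => (L z).1) z)) := by rw [h8]; ring
            _ = u z ^ m * (J1 z * jac E φ z) := by rw [h11, h9]; ring
            _ = u z ^ m * J1 z * jac E φ z := by ring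
        have h10' : (p a k (f z)).1 ≠ 0 := h10
        field_simp
        linear_combination h13
      · have hco : HolV E (fun z => -((m + 1 : ℕ) : ℂ) * (L z).2) x :=
          (HolV.const (-((m + 1 : ℕ) : ℂ)) x).mul hL2
        obtain ⟨J1, hJ1, hJ1e⟩ := form_rep e₀ hf hx₀ hy₀ (g1 := u)
          (h1 := fun z => (L z).2) (g2 := fun z => -((m + 1 : ℕ) : ℂ) * (L z).2) (h2 := u)
          huh hL2 hco huh
        refine ⟨fun z => J1 z / (p a k (f z)).2, hJ1.div (hp2 k) hq0, ?_⟩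
        filter_upwards [hrel, hbk1, hbk2, hjne, hL1.eventually, hL2.eventually,
          huh.eventually, hJJe, hJ1e, (hp2 k).continuousAt.eventually_ne hq0]
          with z h1 h2 h3 h4 h5 h6 h7 h8 h9 h10
        have h11 := (wronsk e₀ (hf z) h5 h6 h2 h3 h7 h1).2
        have h12 : JP e₀ (dM E E' f z) ((L z).1 • dif E (fun z => (L z).2) z -
            (L z).2 • dif E (fun z => (L z).1) z) = JP e₀ (dM E E' f z)
            ((L z).1 • dif E (fun z => (L z).2) z +
              (-(L z).2) • dif E (fun z => (L z).1) z) := by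
          rw [neg_form]
        rw [h12] at h11
        have h13 : (p a k (f z)).2 * JJ z = u z ^ m * J1 z := by
          apply mul_right_cancel₀ h4
          calc (p a k (f z)).2 * JJ z * jac E φ z
              = (p a k (f z)).2 * (JJ z * jac E φ z) := by ring
            _ = jac E' ψ (f z) * ((p a k (f z)).2 * JP e₀ (dM E E' f z)
                ((L z).1 • dif E (fun z => (L z).2) z +
                  (-(L z).2) • dif E (fun z => (L z).1) z)) := by rw [h8]; ring
            _ = u z ^ m * (J1 z * jac E φ z) := by rw [h11, h9]; ring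
            _ = u z ^ m * J1 z * jac E φ z := by ring
        have h10' : (p a k (f z)).2 ≠ 0 := h10
        field_simp
        linear_combination h13
    -- the holomorphic factors
    set av' : Fin d → X → ℂ := fun i z => if i = k then 1 else av i z with hav'
    have hav'h : ∀ i, HolV E (av' i) x := fun i => by
      by_cases hi : i = k
      · simp only [hav', hi, if_true]; exact HolV.const 1 x
      · simp only [hav', hi, if_false]; exact havh i
    have hav'0 : ∀ i, av' i x ≠ 0 := fun i => by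
      by_cases hi : i = k
      · simp only [hav', hi, if_true]; exact one_ne_zero
      · simp only [hav', hi, if_false]; exact hdist i hi
    set hh : Fin d → Fin d → X → ℂ := fun i j z => wd i j z * g z / (av' i z * av' j z) with hhh
    have hhhh : ∀ i j, HolV E (hh i j) x := fun i j =>
      ((hwdh i j).mul hg).div ((hav'h i).mul (hav'h j)) (mul_ne_zero (hav'0 i) (hav'0 j))
    have hth' : HolV E (fun z => ∏ i, ∏ j ∈ Finset.univ.erase i, hh i j z) x :=
      HolV.prod fun i _ => HolV.prod fun j _ => hhhh i j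
    have hsm' : HolV E (fun z => (∏ j ∈ Finset.univ.erase k, hh k j z) ^ d +
        ∑ i ∈ Finset.univ.erase k,
        u z ^ (d * (d - 2)) * (u z ^ (m * (d - 2)) * ∏ j ∈ Finset.univ.erase i, hh i j z) ^ d)
        x := by
      refine ((HolV.prod fun j _ => hhhh k j).pow d).add (HolV.sum fun i _ => ?_)
      exact (huh.pow _).mul (((huh.pow _).mul (HolV.prod fun j _ => hhhh i j)).pow d)
    set M : ℕ := (d - 1) * (b * 2 + d) - (d - 1) * b * m * (d - 2) with hM
    obtain ⟨R, hR, hRe⟩ := px_factor hT heD hu (M := M) (hK D₀ hD₀)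
    have hM1 : (2 * (d - 1)) * b + d * (d - 1) ≤ M + (m * (d - 1) * (d - 2)) * b := by
      have e1 : (2 * (d - 1)) * b + d * (d - 1) = (d - 1) * (b * 2 + d) := by ring
      have e2 : (m * (d - 1) * (d - 2)) * b = (d - 1) * b * m * (d - 2) := by ring
      rw [e1, e2, hM]
      omega
    have hM2 : (2 * (d - 1)) * (b + 1) + 0 ≤ M + (m * (d - 1) * (d - 2)) * (b + 1) := by
      have e1 : 2 * (d - 1) ≤ d * (d - 1) := Nat.mul_le_mul_right _ hd
      have e2 : (2 * (d - 1)) * (b + 1) = (2 * (d - 1)) * b + 2 * (d - 1) := by ring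
      have e3 : (m * (d - 1) * (d - 2)) * (b + 1) =
        (m * (d - 1) * (d - 2)) * b + m * (d - 1) * (d - 2) := by ring
      rw [e2, e3]
      omega
    refine ⟨fun z => u z ^ (M + (m * (d - 1) * (d - 2)) * b -
        ((2 * (d - 1)) * b + d * (d - 1))) *
        ((∏ i, ∏ j ∈ Finset.univ.erase i, hh i j z) ^ b *
          ((∏ j ∈ Finset.univ.erase k, hh k j z) ^ d + ∑ i ∈ Finset.univ.erase k,
            u z ^ (d * (d - 2)) *
              (u z ^ (m * (d - 2)) * ∏ j ∈ Finset.univ.erase i, hh i j z) ^ d)) * R z,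
      fun z => u z ^ (M + (m * (d - 1) * (d - 2)) * (b + 1) - ((2 * (d - 1)) * (b + 1) + 0)) *
        ((∏ i, ∏ j ∈ Finset.univ.erase i, hh i j z) ^ (b + 1) * 1) * R z,
      ((huh.pow _).mul ((hth'.pow b).mul hsm')).mul hR,
      ((huh.pow _).mul ((hth'.pow (b + 1)).mul (HolV.const 1 x))).mul hR, ?_⟩
    have hne : ∀ᶠ z in 𝓝 x, ∀ i, i ≠ k → av i z ≠ 0 := by
      rw [Filter.eventually_all]
      intro i
      by_cases hi : i = k
      · exact Eventually.of_forall fun z h0 => absurd hi h0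
      · filter_upwards [(havh i).continuousAt.eventually_ne (hdist i hi)] with z hz _ using hz
    filter_upwards [hne, hue, hu.eventually, hge, hRe] with z h1 h2 h3 h4 h5 h6
    have hu0 : u z ≠ 0 := fun h0 => h6 D₀ hD₀ (h3.mem_iff.2 h0)
    have hak : av k z = u z ^ (m + 1) := h2
    have hav0 : ∀ i, av i z ≠ 0 := fun i => by
      by_cases hi : i = k
      · rw [hi, hak]; exact pow_ne_zero _ hu0
      · exact h1 i hi
    obtain ⟨hA, hS⟩ := prod_alg hd (k := k) (w := fun i j => w i j z) (h := fun i j => hh i j z)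
      (u := u z) (m := m) (by
        intro j hj
        have := h1 j hj
        simp only [hw, hhh, hav', if_true, hj, if_false]
        rw [h4, hak, pow_succ]
        field_simp) (by
        intro i hi
        have := h1 i hi
        simp only [hw, hhh, hav', if_true, hi, if_false]
        rw [h4, hak, pow_succ]
        field_simp) (by
        intro i j hi hj _
        have := h1 i hi
        have := h1 j hj
        simp only [hw, hhh, hav', hi, hj, if_false]
        rw [h4]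
        ring)
    refine ⟨hav0, ?_, ?_⟩
    · rw [h5]
      have h7 := cancel_alg hu0 (b := b) (M := M) hA hS hM1
      show (th z ^ b * sm z) * (u z ^ M * R z) = _
      rw [← h7]
      ring
    · rw [h5]
      have h7 := cancel_alg hu0 (b := b + 1) (M := M) (N := 0) (s := 1) (s' := 1) hA
        (by rw [pow_zero, one_mul]) hM2
      show th z ^ (b + 1) * (u z ^ M * R z) = _
      rw [← h7]
      ring

end Main

end Vale.Agent.P281.ELL
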