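import Vale.Agent.P281.ELL.CovAlg204
import Vale.Agent.P281.ELL.CovDef

/-!
# P281: branched families, the ratio of the two relative forms is not constant on the fibres
-/

open scoped Manifold ContDiff Topology
open Set Filter Metric

namespace Vale.Agent.P281.ELL

open Vale.Agent.P281 Vale.Agent.P281.MF Vale.Agent.P281.ISO

set_option linter.unusedSectionVars false

universe u

section Cov

variable {E E' : Type} [NormedAddCommGroup E] [NormedSpace ℂ E] [FiniteDimensional ℂ E]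
  [NormedAddCommGroup E'] [NormedSpace ℂ E'] [FiniteDimensional ℂ E']
variable {X Y : Type u} [TopologicalSpace X] [ChartedSpace E X] [IsManifold 𝓘(ℂ, E) ω X]
  [TopologicalSpace Y] [ChartedSpace E' Y] [IsManifold 𝓘(ℂ, E') ω Y]

theorem HolV.wedge {L M : X → ℂ × ℂ} {x : X} (h1 : HolV E (fun z => (L z).1) x)
    (h2 : HolV E (fun z => (L z).2) x) (h3 : HolV E (fun z => (M z).1) x)
    (h4 : HolV E (fun z => (M z).2) x) : HolV E (fun z => J.wedge (L z) (M z)) x := by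
  have h5 : HolV E (fun z => (L z).1 * (M z).2) x := h1.mul h4
  have h6 : HolV E (fun z => (L z).2 * (M z).1) x := h2.mul h3
  exact HolV.comp_contDiff (G := fun q : ℂ × ℂ => q.1 - q.2)
    (contDiffAt_fst.sub contDiffAt_snd) (h5.prodMk h6)

/-- the ratio, in terms of a local lift. -/
noncomputable def covR {d : ℕ} (f : X → Y) (p : Fin d → Y → ℂ × ℂ) (L : X → ℂ × ℂ) (z : X) : ℂ :=
  ∑ i, ((∏ j ∈ Finset.univ.erase i, J.wedge (p i (f z)) (p j (f z))) ^ d /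
      ∏ k, ∏ l ∈ Finset.univ.erase k, J.wedge (p k (f z)) (p l (f z))) *
    ((∏ k, J.wedge (L z) (p k (f z))) ^ (d - 2) / J.wedge (L z) (p i (f z)) ^ (d * (d - 2)))

theorem cov_facts {f : X → Y} {S : Set Y} {n e d : ℕ} {𝒲 : Set (Set X)} {ι : Type u}
    {U : ι → Set Y} {p : ι → Fin d → Y → ℂ × ℂ} {c : ι → X → ℂ × ℂ}
    (h : J.IsBranchedOver E E' f S n e d 𝒲 U p c) (hd : 3 ≤ d) (e₀ : E ≃L[ℂ] (E' × ℂ))
    {Θ Ψ : X → ℂ}
    (hΘΨ : ∀ a x, f x ∈ U a → (∀ k, J.wedge (c a x) (p a k (f x)) ≠ 0) → ∀ L : X → ℂ × ℂ,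
      HolV E (fun z => (L z).1) x → HolV E (fun z => (L z).2) x → L x ≠ 0 →
      (∀ᶠ z in 𝓝 x, J.wedge (c a z) (L z) = 0) →
      Θ x = (∏ i, ∏ j ∈ Finset.univ.erase i, ww e₀ f (p a) L x i j) ∧
      Ψ x = ∑ i, (∏ j ∈ Finset.univ.erase i, ww e₀ f (p a) L x i j) ^ d)
    {a : ι} {x : X} (hx : f x ∈ U a) (hk : ∀ k, J.wedge (c a x) (p a k (f x)) ≠ 0) :
    Θ x ≠ 0 ∧ ∀ L : X → ℂ × ℂ,
      HolV E (fun z => (L z).1) x → HolV E (fun z => (L z).2) x → L x ≠ 0 →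
      (∀ᶠ z in 𝓝 x, J.wedge (c a z) (L z) = 0) → Ψ x / Θ x = covR f (p a) L x := by
  have hq : ∀ i j, i ≠ j → J.wedge (p a i (f x)) (p a j (f x)) ≠ 0 := fun i j hij =>
    h.distinct a i j (f x) hx hij
  have hwL : ∀ L : X → ℂ × ℂ, L x ≠ 0 → J.wedge (c a x) (L x) = 0 →
      ∀ k, J.wedge (L x) (p a k (f x)) ≠ 0 := by
    intro L hL hcL k hcon
    exact hk k (nc_trans hL (nc_swap hcL) hcon)
  obtain ⟨hc0, L', hL1, hL2, hL0, hcL, hinj, -⟩ := h.lift a x hx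
  have hΘ0 : Θ x ≠ 0 := by
    rw [(hΘΨ a x hx hk L' hL1 hL2 hL0 hcL).1]
    refine Finset.prod_ne_zero_iff.2 fun i _ => Finset.prod_ne_zero_iff.2 fun j hj => ?_
    unfold ww
    have hwk := hwL L' hL0 hcL.self_of_nhds
    refine div_ne_zero (mul_ne_zero (hq i j (Finset.ne_of_mem_erase hj).symm) ?_)
      (mul_ne_zero (hwk i) (hwk j))
    refine JP_ne_of_inj e₀ fun ξ h1 h2 => ?_
    exact hinj hwk ξ h1 h2
  refine ⟨hΘ0, fun L h1 h2 h3 h4 => ?_⟩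
  obtain ⟨e1, e2⟩ := hΘΨ a x hx hk L h1 h2 h3 h4
  have hwk := hwL L h3 h4.self_of_nhds
  have hJ : JP e₀ (dM E E' f x) (WL E L x) ≠ 0 := by
    intro h0
    apply hΘ0
    rw [e1]
    have h01 : (⟨0, by omega⟩ : Fin d) ≠ ⟨1, by omega⟩ := by simp
    refine Finset.prod_eq_zero (Finset.mem_univ (⟨0, by omega⟩ : Fin d)) ?_
    refine Finset.prod_eq_zero (i := (⟨1, by omega⟩ : Fin d))
      (Finset.mem_erase.2 ⟨h01.symm, Finset.mem_univ _⟩) ?_
    unfold ww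
    rw [h0, mul_zero, zero_div]
  rw [e1, e2]
  exact cov_alg (by omega) hq hwk hJ

/-- The ratio of the two relative forms is not constant on the fibres. -/
theorem cov_nonconst {f : X → Y} (hf : ∀ x, HolM E E' f x) {S : Set Y} {n e d : ℕ}
    {𝒲 : Set (Set X)} {ι : Type u} {U : ι → Set Y} {p : ι → Fin d → Y → ℂ × ℂ}
    {c : ι → X → ℂ × ℂ} (h : J.IsBranchedOver E E' f S n e d 𝒲 U p c) (hd : 3 ≤ d)
    (e₀ : E ≃L[ℂ] (E' × ℂ)) {Θ Ψ : X → ℂ}
    (hΘΨ : ∀ a x, f x ∈ U a → (∀ k, J.wedge (c a x) (p a k (f x)) ≠ 0) → ∀ L : X → ℂ × ℂ,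
      HolV E (fun z => (L z).1) x → HolV E (fun z => (L z).2) x → L x ≠ 0 →
      (∀ᶠ z in 𝓝 x, J.wedge (c a z) (L z) = 0) →
      Θ x = (∏ i, ∏ j ∈ Finset.univ.erase i, ww e₀ f (p a) L x i j) ∧
      Ψ x = ∑ i, (∏ j ∈ Finset.univ.erase i, ww e₀ f (p a) L x i j) ^ d)
    {y : Y} (hy : y ∉ S) :
    ∃ x, f x = y ∧ (∃ a, y ∈ U a ∧ ∀ k, J.wedge (c a x) (p a k y) ≠ 0) ∧
      (∀ᶠ z in 𝓝 x, Θ z ≠ 0) ∧ HolV E (fun z => Ψ z / Θ z) x ∧
      ∃ ξ, dM E E' f x ξ = 0 ∧ dif E (fun z => Ψ z / Θ z) x ξ ≠ 0 := by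
  classical
  obtain ⟨a, ha⟩ := (h.cover y).1 hy
  let i₀ : Fin d := ⟨0, by omega⟩
  obtain ⟨x₀, hx₀, hcx₀⟩ := h.surj a y ha (p a i₀ y)
  subst hx₀
  obtain ⟨hc0, L, hL1, hL2, hL0, hcL, -, hbr⟩ := h.lift a x₀ ha
  have hL1 : HolV E (fun z => (L z).1) x₀ := hL1
  have hL2 : HolV E (fun z => (L z).2) x₀ := hL2
  have hLi : J.wedge (L x₀) (p a i₀ (f x₀)) = 0 := nc_trans hc0 hcL.self_of_nhds hcx₀
  obtain ⟨D, -, u, hu, hue, hinj⟩ := hbr i₀ hLi
  have huh : HolV E u x₀ := by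
    obtain ⟨V, -, hxV, hV, -⟩ := hu
    exact hV x₀ hxV
  have he : 0 < e := by
    rcases Nat.eq_zero_or_pos e with h2 | h2
    · have h1 := hue.self_of_nhds
      rw [hLi, h2, pow_zero] at h1
      exact absurd h1.symm one_ne_zero
    · exact h2
  have hu0 : u x₀ = 0 := by
    have h1 := hue.self_of_nhds
    rw [hLi] at h1
    exact (pow_eq_zero_iff he.ne').1 h1.symm
  obtain ⟨Q, hQ0, hQ⟩ := fibre_curve hf e₀ huh hinj
  rw [hu0] at hQ0 hQ
  have hq : ∀ i j, i ≠ j → J.wedge (p a i (f x₀)) (p a j (f x₀)) ≠ 0 := fun i j hij =>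
    h.distinct a i j (f x₀) ha hij
  have hne0 : ∀ k, k ≠ i₀ → J.wedge (L x₀) (p a k (f x₀)) ≠ 0 := by
    intro k hk hcon
    exact hq i₀ k hk.symm (nc_trans hL0 hLi hcon)
  have hQc : ContinuousAt Q 0 := hQ.self_of_nhds.1.continuousAt
  have hQt : Tendsto Q (𝓝 0) (𝓝 x₀) := by
    have := hQc.tendsto
    rwa [hQ0] at this
  have hbrh : ∀ z, f z ∈ U a → ∀ k, HolV E (fun z => (p a k (f z)).1) z ∧
      HolV E (fun z => (p a k (f z)).2) z := fun z hz k =>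
    ⟨HolV.comp (E' := E') (h := fun y => (p a k y).1) (h.branch a k _ hz).1 (hf z),
      HolV.comp (E' := E') (h := fun y => (p a k y).2) (h.branch a k _ hz).2 (hf z)⟩
  -- the wedges along the curve
  let A : Fin d → ℂ → ℂ := fun k s => J.wedge (L (Q s)) (p a k (f x₀))
  have hA : ∀ k, ContDiffAt ℂ ω (A k) 0 := by
    intro k
    have h1 : ContDiffAt ℂ ω (fun s => (L (Q s)).1) 0 :=
      (slice_comp (v := (0 : ℂ)) hQ.self_of_nhds.1 (ζ := fun z => (L z).1)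
        (by rw [hQ0]; exact hL1)).1
    have h2 : ContDiffAt ℂ ω (fun s => (L (Q s)).2) 0 :=
      (slice_comp (v := (0 : ℂ)) hQ.self_of_nhds.1 (ζ := fun z => (L z).2)
        (by rw [hQ0]; exact hL2)).1
    exact (h1.mul contDiffAt_const).sub (h2.mul contDiffAt_const)
  have hA0 : ∀ k, A k 0 = J.wedge (L x₀) (p a k (f x₀)) := by
    intro k
    show J.wedge (L (Q 0)) (p a k (f x₀)) = _
    rw [hQ0]
  have hAi : ∀ᶠ s in 𝓝 (0 : ℂ), A i₀ s = s ^ e := by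
    filter_upwards [hQt.eventually hue, hQ] with s h1 h2
    show J.wedge (L (Q s)) (p a i₀ (f x₀)) = s ^ e
    rw [← h2.2.1, h1, h2.2.2]
  have hAne : ∀ k, k ≠ i₀ → ∀ᶠ s in 𝓝 (0 : ℂ), A k s ≠ 0 := by
    intro k hk
    exact (hA k).continuousAt.eventually_ne (by rw [hA0]; exact hne0 k hk)
  let C : Fin d → ℂ := fun i =>
    (∏ j ∈ Finset.univ.erase i, J.wedge (p a i (f x₀)) (p a j (f x₀))) ^ d /
      ∏ k, ∏ l ∈ Finset.univ.erase k, J.wedge (p a k (f x₀)) (p a l (f x₀))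
  have hC : C i₀ ≠ 0 := by
    refine div_ne_zero (pow_ne_zero _ (Finset.prod_ne_zero_iff.2 fun j hj => ?_))
      (Finset.prod_ne_zero_iff.2 fun k _ => Finset.prod_ne_zero_iff.2 fun l hl => ?_)
    · exact hq _ _ (Finset.ne_of_mem_erase hj).symm
    · exact hq _ _ (Finset.ne_of_mem_erase hl).symm
  obtain ⟨m, hm⟩ : ∃ m, d = m + 3 := ⟨d - 3, by omega⟩
  -- numerator
  let B : ℂ → ℂ := fun s => C i₀ * (∏ k ∈ Finset.univ.erase i₀, A k s) ^ (d - 2) +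
    ∑ i ∈ Finset.univ.erase i₀, C i * ((∏ k, A k s) ^ (d - 2) *
      A i₀ s ^ ((d - 1) * (d - 2)) / A i s ^ (d * (d - 2)))
  have hB : ContDiffAt ℂ ω B 0 := by
    refine ContDiffAt.add (contDiffAt_const.mul ((contDiffAt_prod fun k _ => hA k).pow _)) ?_
    refine ContDiffAt.sum fun i hi => contDiffAt_const.mul ?_
    refine ContDiffAt.div (((contDiffAt_prod fun k _ => hA k).pow _).mul ((hA i₀).pow _))
      ((hA i).pow _) (pow_ne_zero _ ?_)
    rw [hA0]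
    exact hne0 i (Finset.ne_of_mem_erase hi)
  have hB0 : B 0 ≠ 0 := by
    have h1 : A i₀ 0 = 0 := by rw [hA0, hLi]
    have h2 : B 0 = C i₀ * (∏ k ∈ Finset.univ.erase i₀, A k 0) ^ (d - 2) := by
      show _ + _ = _
      rw [Finset.sum_eq_zero, add_zero]
      intro i _
      rw [h1, zero_pow (by subst hm; simp), mul_zero, zero_div, mul_zero]
    rw [h2]
    refine mul_ne_zero hC (pow_ne_zero _ (Finset.prod_ne_zero_iff.2 fun k hk => ?_))
    rw [hA0]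
    exact hne0 k (Finset.ne_of_mem_erase hk)
  let G : ℂ → ℂ := fun s => ∑ i, C i * ((∏ k, A k s) ^ (d - 2) / A i s ^ (d * (d - 2)))
  have hG : ∀ᶠ s in 𝓝[≠] (0 : ℂ), G s = B s / s ^ (e * ((d - 1) * (d - 2))) := by
    filter_upwards [nhdsWithin_le_nhds hAi, self_mem_nhdsWithin] with s h1 h2
    have h3 : A i₀ s ≠ 0 := by rw [h1]; exact pow_ne_zero _ h2
    have h4 : s ^ (e * ((d - 1) * (d - 2))) = A i₀ s ^ ((d - 1) * (d - 2)) := by
      rw [h1, ← pow_mul]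
    rw [h4]
    show ∑ i, C i * ((∏ k, A k s) ^ (d - 2) / A i s ^ (d * (d - 2))) = (_ + _) / _
    rw [← Finset.add_sum_erase _ _ (Finset.mem_univ i₀), add_div, Finset.sum_div]
    congr 1
    · rw [← Finset.mul_prod_erase _ (fun k => A k s) (Finset.mem_univ i₀)]
      have h5 : A i₀ s ^ (d * (d - 2)) = A i₀ s ^ (d - 2) * A i₀ s ^ ((d - 1) * (d - 2)) := by
        rw [← pow_add]
        congr 1
        subst hm
        have e1 : m + 3 - 2 = m + 1 := rfl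
        have e2 : m + 3 - 1 = m + 2 := rfl
        rw [e1, e2]
        ring
      rw [h5, mul_pow]
      have h6 := pow_ne_zero (d - 2) h3
      have h7 := pow_ne_zero ((d - 1) * (d - 2)) h3
      field_simp
    · refine Finset.sum_congr rfl fun i _ => ?_
      have h7 := pow_ne_zero ((d - 1) * (d - 2)) h3
      field_simp
  have hM : 0 < e * ((d - 1) * (d - 2)) := by
    refine Nat.mul_pos he ?_
    subst hm
    exact Nat.mul_pos (by omega) (by omega)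
  have hfreq := pole_deriv' hM hB hB0 hG
  -- the good points of the curve
  have hnear : ∀ᶠ z in 𝓝 x₀, (HolV E (fun z => (L z).1) z ∧ HolV E (fun z => (L z).2) z) ∧
      L z ≠ 0 ∧ J.wedge (c a z) (L z) = 0 ∧ f z ∈ U a := by
    have hLc : ContinuousAt L x₀ := by
      have h1 := hL1.continuousAt
      have h2 := hL2.continuousAt
      exact h1.prodMk h2
    filter_upwards [hL1.eventually, hL2.eventually, hLc.eventually_ne hL0, hcL,
      (hf x₀).continuousAt.eventually ((h.isOpen a).mem_nhds ha)]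
      with z h1 h2 h3 h4 h5 using ⟨⟨h1, h2⟩, h3, h4, h5⟩
  have hev : ∀ᶠ s in 𝓝[≠] (0 : ℂ), (∀ k, A k s ≠ 0) ∧
      (∀ᶠ q in 𝓝 s, ContMDiffAt 𝓘(ℂ, ℂ) 𝓘(ℂ, E) ω Q q ∧ f (Q q) = f x₀ ∧ u (Q q) = q) ∧
      (∀ᶠ z in 𝓝 (Q s), (HolV E (fun z => (L z).1) z ∧ HolV E (fun z => (L z).2) z) ∧
      L z ≠ 0 ∧ J.wedge (c a z) (L z) = 0 ∧ f z ∈ U a) := by
    have h0 : ∀ᶠ s in 𝓝[≠] (0 : ℂ), ∀ k, A k s ≠ 0 := by
      refine eventually_all.2 fun k => ?_
      by_cases hk : k = i₀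
      · subst hk
        filter_upwards [nhdsWithin_le_nhds hAi, self_mem_nhdsWithin] with s h1 h2
        rw [h1]
        exact pow_ne_zero _ h2
      · exact nhdsWithin_le_nhds (hAne k hk)
    filter_upwards [h0, nhdsWithin_le_nhds (eventually_eventually_nhds.2 hQ),
      nhdsWithin_le_nhds (hQt.eventually (eventually_eventually_nhds.2 hnear))]
      with s h1 h2 h3 using ⟨h1, h2, h3⟩
  obtain ⟨s, hs1, hs2, hs3, hs4⟩ := (hfreq.and_eventually hev).exists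
  obtain ⟨hQs, hfs, -⟩ := hs3.self_of_nhds
  obtain ⟨⟨hl1, hl2⟩, hl3, hl4, hl5⟩ := hs4.self_of_nhds
  have hwQ : ∀ k, J.wedge (L (Q s)) (p a k (f (Q s))) ≠ 0 := by
    intro k
    rw [hfs]
    exact hs2 k
  have hwev : ∀ᶠ z in 𝓝 (Q s), ∀ k, J.wedge (L z) (p a k (f z)) ≠ 0 := by
    refine eventually_all.2 fun k => ?_
    exact (HolV.wedge hl1 hl2 (hbrh _ hl5 k).1 (hbrh _ hl5 k).2).continuousAt.eventually_ne
      (hwQ k)
  have hgood : ∀ᶠ z in 𝓝 (Q s), Θ z ≠ 0 ∧ Ψ z / Θ z = covR f (p a) L z := by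
    filter_upwards [hwev, eventually_eventually_nhds.2 hs4] with z h1 h2
    obtain ⟨⟨g1, g2⟩, g3, g4, g5⟩ := h2.self_of_nhds
    have hcz : c a z ≠ 0 := (h.lift a z g5).1
    have hk : ∀ k, J.wedge (c a z) (p a k (f z)) ≠ 0 := fun k hcon =>
      h1 k (nc_trans hcz g4 hcon)
    have h3 := cov_facts h hd e₀ hΘΨ g5 hk
    exact ⟨h3.1, h3.2 L g1 g2 g3 (h2.mono fun z' hz' => hz'.2.2.1)⟩
  have hratio : (fun z => Ψ z / Θ z) =ᶠ[𝓝 (Q s)] covR f (p a) L := hgood.mono fun z hz => hz.2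
  have hpp : ∀ i j, HolV E (fun z => J.wedge (p a i (f z)) (p a j (f z))) (Q s) := fun i j =>
    HolV.wedge (hbrh _ hl5 i).1 (hbrh _ hl5 i).2 (hbrh _ hl5 j).1 (hbrh _ hl5 j).2
  have hLp : ∀ i, HolV E (fun z => J.wedge (L z) (p a i (f z))) (Q s) := fun i =>
    HolV.wedge hl1 hl2 (hbrh _ hl5 i).1 (hbrh _ hl5 i).2
  have hrh : HolV E (fun z => Ψ z / Θ z) (Q s) := by
    refine HolV.congr ?_ hratio
    unfold covR
    refine HolV.sum fun i _ => HolV.mul ?_ ?_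
    · refine HolV.div ((HolV.prod fun j _ => hpp i j).pow d)
        (HolV.prod fun k _ => HolV.prod fun l _ => hpp k l) ?_
      refine Finset.prod_ne_zero_iff.2 fun k _ => Finset.prod_ne_zero_iff.2 fun l hl => ?_
      exact h.distinct a _ _ _ hl5 (Finset.ne_of_mem_erase hl).symm
    · exact HolV.div ((HolV.prod fun k _ => hLp k).pow _) ((hLp i).pow _)
        (pow_ne_zero _ (hwQ i))
  refine ⟨Q s, hfs, ⟨a, ha, fun k hcon => ?_⟩, hgood.mono fun z hz => hz.1, hrh,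
    (mfderiv 𝓘(ℂ, ℂ) 𝓘(ℂ, E) Q s : ℂ →L[ℂ] E) (1 : ℂ), ?_, ?_⟩
  · exact hs2 k (nc_trans (h.lift a (Q s) hl5).1 hl4 hcon)
  · have h1 : f ∘ Q =ᶠ[𝓝 s] fun _ => f x₀ := hs3.mono fun q hq => hq.2.1
    have h2 := mfderiv_comp s (ContMDiffAt.mdifferentiableAt (hf (Q s)) (by simp))
      (hQs.mdifferentiableAt (by simp))
    rw [h1.mfderiv_eq, mfderiv_const] at h2
    have h3 := congrArg (fun A : ℂ →L[ℂ] E' => A 1) h2
    exact h3.symm
  · have h1 := (slice_comp hQs hrh).2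
    rw [← h1]
    have h2 : (fun q => Ψ (Q q) / Θ (Q q)) =ᶠ[𝓝 s] G := by
      filter_upwards [hQs.continuousAt.eventually hratio, hs3] with q hq1 hq2
      have hq1' : Ψ (Q q) / Θ (Q q) = _ := hq1
      rw [hq1']
      unfold covR
      rw [hq2.2.1]
    rw [h2.deriv_eq]
    exact hs1

end Cov

end Vale.Agent.P281.ELL
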