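import Vale.Agent.P281.ELL.Slice
import Vale.Agent.P281.ELL.CovDef
import Vale.Agent.P281.ELL.Bloch
import Vale.Agent.P281.ELL.RelGP

/-! P281, fibrations branched over moving points of `ℙ¹`: the uniform bound of the relative forms
on the slices of the fibres outside of the ramification. -/

open scoped Manifold ContDiff Topology
open Set Filter Metric

namespace Vale.Agent.P281.ELL

open Vale.Agent.P281 Vale.Agent.P281.MF Vale.Agent.P281.ISO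

set_option linter.all false

universe u

theorem cs_plucker (a b c d : ℂ × ℂ) :
    J.wedge a b * J.wedge c d - J.wedge a d * J.wedge c b = J.wedge a c * J.wedge b d := by
  simp only [J.wedge]
  ring

theorem cs_smul (l : ℂ) (u v : ℂ × ℂ) : J.wedge (l • u) v = l * J.wedge u v := by
  simp only [J.wedge, Prod.smul_fst, Prod.smul_snd, smul_eq_mul]
  ring

theorem cs_prop {u v : ℂ × ℂ} (hu : u ≠ 0) (hv : v ≠ 0) (h : J.wedge u v = 0) :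
    ∃ l : ℂ, l ≠ 0 ∧ u = l • v := by
  obtain ⟨u1, u2⟩ := u
  obtain ⟨v1, v2⟩ := v
  simp only [J.wedge] at h
  by_cases h1 : v1 = 0
  · subst h1
    have h2 : v2 ≠ 0 := by
      intro h2
      exact hv (by rw [h2]; rfl)
    have h3 : u1 = 0 := by
      rw [mul_zero, sub_zero] at h
      exact (mul_eq_zero.1 h).resolve_right h2
    subst h3
    have h4 : u2 ≠ 0 := by
      intro h4
      exact hu (by rw [h4]; rfl)
    refine ⟨u2 / v2, div_ne_zero h4 h2, ?_⟩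
    simp [Prod.ext_iff, h2]
  · have h3 : u1 ≠ 0 := by
      intro h3
      rw [h3, zero_mul, zero_sub, neg_eq_zero] at h
      have h4 := (mul_eq_zero.1 h).resolve_right h1
      exact hu (by rw [h3, h4]; rfl)
    refine ⟨u1 / v1, div_ne_zero h3 h1, ?_⟩
    simp only [Prod.smul_mk, smul_eq_mul, Prod.mk.injEq]
    refine ⟨by field_simp, ?_⟩
    field_simp
    linear_combination -h

variable {E E' : Type} [NormedAddCommGroup E] [NormedSpace ℂ E] [FiniteDimensional ℂ E]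
  [NormedAddCommGroup E'] [NormedSpace ℂ E'] [FiniteDimensional ℂ E']
variable {X Y : Type u} [TopologicalSpace X] [ChartedSpace E X] [IsManifold 𝓘(ℂ, E) ω X]
  [TopologicalSpace Y] [ChartedSpace E' Y] [IsManifold 𝓘(ℂ, E') ω Y]

theorem ww_bound {f : X → Y} (hf : ∀ x, HolM E E' f x) {S : Set Y} {n e d : ℕ}
    {𝒲 : Set (Set X)} {ι : Type u} {U : ι → Set Y} {p : ι → Fin d → Y → ℂ × ℂ}
    {c : ι → X → ℂ × ℂ} (h : J.IsBranchedOver E E' f S n e d 𝒲 U p c)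
    (e₀ : E ≃L[ℂ] (E' × ℂ)) {r M : ℝ} (hr : 0 < r)
    (hdl : ∀ (v₀ : ℂ) (ψ : ℂ → ℂ), DifferentiableOn ℂ ψ (ball v₀ r) →
      (∀ v ∈ ball v₀ r, ψ v ≠ 0) →
      (∀ v : Fin (n + 1) → ℂ, (∀ k, v k ∈ ball v₀ r) → (∀ k, ψ (v k) = ψ (v 0)) →
        ¬ Function.Injective v) → ‖deriv ψ v₀‖ ≤ M * ‖ψ v₀‖)
    {v₀ : ℂ} {Q : ℂ → X} (hQ : ∀ v ∈ ball v₀ r, ContMDiffAt 𝓘(ℂ, ℂ) 𝓘(ℂ, E) ω Q v)
    (hinj : InjOn Q (ball v₀ r)) (hfQ : ∀ v ∈ ball v₀ r, f (Q v) = f (Q v₀))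
    (hQD : ∀ v ∈ ball v₀ r, ∀ D ∈ 𝒲, Q v ∉ D) {P : E →L[ℂ] ℂ}
    (hP : P.comp (mfderiv 𝓘(ℂ, ℂ) 𝓘(ℂ, E) Q v₀ : ℂ →L[ℂ] E) = ContinuousLinearMap.id ℂ ℂ)
    {a : ι} (ha : f (Q v₀) ∈ U a) :
    (∀ k, J.wedge (c a (Q v₀)) (p a k (f (Q v₀))) ≠ 0) ∧
    ∃ L : X → ℂ × ℂ, HolV E (fun z => (L z).1) (Q v₀) ∧ HolV E (fun z => (L z).2) (Q v₀) ∧
      L (Q v₀) ≠ 0 ∧ (∀ᶠ z in 𝓝 (Q v₀), J.wedge (c a z) (L z) = 0) ∧
      ∀ i j, i ≠ j → ‖ww e₀ f (p a) L (Q v₀) i j‖ ≤ M * ‖JP e₀ (dM E E' f (Q v₀)) P‖ := by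
  have hv₀ : v₀ ∈ ball v₀ r := mem_ball_self hr
  -- no zeros
  have hne : ∀ v ∈ ball v₀ r, ∀ k, J.wedge (c a (Q v)) (p a k (f (Q v₀))) ≠ 0 := by
    intro v hv k h0
    obtain ⟨hc0, L, hL1, hL2, hL0, hLc, -, hLk⟩ := h.lift a (Q v) (by rw [hfQ v hv]; exact ha)
    obtain ⟨l, hl, hcl⟩ := cs_prop hc0 hL0 hLc.self_of_nhds
    have h1 : J.wedge (L (Q v)) (p a k (f (Q v))) = 0 := by
      rw [hfQ v hv]
      rw [hcl, cs_smul] at h0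
      exact (mul_eq_zero.1 h0).resolve_left hl
    obtain ⟨D, hD, u, hu, hue, -⟩ := hLk k h1
    have h2 := hue.self_of_nhds
    rw [h1] at h2
    have hu0 : u (Q v) = 0 := by
      by_contra hu0
      exact pow_ne_zero e hu0 h2.symm
    obtain ⟨V, -, hV, -, hVD, -⟩ := hu
    exact hQD v hv D hD ((hVD (Q v) hV).2 hu0)
  -- local lifts
  have hloc : ∀ v ∈ ball v₀ r, ∀ L : X → ℂ × ℂ, HolV E (fun z => (L z).1) (Q v) →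
      HolV E (fun z => (L z).2) (Q v) → L (Q v) ≠ 0 →
      (∀ᶠ z in 𝓝 (Q v), J.wedge (c a z) (L z) = 0) → ∀ i j : Fin d,
      J.wedge (L (Q v)) (p a i (f (Q v₀))) ≠ 0 ∧
      HasDerivAt (fun w => J.wedge (c a (Q w)) (p a i (f (Q v₀))) /
        J.wedge (c a (Q w)) (p a j (f (Q v₀))))
        (-(J.wedge (p a i (f (Q v₀))) (p a j (f (Q v₀))) *
          ((L (Q v)).1 * dif E (fun z => (L z).2) (Q v)
            ((mfderiv 𝓘(ℂ, ℂ) 𝓘(ℂ, E) Q v : ℂ →L[ℂ] E) (1 : ℂ)) -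
          (L (Q v)).2 * dif E (fun z => (L z).1) (Q v)
            ((mfderiv 𝓘(ℂ, ℂ) 𝓘(ℂ, E) Q v : ℂ →L[ℂ] E) (1 : ℂ)))) /
          J.wedge (L (Q v)) (p a j (f (Q v₀))) ^ 2) v := by
    intro v hv L hL1 hL2 hL0 hLc i j
    have hfv : f (Q v) ∈ U a := by rw [hfQ v hv]; exact ha
    obtain ⟨l, hl, hcl⟩ := cs_prop (h.lift a (Q v) hfv).1 hL0 hLc.self_of_nhds
    have hLne : ∀ k, J.wedge (L (Q v)) (p a k (f (Q v₀))) ≠ 0 := by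
      intro k h0
      apply hne v hv k
      rw [hcl, cs_smul, h0, mul_zero]
    refine ⟨hLne i, ?_⟩
    obtain ⟨hA, hA'⟩ := slice_comp (hQ v hv) hL1
    obtain ⟨hB, hB'⟩ := slice_comp (hQ v hv) hL2
    have hAd : HasDerivAt (fun w => (L (Q w)).1) _ v := (hA.differentiableAt (by simp)).hasDerivAt
    have hBd : HasDerivAt (fun w => (L (Q w)).2) _ v := (hB.differentiableAt (by simp)).hasDerivAt
    rw [hA'] at hAd
    rw [hB'] at hBd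
    have hwd : ∀ k, HasDerivAt (fun w => J.wedge (L (Q w)) (p a k (f (Q v₀))))
        (dif E (fun z => (L z).1) (Q v) ((mfderiv 𝓘(ℂ, ℂ) 𝓘(ℂ, E) Q v : ℂ →L[ℂ] E) (1 : ℂ)) *
          (p a k (f (Q v₀))).2 -
        dif E (fun z => (L z).2) (Q v) ((mfderiv 𝓘(ℂ, ℂ) 𝓘(ℂ, E) Q v : ℂ →L[ℂ] E) (1 : ℂ)) *
          (p a k (f (Q v₀))).1) v := fun k =>
      (hAd.mul_const _).sub (hBd.mul_const _)
    have hd := (hwd i).div (hwd j) (hLne j)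
    have hQc : ContinuousAt Q v := (hQ v hv).continuousAt
    have heq : (fun w => J.wedge (c a (Q w)) (p a i (f (Q v₀))) /
        J.wedge (c a (Q w)) (p a j (f (Q v₀)))) =ᶠ[𝓝 v]
        fun w => J.wedge (L (Q w)) (p a i (f (Q v₀))) / J.wedge (L (Q w)) (p a j (f (Q v₀))) := by
      filter_upwards [hQc.eventually hLc, isOpen_ball.mem_nhds hv,
        (hwd j).continuousAt.eventually_ne (hLne j)] with w h1 h2 h3
      have h4 : L (Q w) ≠ 0 := by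
        intro h4
        apply h3
        rw [h4]
        simp [J.wedge]
      obtain ⟨m, hm, hcm⟩ := cs_prop (h.lift a (Q w) (by rw [hfQ w h2]; exact ha)).1 h4 h1
      rw [hcm, cs_smul, cs_smul, mul_div_mul_left _ _ hm]
    refine (hd.congr_of_eventuallyEq heq).congr_deriv ?_
    congr 1
    simp only [J.wedge]
    ring
  refine ⟨hne v₀ hv₀, ?_⟩
  obtain ⟨hc0, L, hL1, hL2, hL0, hLc, hLi, -⟩ := h.lift a (Q v₀) ha
  have hL1 : HolV E (fun z => (L z).1) (Q v₀) := hL1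
  have hL2 : HolV E (fun z => (L z).2) (Q v₀) := hL2
  refine ⟨L, hL1, hL2, hL0, hLc, fun i j hij => ?_⟩
  have hLne : ∀ k, J.wedge (L (Q v₀)) (p a k (f (Q v₀))) ≠ 0 := fun k =>
    (hloc v₀ hv₀ L hL1 hL2 hL0 hLc k k).1
  obtain ⟨T, hT⟩ : ∃ T : ℂ →L[ℂ] E, T = mfderiv 𝓘(ℂ, ℂ) 𝓘(ℂ, E) Q v₀ := ⟨_, rfl⟩
  have hP1 : P (T 1) = 1 := by
    have h1 : P.comp T = ContinuousLinearMap.id ℂ ℂ := by
      subst hT
      exact hP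
    have h2 := congrArg (fun T : ℂ →L[ℂ] ℂ => T 1) h1
    exact h2
  have hA : dM E E' f (Q v₀) (T 1) = 0 := by
    have h2 := mfderiv_comp v₀ (g := f) (f := Q) ((hf (Q v₀)).mdifferentiableAt (by simp))
      ((hQ v₀ hv₀).mdifferentiableAt (by simp))
    have h3 : mfderiv 𝓘(ℂ, ℂ) 𝓘(ℂ, E') (f ∘ Q) v₀ = 0 := by
      have h4 : (f ∘ Q) =ᶠ[𝓝 v₀] fun _ => f (Q v₀) := by
        filter_upwards [isOpen_ball.mem_nhds hv₀] with v hv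
        exact hfQ v hv
      rw [h4.mfderiv_eq]
      exact mfderiv_const
    have h5 : (dM E E' f (Q v₀)).comp T = 0 := by
      subst hT
      exact h2.symm.trans h3
    have h6 := congrArg (fun T : ℂ →L[ℂ] E' => T 1) h5
    exact h6
  set l : ℂ := (L (Q v₀)).1 * dif E (fun z => (L z).2) (Q v₀) (T 1) -
    (L (Q v₀)).2 * dif E (fun z => (L z).1) (Q v₀) (T 1) with hldef
  have hl : l ≠ 0 := by
    intro h0
    have h1 : T 1 = 0 := hLi hLne (T 1) hA h0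
    rw [h1, map_zero] at hP1
    exact zero_ne_one hP1
  have hJ := JP_scale e₀ (Q := (L (Q v₀)).1 • dif E (fun z => (L z).2) (Q v₀) -
    (L (Q v₀)).2 • dif E (fun z => (L z).1) (Q v₀)) hA hP1 hl rfl
  -- the derivative
  have hder := (hloc v₀ hv₀ L hL1 hL2 hL0 hLc i j).2.deriv
  have hpp := h.distinct a i j (f (Q v₀)) ha hij
  obtain ⟨lc, hlc, hcl⟩ := cs_prop hc0 hL0 hLc.self_of_nhds
  have hb := hdl v₀ (fun w => J.wedge (c a (Q w)) (p a i (f (Q v₀))) /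
    J.wedge (c a (Q w)) (p a j (f (Q v₀)))) ?_ ?_ ?_
  · have hψ : J.wedge (c a (Q v₀)) (p a i (f (Q v₀))) / J.wedge (c a (Q v₀)) (p a j (f (Q v₀))) =
        J.wedge (L (Q v₀)) (p a i (f (Q v₀))) / J.wedge (L (Q v₀)) (p a j (f (Q v₀))) := by
      rw [hcl, cs_smul, cs_smul, mul_div_mul_left _ _ hlc]
    rw [hder] at hb
    subst hT
    have hb' : ‖-(J.wedge (p a i (f (Q v₀))) (p a j (f (Q v₀))) * l) /
        J.wedge (L (Q v₀)) (p a j (f (Q v₀))) ^ 2‖ ≤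
        M * ‖J.wedge (L (Q v₀)) (p a i (f (Q v₀))) / J.wedge (L (Q v₀)) (p a j (f (Q v₀)))‖ := by
      have h1 := hb
      simp only [hψ] at h1
      exact h1
    have hww : ww e₀ f (p a) L (Q v₀) i j =
        (J.wedge (p a i (f (Q v₀))) (p a j (f (Q v₀))) * l /
          (J.wedge (L (Q v₀)) (p a i (f (Q v₀))) * J.wedge (L (Q v₀)) (p a j (f (Q v₀))))) *
          JP e₀ (dM E E' f (Q v₀)) P := by
      simp only [ww, WL]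
      rw [hJ]
      ring
    rw [hww, norm_mul]
    refine mul_le_mul_of_nonneg_right ?_ (norm_nonneg _)
    have hi := hLne i
    have hj := hLne j
    rw [norm_div, norm_neg, norm_pow, norm_div] at hb'
    rw [norm_div, norm_mul (J.wedge (L (Q v₀)) (p a i (f (Q v₀))))]
    have hi' := norm_pos_iff.2 hi
    have hj' := norm_pos_iff.2 hj
    rw [div_le_iff₀ (by positivity)] at hb' ⊢
    calc ‖J.wedge (p a i (f (Q v₀))) (p a j (f (Q v₀))) * l‖ ≤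
        M * (‖J.wedge (L (Q v₀)) (p a i (f (Q v₀)))‖ / ‖J.wedge (L (Q v₀)) (p a j (f (Q v₀)))‖) *
          ‖J.wedge (L (Q v₀)) (p a j (f (Q v₀)))‖ ^ 2 := hb'
      _ = _ := by
        field_simp
  · intro v hv
    obtain ⟨-, L', hL1', hL2', hL0', hLc', -, -⟩ :=
      h.lift a (Q v) (by rw [hfQ v hv]; exact ha)
    exact (hloc v hv L' hL1' hL2' hL0' hLc' i j).2.differentiableAt.differentiableWithinAt
  · intro v hv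
    exact div_ne_zero (hne v hv i) (hne v hv j)
  · intro v hv hvv hvi
    have hkey : ∀ k, J.wedge (c a (Q (v k))) (c a (Q (v 0))) = 0 := by
      intro k
      have h1 := hvv k
      rw [div_eq_div_iff (hne _ (hv k) j) (hne _ (hv 0) j)] at h1
      have h2 := cs_plucker (c a (Q (v k))) (p a i (f (Q v₀))) (c a (Q (v 0)))
        (p a j (f (Q v₀)))
      rw [h1] at h2
      have h3 : J.wedge (c a (Q (v k))) (c a (Q (v 0))) *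
          J.wedge (p a i (f (Q v₀))) (p a j (f (Q v₀))) = 0 := by
        rw [← h2]
        ring
      exact (mul_eq_zero.1 h3).resolve_right hpp
    refine h.degree a (f (Q v₀)) ha (fun k => Q (v k)) (fun k => hfQ _ (hv k)) hkey ?_
    intro k k' hkk
    exact hvi (hinj (hv k) (hv k') hkk)

theorem cov_slice_of {f : X → Y} (hf : ∀ x, HolM E E' f x) {S : Set Y} {n e d : ℕ}
    {𝒲 : Set (Set X)} {ι : Type u} {U : ι → Set Y} {p : ι → Fin d → Y → ℂ × ℂ}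
    {c : ι → X → ℂ × ℂ} (h : J.IsBranchedOver E E' f S n e d 𝒲 U p c)
    (e₀ : E ≃L[ℂ] (E' × ℂ)) {Θ Ψ : X → ℂ}
    (hΘ : ∀ a x, f x ∈ U a → (∀ k, J.wedge (c a x) (p a k (f x)) ≠ 0) → ∀ L : X → ℂ × ℂ,
      HolV E (fun z => (L z).1) x → HolV E (fun z => (L z).2) x → L x ≠ 0 →
      (∀ᶠ z in 𝓝 x, J.wedge (c a z) (L z) = 0) →
      Θ x = (∏ i, ∏ j ∈ Finset.univ.erase i, ww e₀ f (p a) L x i j) ∧
      Ψ x = ∑ i, (∏ j ∈ Finset.univ.erase i, ww e₀ f (p a) L x i j) ^ d)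
    (hdl : ∀ r : ℝ, 0 < r → ∃ M : ℝ, ∀ (v₀ : ℂ) (ψ : ℂ → ℂ), DifferentiableOn ℂ ψ (ball v₀ r) →
      (∀ v ∈ ball v₀ r, ψ v ≠ 0) →
      (∀ v : Fin (n + 1) → ℂ, (∀ k, v k ∈ ball v₀ r) → (∀ k, ψ (v k) = ψ (v 0)) →
        ¬ Function.Injective v) → ‖deriv ψ v₀‖ ≤ M * ‖ψ v₀‖) :
    ∀ r : ℝ, 0 < r → ∃ M : ℝ, 0 ≤ M ∧ ∀ (v₀ : ℂ) (Q : ℂ → X),
      (∀ v ∈ ball v₀ r, ContMDiffAt 𝓘(ℂ, ℂ) 𝓘(ℂ, E) ω Q v) → InjOn Q (ball v₀ r) →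
      (∀ v ∈ ball v₀ r, f (Q v) = f (Q v₀)) → f (Q v₀) ∉ S →
      (∀ v ∈ ball v₀ r, ∀ D ∈ 𝒲, Q v ∉ D) →
      ∀ P : E →L[ℂ] ℂ, P.comp (mfderiv 𝓘(ℂ, ℂ) 𝓘(ℂ, E) Q v₀ : ℂ →L[ℂ] E) =
        ContinuousLinearMap.id ℂ ℂ →
        ‖Θ (Q v₀)‖ ≤ M * ‖JP e₀ (dM E E' f (Q v₀)) P ^ (d * (d - 1))‖ ∧
        ‖Ψ (Q v₀)‖ ≤ M * ‖JP e₀ (dM E E' f (Q v₀)) P ^ (d * (d - 1))‖ := by
  intro r hr
  obtain ⟨M, hM⟩ := hdl r hr
  refine ⟨(d + 1) * |M| ^ (d * (d - 1)), by positivity, fun v₀ Q hQ hinj hfQ hS hQD P hP => ?_⟩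
  obtain ⟨a, ha⟩ := (h.cover _).1 hS
  obtain ⟨hne, L, hL1, hL2, hL0, hLc, hb⟩ :=
    ww_bound hf h e₀ hr hM hQ hinj hfQ hQD hP ha
  obtain ⟨hΘ1, hΨ1⟩ := hΘ a (Q v₀) ha hne L hL1 hL2 hL0 hLc
  set Jv := JP e₀ (dM E E' f (Q v₀)) P with hJv
  have hin : ∀ i, ‖∏ j ∈ Finset.univ.erase i, ww e₀ f (p a) L (Q v₀) i j‖ ≤
      (|M| * ‖Jv‖) ^ (d - 1) := by
    intro i
    rw [norm_prod]
    refine (Finset.prod_le_prod (fun _ _ => norm_nonneg _) (fun j hj =>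
      (hb i j (Finset.ne_of_mem_erase hj).symm).trans
        (mul_le_mul_of_nonneg_right (le_abs_self M) (norm_nonneg _)))).trans (le_of_eq ?_)
    rw [Finset.prod_const, Finset.card_erase_of_mem (Finset.mem_univ i), Finset.card_univ,
      Fintype.card_fin]
  have hpow : ((|M| * ‖Jv‖) ^ (d - 1)) ^ d = |M| ^ (d * (d - 1)) * ‖Jv ^ (d * (d - 1))‖ := by
    rw [← pow_mul, norm_pow, ← mul_pow, Nat.mul_comm]
  have hnn : 0 ≤ |M| ^ (d * (d - 1)) * ‖Jv ^ (d * (d - 1))‖ := by positivity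
  constructor
  · rw [hΘ1, norm_prod]
    calc ∏ i, ‖∏ j ∈ Finset.univ.erase i, ww e₀ f (p a) L (Q v₀) i j‖
        ≤ ∏ i : Fin d, (|M| * ‖Jv‖) ^ (d - 1) :=
          Finset.prod_le_prod (fun _ _ => norm_nonneg _) fun i _ => hin i
      _ = ((|M| * ‖Jv‖) ^ (d - 1)) ^ d := by
          rw [Finset.prod_const, Finset.card_univ, Fintype.card_fin]
      _ = |M| ^ (d * (d - 1)) * ‖Jv ^ (d * (d - 1))‖ := hpow
      _ ≤ (d + 1) * (|M| ^ (d * (d - 1)) * ‖Jv ^ (d * (d - 1))‖) :=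
          le_mul_of_one_le_left hnn (by
            have : (0 : ℝ) ≤ d := Nat.cast_nonneg d
            linarith)
      _ = _ := by ring
  · rw [hΨ1]
    calc ‖∑ i, (∏ j ∈ Finset.univ.erase i, ww e₀ f (p a) L (Q v₀) i j) ^ d‖
        ≤ ∑ i, ‖(∏ j ∈ Finset.univ.erase i, ww e₀ f (p a) L (Q v₀) i j) ^ d‖ := norm_sum_le _ _
      _ ≤ ∑ i : Fin d, ((|M| * ‖Jv‖) ^ (d - 1)) ^ d := Finset.sum_le_sum fun i _ => by
          rw [norm_pow]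
          exact pow_le_pow_left₀ (norm_nonneg _) (hin i) d
      _ = d * (|M| ^ (d * (d - 1)) * ‖Jv ^ (d * (d - 1))‖) := by
          rw [Finset.sum_const, Finset.card_univ, Fintype.card_fin, nsmul_eq_mul, hpow]
      _ ≤ (d + 1) * (|M| ^ (d * (d - 1)) * ‖Jv ^ (d * (d - 1))‖) :=
          mul_le_mul_of_nonneg_right (by linarith) hnn
      _ = _ := by ring

/-- C5: the bound of `Θ` and `Ψ` on the slices. -/
theorem cov_slice {f : X → Y} (hf : ∀ x, HolM E E' f x) {S : Set Y} {n e d : ℕ}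
    {𝒲 : Set (Set X)} {ι : Type u} {U : ι → Set Y} {p : ι → Fin d → Y → ℂ × ℂ}
    {c : ι → X → ℂ × ℂ} (h : J.IsBranchedOver E E' f S n e d 𝒲 U p c)
    (e₀ : E ≃L[ℂ] (E' × ℂ)) {Θ Ψ : X → ℂ}
    (hΘ : ∀ a x, f x ∈ U a → (∀ k, J.wedge (c a x) (p a k (f x)) ≠ 0) → ∀ L : X → ℂ × ℂ,
      HolV E (fun z => (L z).1) x → HolV E (fun z => (L z).2) x → L x ≠ 0 →
      (∀ᶠ z in 𝓝 x, J.wedge (c a z) (L z) = 0) →
      Θ x = (∏ i, ∏ j ∈ Finset.univ.erase i, ww e₀ f (p a) L x i j) ∧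
      Ψ x = ∑ i, (∏ j ∈ Finset.univ.erase i, ww e₀ f (p a) L x i j) ^ d) :
    ∀ r : ℝ, 0 < r → ∃ M : ℝ, 0 ≤ M ∧ ∀ (v₀ : ℂ) (Q : ℂ → X),
      (∀ v ∈ ball v₀ r, ContMDiffAt 𝓘(ℂ, ℂ) 𝓘(ℂ, E) ω Q v) → InjOn Q (ball v₀ r) →
      (∀ v ∈ ball v₀ r, f (Q v) = f (Q v₀)) → f (Q v₀) ∉ S →
      (∀ v ∈ ball v₀ r, ∀ D ∈ 𝒲, Q v ∉ D) →
      ∀ P : E →L[ℂ] ℂ, P.comp (mfderiv 𝓘(ℂ, ℂ) 𝓘(ℂ, E) Q v₀ : ℂ →L[ℂ] E) =
        ContinuousLinearMap.id ℂ ℂ →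
        ‖Θ (Q v₀)‖ ≤ M * ‖JP e₀ (dM E E' f (Q v₀)) P ^ (d * (d - 1))‖ ∧
        ‖Ψ (Q v₀)‖ ≤ M * ‖JP e₀ (dM E E' f (Q v₀)) P ^ (d * (d - 1))‖ :=
  cov_slice_of hf h e₀ hΘ fun _ hr => dlog_bound n hr

/-- the bound of `Θ ^ (B - 1) Ψ` and `Θ ^ B` on the slices. -/
theorem cov_slice_pow {f : X → Y} (hf : ∀ x, HolM E E' f x) {S : Set Y} {n e d : ℕ}
    {𝒲 : Set (Set X)} {ι : Type u} {U : ι → Set Y} {p : ι → Fin d → Y → ℂ × ℂ}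
    {c : ι → X → ℂ × ℂ} (h : J.IsBranchedOver E E' f S n e d 𝒲 U p c)
    (e₀ : E ≃L[ℂ] (E' × ℂ)) {Θ Ψ : X → ℂ}
    (hΘ : ∀ a x, f x ∈ U a → (∀ k, J.wedge (c a x) (p a k (f x)) ≠ 0) → ∀ L : X → ℂ × ℂ,
      HolV E (fun z => (L z).1) x → HolV E (fun z => (L z).2) x → L x ≠ 0 →
      (∀ᶠ z in 𝓝 x, J.wedge (c a z) (L z) = 0) →
      Θ x = (∏ i, ∏ j ∈ Finset.univ.erase i, ww e₀ f (p a) L x i j) ∧
      Ψ x = ∑ i, (∏ j ∈ Finset.univ.erase i, ww e₀ f (p a) L x i j) ^ d) {B : ℕ} (hB : 1 ≤ B) :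
    ∀ r : ℝ, 0 < r → ∃ M : ℝ, 0 ≤ M ∧ ∀ (v₀ : ℂ) (Q : ℂ → X),
      (∀ v ∈ ball v₀ r, ContMDiffAt 𝓘(ℂ, ℂ) 𝓘(ℂ, E) ω Q v) → InjOn Q (ball v₀ r) →
      (∀ v ∈ ball v₀ r, f (Q v) = f (Q v₀)) → f (Q v₀) ∉ S →
      (∀ v ∈ ball v₀ r, ∀ D ∈ 𝒲, Q v ∉ D) →
      ∀ P : E →L[ℂ] ℂ, P.comp (mfderiv 𝓘(ℂ, ℂ) 𝓘(ℂ, E) Q v₀ : ℂ →L[ℂ] E) =
        ContinuousLinearMap.id ℂ ℂ →
        ‖Θ (Q v₀) ^ B‖ ≤ M * ‖JP e₀ (dM E E' f (Q v₀)) P ^ (B * d * (d - 1))‖ ∧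
        ‖Θ (Q v₀) ^ (B - 1) * Ψ (Q v₀)‖ ≤
          M * ‖JP e₀ (dM E E' f (Q v₀)) P ^ (B * d * (d - 1))‖ := by
  intro r hr
  obtain ⟨M, hM0, hM⟩ := cov_slice hf h e₀ hΘ r hr
  refine ⟨M ^ B, by positivity, fun v₀ Q hQ hinj hfQ hS hQD P hP => ?_⟩
  obtain ⟨h1, h2⟩ := hM v₀ Q hQ hinj hfQ hS hQD P hP
  have h3 : M ^ B * ‖JP e₀ (dM E E' f (Q v₀)) P ^ (B * d * (d - 1))‖ =
      (M * ‖JP e₀ (dM E E' f (Q v₀)) P ^ (d * (d - 1))‖) ^ B := by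
    rw [mul_pow, norm_pow, norm_pow, ← pow_mul]
    congr 2
    ring
  rw [h3]
  have hnn : 0 ≤ M * ‖JP e₀ (dM E E' f (Q v₀)) P ^ (d * (d - 1))‖ := by positivity
  constructor
  · rw [norm_pow]
    exact pow_le_pow_left₀ (norm_nonneg _) h1 B
  · rw [norm_mul, norm_pow]
    calc ‖Θ (Q v₀)‖ ^ (B - 1) * ‖Ψ (Q v₀)‖
        ≤ (M * ‖JP e₀ (dM E E' f (Q v₀)) P ^ (d * (d - 1))‖) ^ (B - 1) *
          (M * ‖JP e₀ (dM E E' f (Q v₀)) P ^ (d * (d - 1))‖) :=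
          mul_le_mul (pow_le_pow_left₀ (norm_nonneg _) h1 _) h2 (norm_nonneg _) (by positivity)
      _ = (M * ‖JP e₀ (dM E E' f (Q v₀)) P ^ (d * (d - 1))‖) ^ B := by
          rw [← pow_succ, Nat.sub_add_cancel hB]

/-- the bound of `Θ ^ B` and `Θ ^ (B - 1) Ψ` at the good points of a ramification divisor. -/
theorem rel_bound_cov {f : X → Y} (hf : ∀ x, HolM E E' f x) {S : Set Y} {n e d : ℕ}
    {𝒲 : Set (Set X)} {ι : Type u} {U : ι → Set Y} {p : ι → Fin d → Y → ℂ × ℂ}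
    {c : ι → X → ℂ × ℂ} (h : J.IsBranchedOver E E' f S n e d 𝒲 U p c) (hd : 2 ≤ d)
    (e₀ : E ≃L[ℂ] (E' × ℂ)) {Θ Ψ : X → ℂ}
    (hΘ : ∀ a x, f x ∈ U a → (∀ k, J.wedge (c a x) (p a k (f x)) ≠ 0) → ∀ L : X → ℂ × ℂ,
      HolV E (fun z => (L z).1) x → HolV E (fun z => (L z).2) x → L x ≠ 0 →
      (∀ᶠ z in 𝓝 x, J.wedge (c a z) (L z) = 0) →
      Θ x = (∏ i, ∏ j ∈ Finset.univ.erase i, ww e₀ f (p a) L x i j) ∧
      Ψ x = ∑ i, (∏ j ∈ Finset.univ.erase i, ww e₀ f (p a) L x i j) ^ d) {B : ℕ} (hB : 1 ≤ B)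
    {x₀ y : X} {y₀ : Y} (hx₀ : y ∈ (chartAt E x₀).source)
    (hy₀ : f y ∈ (chartAt E' y₀).source) {e' w : X → ℂ} {g : Y → ℂ} {κ : ℕ} (hκ : 0 < κ)
    (he : HolV E e' y) (he0 : e' y = 0) (hde : dif E e' y ≠ 0) (hg : HolV E' g (f y))
    (hg0 : g (f y) = 0) (hdg : dif E' g (f y) ≠ 0) (hw : HolV E w y) (hw0 : w y ≠ 0)
    (heq : ∀ᶠ z in 𝓝 y, g (f z) = e' z ^ κ * w z)
    (hsub : ∀ η, dif E' g (f y) η = 0 → ∃ ξ, dif E e' y ξ = 0 ∧ dM E E' f y ξ = η)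
    (hA : ∀ᶠ z in 𝓝 y, f z ∉ S → ∀ D ∈ 𝒲, z ∉ D) :
    (∃ C : ℝ, ∀ᶠ z in 𝓝 y, f z ∉ S →
      ‖jac E' (chartAt E' y₀) (f z) ^ (B * d * (d - 1)) * Θ z ^ B‖ ≤
        C * ‖e' z‖ ^ (B * d * (d - 1) * (κ - 1)) *
          ‖jac E (chartAt E x₀) z ^ (B * d * (d - 1))‖) ∧
    ∃ C : ℝ, ∀ᶠ z in 𝓝 y, f z ∉ S →
      ‖jac E' (chartAt E' y₀) (f z) ^ (B * d * (d - 1)) * (Θ z ^ (B - 1) * Ψ z)‖ ≤
        C * ‖e' z‖ ^ (B * d * (d - 1) * (κ - 1)) *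
          ‖jac E (chartAt E x₀) z ^ (B * d * (d - 1))‖ := by
  have hn : 0 < B * d * (d - 1) := by
    have h1 : 0 < d - 1 := by omega
    positivity
  have hA' : ∀ᶠ z in 𝓝 y, f z ∉ S → z ∉ {x | ∃ D ∈ 𝒲, x ∈ D} := by
    filter_upwards [hA] with z hz hzS hzA
    obtain ⟨D, hD, hzD⟩ := hzA
    exact hz hzS D hD hzD
  constructor
  · refine rel_bound_GP (A := {x | ∃ D ∈ 𝒲, x ∈ D}) (Θ := fun z => Θ z ^ B) hf e₀ hn
      (fun r hr => ?_) hx₀ hy₀ hκ he he0 hde hg hg0 hdg hw hw0 heq hsub hA'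
    obtain ⟨M, -, hM⟩ := cov_slice_pow hf h e₀ hΘ hB r hr
    exact ⟨M, fun v₀ Q hQ hinj hfQ hS hQA P hP => (hM v₀ Q hQ hinj hfQ hS
      (fun v hv D hD hQD => hQA v hv ⟨D, hD, hQD⟩) P hP).1⟩
  · refine rel_bound_GP (A := {x | ∃ D ∈ 𝒲, x ∈ D}) (Θ := fun z => Θ z ^ (B - 1) * Ψ z) hf e₀ hn
      (fun r hr => ?_) hx₀ hy₀ hκ he he0 hde hg hg0 hdg hw hw0 heq hsub hA'
    obtain ⟨M, -, hM⟩ := cov_slice_pow hf h e₀ hΘ hB r hr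
    exact ⟨M, fun v₀ Q hQ hinj hfQ hS hQA P hP => (hM v₀ Q hQ hinj hfQ hS
      (fun v hv D hD hQD => hQA v hv ⟨D, hD, hQD⟩) P hP).2⟩

end Vale.Agent.P281.ELL
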