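import Vale.Agent.P281.ELL.Defs

namespace Vale.Agent.P281.J

open scoped Manifold ContDiff Topology
open Set

universe u

section

variable (E E' : Type) [NormedAddCommGroup E] [NormedSpace ℂ E]
  [NormedAddCommGroup E'] [NormedSpace ℂ E']
variable {X Y : Type u} [TopologicalSpace X] [ChartedSpace E X]
  [TopologicalSpace Y] [ChartedSpace E' Y]

/-- Over `Y ∖ S`, `f : X → Y` is a smooth family of elliptic curves, with arbitrary variation: the
open sets `U a` cover `Y ∖ S`; for `y ∈ U a`, the fibre `f⁻¹(y)` is uniformized by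
`π a y : ℂ → f⁻¹(y)`, with lattice of periods `ℤ + ℤ τ a y`, where `τ a` is holomorphic with
positive imaginary part; near each point of `f⁻¹(U a)` there is a holomorphic fibre coordinate `ζ`
of `f` inverse to `π a`. -/
def IsEllipticOver (f : X → Y) (S : Set Y) {ι : Type u} (U : ι → Set Y) (τ : ι → Y → ℂ)
    (π : ι → Y → ℂ → X) : Prop :=
  (∀ y, y ∉ S ↔ ∃ a, y ∈ U a) ∧
  ∀ a, IsOpen (U a) ∧
    (∀ y ∈ U a, HolAt E' (τ a) y ∧ 0 < (τ a y).im ∧ ∀ w w', f (π a y w) = y ∧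
      (π a y w = π a y w' ↔ ∃ m n : ℤ, w' = w + m + n * τ a y)) ∧
    ∀ x, f x ∈ U a → ∃ ζ : X → ℂ, HolAt E ζ x ∧ (∀ᶠ z in 𝓝 x, π a (f z) (ζ z) = z) ∧
      ∀ ξ : E, mfderiv 𝓘(ℂ, E) 𝓘(ℂ, E') f x ξ = 0 → dif E ζ x ξ = 0 → ξ = 0

end

end Vale.Agent.P281.J
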