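import Vale.Agent.P281.ELL.DefsL

namespace Vale.Agent.P281.J

open Set

universe u

section

variable (E' : Type) [NormedAddCommGroup E'] [NormedSpace ℂ E']
variable {X Y F : Type u} [TopologicalSpace Y] [ChartedSpace E' Y]

/-- The components of `Δ_F` lie on components of `Δ` which are étale multisections of `f` over the
union of the `U a`; for instance `Δ_F = Δ|_F`, if all the components of `Δ` meeting `F` are such
multisections (`i : F → X` is the inclusion of the fibre). -/
def IsCarriedBy (f : X → Y) {ι : Type u} (U : ι → Set Y) (π : ι → Y → ℂ → X) (Δ : Set X → ℝ)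
    (i : F → X) (ΔF : Set F → ℝ) : Prop :=
  ∀ C, ΔF C ≠ 0 → ∃ D, Δ D ≠ 0 ∧ IsMultisection E' f U π D ∧ i '' C ⊆ D

end

end Vale.Agent.P281.J
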