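import Vale.Agent.P281.ELL.Defs

namespace Vale.Agent.P281.J

open scoped Manifold ContDiff Topology
open Set

universe u

section

variable (E' : Type) [NormedAddCommGroup E'] [NormedSpace ℂ E']
variable {X Y : Type u} [TopologicalSpace Y] [ChartedSpace E' Y]

/-- Over the union of the `U a`, `D ⊂ X` is an étale multisection of some degree `d` of the elliptic
family `f` with uniformizations `π a y : ℂ → f⁻¹(y)`: over `U a` it is the union of the images of
`d` holomorphic sections `y ↦ π a y (p k y)`, pairwise disjoint. -/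
def IsMultisection (f : X → Y) {ι : Type u} (U : ι → Set Y) (π : ι → Y → ℂ → X) (D : Set X) :
    Prop :=
  ∃ d : ℕ, ∀ a, ∃ p : Fin d → Y → ℂ, (∀ k, ∀ y ∈ U a, HolAt E' (p k) y) ∧
    (∀ x, f x ∈ U a → (x ∈ D ↔ ∃ k, π a (f x) (p k (f x)) = x)) ∧
    ∀ y ∈ U a, ∀ k k', π a y (p k y) = π a y (p k' y) → k = k'

end

end Vale.Agent.P281.J
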