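import Vale.Agent.P281.ELL.FibG
import Vale.Agent.P281.ELL.Slice
import Vale.Agent.P281.ELL.RelG

/-! P281, elliptic fibrations: the relative form at the good points of a ramification divisor. -/

open scoped Manifold ContDiff Topology
open Set Filter Metric

namespace Vale.Agent.P281.ELL

open Vale.Agent.P281 Vale.Agent.P281.MF Vale.Agent.P281.ISO

set_option linter.all false

universe u

variable {E E' : Type} [NormedAddCommGroup E] [NormedSpace ℂ E] [FiniteDimensional ℂ E]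
  [NormedAddCommGroup E'] [NormedSpace ℂ E'] [FiniteDimensional ℂ E']
variable {X Y : Type u} [TopologicalSpace X] [ChartedSpace E X] [IsManifold 𝓘(ℂ, E) ω X]
  [TopologicalSpace Y] [ChartedSpace E' Y] [IsManifold 𝓘(ℂ, E') ω Y]

/-- the uniform bound of the relative form on the slices of the fibres -/
theorem fib_bound {f : X → Y} (hf : ∀ x, HolM E E' f x) {S : Set Y} {ι : Type u}
    {U : ι → Set Y} {τ : ι → Y → ℂ} {π : ι → Y → ℂ → X}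
    (h : J.IsEllipticFamily E E' f S U τ π) (e₀ : E ≃L[ℂ] (E' × ℂ)) {Θ : X → ℂ}
    (hΘ : ∀ a x, f x ∈ U a → ∀ ζ : X → ℂ, HolV E ζ x → (∀ᶠ z in 𝓝 x, π a (f z) (ζ z) = z) →
      Θ x = D (τ a (f x)) * JP e₀ (dM E E' f x) (dif E ζ x) ^ 12) :
    ∀ r : ℝ, 0 < r → ∃ M : ℝ, ∀ (v₀ : ℂ) (Q : ℂ → X),
      (∀ v ∈ ball v₀ r, ContMDiffAt 𝓘(ℂ, ℂ) 𝓘(ℂ, E) ω Q v) → InjOn Q (ball v₀ r) →
      (∀ v ∈ ball v₀ r, f (Q v) = f (Q v₀)) → f (Q v₀) ∉ S →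
      ∀ P : E →L[ℂ] ℂ, P.comp (mfderiv 𝓘(ℂ, ℂ) 𝓘(ℂ, E) Q v₀ : ℂ →L[ℂ] E) =
        ContinuousLinearMap.id ℂ ℂ → ‖Θ (Q v₀)‖ ≤ M * ‖JP e₀ (dM E E' f (Q v₀)) P ^ 12‖ :=
  fib_bound_of hf h (fun a y hy v₀ r hr Q hQ hfQ => slice_lift h hy hr hQ hfQ) e₀ hΘ

/-- the bound of the relative form at the good points of a ramification divisor -/
theorem rel_bound_ell {f : X → Y} (hf : ∀ x, HolM E E' f x) {S : Set Y} {ι : Type u}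
    {U : ι → Set Y} {τ : ι → Y → ℂ} {π : ι → Y → ℂ → X}
    (h : J.IsEllipticFamily E E' f S U τ π) (e₀ : E ≃L[ℂ] (E' × ℂ)) {Θ : X → ℂ}
    (hΘ : ∀ a x, f x ∈ U a → ∀ ζ : X → ℂ, HolV E ζ x → (∀ᶠ z in 𝓝 x, π a (f z) (ζ z) = z) →
      Θ x = D (τ a (f x)) * JP e₀ (dM E E' f x) (dif E ζ x) ^ 12)
    {x₀ y : X} {y₀ : Y} (hx₀ : y ∈ (chartAt E x₀).source)
    (hy₀ : f y ∈ (chartAt E' y₀).source) {e w : X → ℂ} {g : Y → ℂ} {κ : ℕ} (hκ : 0 < κ)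
    (he : HolV E e y) (he0 : e y = 0) (hde : dif E e y ≠ 0) (hg : HolV E' g (f y))
    (hg0 : g (f y) = 0) (hdg : dif E' g (f y) ≠ 0) (hw : HolV E w y) (hw0 : w y ≠ 0)
    (heq : ∀ᶠ z in 𝓝 y, g (f z) = e z ^ κ * w z)
    (hsub : ∀ η, dif E' g (f y) η = 0 → ∃ ξ, dif E e y ξ = 0 ∧ dM E E' f y ξ = η) :
    ∃ C : ℝ, ∀ᶠ z in 𝓝 y, f z ∉ S →
      ‖jac E' (chartAt E' y₀) (f z) ^ 12 * Θ z‖ ≤
        C * ‖e z‖ ^ (12 * (κ - 1)) * ‖jac E (chartAt E x₀) z ^ 12‖ :=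
  rel_bound_G hf e₀ (by norm_num) (fib_bound hf h e₀ hΘ) hx₀ hy₀ hκ he he0 hde hg hg0 hdg hw hw0
    heq hsub

end Vale.Agent.P281.ELL
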