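import Vale.Agent.P281.ELL.Theta
import Vale.Agent.P281.ELL.Area

/-! P281, elliptic fibrations: the uniform bound of the relative form on the slices of the
fibres. -/

open scoped Manifold ContDiff Topology
open Set Filter Metric

namespace Vale.Agent.P281.ELL

open Vale.Agent.P281 Vale.Agent.P281.MF Vale.Agent.P281.ISO

set_option linter.all false

universe u

variable {E E' : Type} [NormedAddCommGroup E] [NormedSpace ℂ E] [FiniteDimensional ℂ E]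
  [NormedAddCommGroup E'] [NormedSpace ℂ E'] [FiniteDimensional ℂ E']
variable {X Y : Type u} [TopologicalSpace X] [ChartedSpace E X] [IsManifold 𝓘(ℂ, E) ω X]
  [TopologicalSpace Y] [ChartedSpace E' Y] [IsManifold 𝓘(ℂ, E') ω Y]

theorem fib_bound_of {f : X → Y} (hf : ∀ x, HolM E E' f x) {S : Set Y} {ι : Type u}
    {U : ι → Set Y} {τ : ι → Y → ℂ} {π : ι → Y → ℂ → X}
    (h : J.IsEllipticFamily E E' f S U τ π)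
    (hSL : ∀ (a : ι) (y : Y), y ∈ U a → ∀ (v₀ : ℂ) (r : ℝ), 0 < r → ∀ Q : ℂ → X,
      (∀ v ∈ ball v₀ r, ContMDiffAt 𝓘(ℂ, ℂ) 𝓘(ℂ, E) ω Q v) → (∀ v ∈ ball v₀ r, f (Q v) = y) →
      ∃ H : ℂ → ℂ, DifferentiableOn ℂ H (ball v₀ r) ∧ (∀ v ∈ ball v₀ r, π a y (H v) = Q v) ∧
        ∀ v ∈ ball v₀ r, ∀ ζ : X → ℂ, HolV E ζ (Q v) →
          (∀ᶠ z in 𝓝 (Q v), π a (f z) (ζ z) = z) →
          deriv H v = dif E ζ (Q v) ((mfderiv 𝓘(ℂ, ℂ) 𝓘(ℂ, E) Q v : ℂ →L[ℂ] E) (1 : ℂ)))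
    (e₀ : E ≃L[ℂ] (E' × ℂ)) {Θ : X → ℂ}
    (hΘ : ∀ a x, f x ∈ U a → ∀ ζ : X → ℂ, HolV E ζ x → (∀ᶠ z in 𝓝 x, π a (f z) (ζ z) = z) →
      Θ x = D (τ a (f x)) * JP e₀ (dM E E' f x) (dif E ζ x) ^ 12) :
    ∀ r : ℝ, 0 < r → ∃ M : ℝ, ∀ (v₀ : ℂ) (Q : ℂ → X),
      (∀ v ∈ ball v₀ r, ContMDiffAt 𝓘(ℂ, ℂ) 𝓘(ℂ, E) ω Q v) → InjOn Q (ball v₀ r) →
      (∀ v ∈ ball v₀ r, f (Q v) = f (Q v₀)) → f (Q v₀) ∉ S →
      ∀ P : E →L[ℂ] ℂ, P.comp (mfderiv 𝓘(ℂ, ℂ) 𝓘(ℂ, E) Q v₀ : ℂ →L[ℂ] E) =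
        ContinuousLinearMap.id ℂ ℂ → ‖Θ (Q v₀)‖ ≤ M * ‖JP e₀ (dM E E' f (Q v₀)) P ^ 12‖ := by
  intro r hr
  obtain ⟨C, hC⟩ := D_bound
  refine ⟨C / (Real.pi * r ^ 2) ^ 6, fun v₀ Q hQ hinj hfQ hS P hP => ?_⟩
  obtain ⟨a, ha⟩ := (h.1 _).1 hS
  have hy := h.2.1 a
  obtain ⟨-, hτ, hlat⟩ := hy.2.1 _ ha
  obtain ⟨ζ, hζ, hζπ, hζi⟩ := hy.2.2 (Q v₀) ha
  obtain ⟨H, hH, hπH, hdH⟩ := hSL a _ ha v₀ r hr Q hQ hfQ
  have hv₀ : v₀ ∈ ball v₀ r := mem_ball_self hr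
  obtain ⟨L, hL⟩ : ∃ L : ℂ →L[ℂ] E, L = mfderiv 𝓘(ℂ, ℂ) 𝓘(ℂ, E) Q v₀ := ⟨_, rfl⟩
  have hd1 := hdH v₀ hv₀ ζ hζ hζπ
  have hd2 : deriv H v₀ = dif E ζ (Q v₀) (L 1) := by
    subst hL
    exact hd1
  have hP1 : P (L 1) = 1 := by
    have h1 : P.comp L = ContinuousLinearMap.id ℂ ℂ := by
      subst hL
      exact hP
    have h2 := congrArg (fun T : ℂ →L[ℂ] ℂ => T 1) h1
    exact h2
  -- `f ∘ Q` is constant
  have hA : dM E E' f (Q v₀) (L 1) = 0 := by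
    have h1 : (fun v => f (Q v)) =ᶠ[𝓝 v₀] fun _ => f (Q v₀) := by
      filter_upwards [isOpen_ball.mem_nhds hv₀] with v hv
      exact hfQ v hv
    have h2 := mfderiv_comp v₀ (g := f) (f := Q) ((hf (Q v₀)).mdifferentiableAt (by simp))
      ((hQ v₀ hv₀).mdifferentiableAt (by simp))
    have h3 : mfderiv 𝓘(ℂ, ℂ) 𝓘(ℂ, E') (f ∘ Q) v₀ = 0 := by
      have h4 : (f ∘ Q) =ᶠ[𝓝 v₀] fun _ => f (Q v₀) := h1
      rw [h4.mfderiv_eq]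
      exact mfderiv_const
    have h5 : (dM E E' f (Q v₀)).comp L = 0 := by
      subst hL
      exact h2.symm.trans h3
    have h6 := congrArg (fun T : ℂ →L[ℂ] E' => T 1) h5
    exact h6
  have hl : deriv H v₀ ≠ 0 := by
    intro h0
    have h1 : L 1 = 0 := hζi (L 1) hA (hd2.symm.trans h0)
    rw [h1, map_zero] at hP1
    exact zero_ne_one hP1
  have hJ := JP_scale e₀ hA hP1 hl hd2.symm
  have hΘ1 := hΘ a (Q v₀) ha ζ hζ hζπ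
  have harea := area_bound hτ hr hH (v₀ := v₀) (fun w hw w' hw' hmn => by
    refine hinj hw hw' ?_
    rw [← hπH w hw, ← hπH w' hw']
    exact ((hlat (H w) (H w')).2).2 hmn)
  set t := (τ a (f (Q v₀))).im with ht
  have hpr : 0 < Real.pi * r ^ 2 := by positivity
  have hb : ‖deriv H v₀‖ ^ 12 ≤ t ^ 6 / (Real.pi * r ^ 2) ^ 6 := by
    have h1 : ‖deriv H v₀‖ ^ 12 = (‖deriv H v₀‖ ^ 2) ^ 6 := by ring
    rw [h1, ← div_pow]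
    exact pow_le_pow_left₀ (by positivity) harea 6
  rw [hΘ1, hJ, mul_pow, norm_mul, norm_mul, norm_pow (deriv H v₀)]
  calc ‖D (τ a (f (Q v₀)))‖ * (‖deriv H v₀‖ ^ 12 * ‖JP e₀ (dM E E' f (Q v₀)) P ^ 12‖)
      ≤ ‖D (τ a (f (Q v₀)))‖ * (t ^ 6 / (Real.pi * r ^ 2) ^ 6 *
        ‖JP e₀ (dM E E' f (Q v₀)) P ^ 12‖) := by
        gcongr
    _ = ‖D (τ a (f (Q v₀)))‖ * t ^ 6 / (Real.pi * r ^ 2) ^ 6 *
        ‖JP e₀ (dM E E' f (Q v₀)) P ^ 12‖ := by ring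
    _ ≤ C / (Real.pi * r ^ 2) ^ 6 * ‖JP e₀ (dM E E' f (Q v₀)) P ^ 12‖ := by
        gcongr
        exact hC _ hτ

end Vale.Agent.P281.ELL
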