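import Vale.Agent.P281.ELL.Disc

/-!
# P281, elliptic fibrations with boundary: reduction to the fundamental domain, decay of `D`
-/

open scoped ContDiff MatrixGroups ModularForm Topology
open UpperHalfPlane Filter

namespace Vale.Agent.P281.ELL

theorem exists_reduced {t : ℂ} (ht : 0 < t.im) : ∃ t' l : ℂ, 0 < t'.im ∧ |t'.re| ≤ 1 / 2 ∧
    1 ≤ ‖t'‖ ∧ l ≠ 0 ∧
    ∀ w : ℂ, (∃ m n : ℤ, w = m + n * t) ↔ ∃ m n : ℤ, l * w = m + n * t' := by
  obtain ⟨g, hg⟩ := ModularGroup.exists_smul_mem_fd (⟨t, ht⟩ : ℍ)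
  obtain ⟨h1, h2⟩ := hg
  have hdet : (g 0 0 : ℤ) * g 1 1 - g 0 1 * g 1 0 = 1 := by
    have := g.det_coe
    rw [Matrix.det_fin_two] at this
    exact this
  obtain ⟨a, ha⟩ : ∃ a : ℤ, a = g 0 0 := ⟨_, rfl⟩
  obtain ⟨b, hb⟩ : ∃ a : ℤ, a = g 0 1 := ⟨_, rfl⟩
  obtain ⟨c, hc⟩ : ∃ a : ℤ, a = g 1 0 := ⟨_, rfl⟩
  obtain ⟨d, hd⟩ : ∃ a : ℤ, a = g 1 1 := ⟨_, rfl⟩
  have hco : ((g • (⟨t, ht⟩ : ℍ) : ℍ) : ℂ) = (a * t + b) / (c * t + d) := by
    rw [UpperHalfPlane.coe_specialLinearGroup_apply, ← ha, ← hb, ← hc, ← hd]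
    simp
  rw [← ha, ← hb, ← hc, ← hd] at hdet
  have hdet' : (a : ℂ) * d - b * c = 1 := by exact_mod_cast hdet
  have hne : (c * t + d : ℂ) ≠ 0 := by
    intro h0
    have him : (c : ℝ) * t.im = 0 := by
      have := congrArg Complex.im h0
      simpa using this
    have hc1 : (c : ℝ) = 0 := by
      rcases mul_eq_zero.1 him with h1 | h1
      · exact h1
      · exact absurd h1 ht.ne'
    have hc' : c = 0 := by exact_mod_cast hc1
    rw [hc'] at h0
    have hd1 : (d : ℂ) = 0 := by simpa using h0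
    have hd' : d = 0 := by exact_mod_cast hd1
    rw [hc', hd'] at hdet
    omega
  refine ⟨(a * t + b) / (c * t + d), 1 / (c * t + d), ?_, ?_, ?_, one_div_ne_zero hne, ?_⟩
  · rw [← hco]
    exact (g • (⟨t, ht⟩ : ℍ)).im_pos
  · rw [← hco]
    exact h2
  · rw [← hco]
    rw [Complex.normSq_eq_norm_sq] at h1
    have h3 := norm_nonneg ((g • (⟨t, ht⟩ : ℍ) : ℍ) : ℂ)
    nlinarith
  · intro w
    constructor
    · rintro ⟨m, n, rfl⟩
      refine ⟨a * m - b * n, d * n - c * m, ?_⟩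
      push_cast
      field_simp
      linear_combination (-(m : ℂ) - n * t) * hdet'
    · rintro ⟨m, n, h⟩
      refine ⟨m * d + n * b, m * c + n * a, ?_⟩
      push_cast
      field_simp at h
      linear_combination h

theorem D_decay (A : ℕ) : ∃ C : ℝ, ∀ t : ℂ, 1 / 2 ≤ t.im → ‖D t‖ * t.im ^ A ≤ C := by
  obtain ⟨c, hc, hO⟩ := CuspFormClass.exp_decay_atImInfty' CuspForm.discriminant
  obtain ⟨K, hK⟩ := hO.bound
  obtain ⟨B, hB⟩ := (UpperHalfPlane.atImInfty_mem _).1 hK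
  obtain ⟨C₀, hC₀⟩ := D_bound
  refine ⟨|K| * ((A.factorial : ℝ) / c ^ A) + 64 * |C₀| * |B| ^ A, fun t ht => ?_⟩
  have ht0 : 0 < t.im := by linarith
  have hn1 : 0 ≤ |K| * ((A.factorial : ℝ) / c ^ A) := by positivity
  have hn2 : 0 ≤ 64 * |C₀| * |B| ^ A := by positivity
  rcases le_total B t.im with h | h
  · have h1 := hB ⟨t, ht0⟩ h
    have h2 : ‖D t‖ ≤ |K| * Real.exp (-c * t.im) := by
      rw [D_eq ht0]
      have h3 : ‖ModularForm.discriminant ⟨t, ht0⟩‖ ≤ K * ‖Real.exp (-c * t.im)‖ := h1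
      rw [Real.norm_eq_abs, abs_of_pos (Real.exp_pos _)] at h3
      exact h3.trans (mul_le_mul_of_nonneg_right (le_abs_self K) (Real.exp_pos _).le)
    have h4 : (c * t.im) ^ A / (A.factorial : ℝ) ≤ Real.exp (c * t.im) :=
      Real.pow_div_factorial_le_exp _ (by positivity) A
    have hf : (0 : ℝ) < A.factorial := by exact_mod_cast A.factorial_pos
    have h5 : Real.exp (-c * t.im) * t.im ^ A ≤ (A.factorial : ℝ) / c ^ A := by
      rw [le_div_iff₀ (pow_pos hc A)]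
      rw [div_le_iff₀ hf, mul_pow] at h4
      calc Real.exp (-c * t.im) * t.im ^ A * c ^ A
          = Real.exp (-c * t.im) * (c ^ A * t.im ^ A) := by ring
        _ ≤ Real.exp (-c * t.im) * (Real.exp (c * t.im) * A.factorial) :=
            mul_le_mul_of_nonneg_left h4 (Real.exp_pos _).le
        _ = A.factorial := by
            rw [← mul_assoc, ← Real.exp_add]
            simp
    calc ‖D t‖ * t.im ^ A ≤ |K| * Real.exp (-c * t.im) * t.im ^ A :=
          mul_le_mul_of_nonneg_right h2 (by positivity)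
      _ = |K| * (Real.exp (-c * t.im) * t.im ^ A) := by ring
      _ ≤ |K| * ((A.factorial : ℝ) / c ^ A) := mul_le_mul_of_nonneg_left h5 (abs_nonneg K)
      _ ≤ _ := by linarith
  · have h1 := hC₀ t ht0
    have h2 : (1 / 2 : ℝ) ^ 6 ≤ t.im ^ 6 := pow_le_pow_left₀ (by norm_num) ht 6
    have h3 : ‖D t‖ * (1 / 2 : ℝ) ^ 6 ≤ |C₀| :=
      (mul_le_mul_of_nonneg_left h2 (norm_nonneg _)).trans (h1.trans (le_abs_self _))
    have h4 : ‖D t‖ ≤ 64 * |C₀| := by
      norm_num at h3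
      linarith
    have h5 : t.im ^ A ≤ |B| ^ A := pow_le_pow_left₀ ht0.le (h.trans (le_abs_self B)) A
    have h6 : ‖D t‖ * t.im ^ A ≤ 64 * |C₀| * |B| ^ A :=
      mul_le_mul h4 h5 (by positivity) (by positivity)
    linarith

end Vale.Agent.P281.ELL
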