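import Vale.Agent.P281.ELL.WDef
import Mathlib.Analysis.PSeries
import Mathlib.Analysis.Normed.Ring.InfiniteSum

/-!
# P281, elliptic fibrations with boundary: bound for `W` in the fundamental domain
-/

namespace Vale.Agent.P281.ELL

theorem summable_inv_one_add_sq : Summable fun m : ℤ => (1 + (m : ℝ) ^ 2)⁻¹ := by
  have h1 : Summable fun m : ℤ => 1 / (m : ℝ) ^ 2 := Real.summable_one_div_int_pow.2 (by norm_num)
  have h2 : Summable fun m : ℤ => if m = 0 then (1 : ℝ) else 0 :=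
    (hasSum_ite_eq (0 : ℤ) (1 : ℝ)).summable
  refine (h1.add h2).of_nonneg_of_le (fun m => by positivity) fun m => ?_
  by_cases hm : m = 0
  · simp [hm]
  · have : (0 : ℝ) < (m : ℝ) ^ 2 := by
      have : (m : ℝ) ≠ 0 := by exact_mod_cast hm
      positivity
    simp only [hm, if_false, add_zero, one_div]
    exact inv_anti₀ this (by linarith)

theorem summable_lattice :
    Summable fun c : ℤ × ℤ => (1 + (c.1 : ℝ) ^ 2)⁻¹ * (1 + (c.2 : ℝ) ^ 2)⁻¹ :=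
  summable_inv_one_add_sq.mul_of_nonneg summable_inv_one_add_sq (fun m => by positivity)
    fun m => by positivity

theorem normSq_lower {t : ℂ} (h1 : |t.re| ≤ 1 / 2) (h2 : 1 ≤ ‖t‖) (a b : ℝ) :
    (a ^ 2 + b ^ 2) / 2 ≤ ‖(a : ℂ) + b * t‖ ^ 2 := by
  have h3 : ‖(a : ℂ) + b * t‖ ^ 2 = a ^ 2 + 2 * (a * b) * t.re + b ^ 2 * ‖t‖ ^ 2 := by
    rw [← Complex.normSq_eq_norm_sq, ← Complex.normSq_eq_norm_sq, Complex.normSq_apply,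
      Complex.normSq_apply]
    simp
    ring
  have h4 : 1 ≤ ‖t‖ ^ 2 := by nlinarith
  have h5 : b ^ 2 ≤ b ^ 2 * ‖t‖ ^ 2 := by nlinarith [sq_nonneg b]
  have h6 : |a * b * t.re| ≤ |a * b| * (1 / 2) := by
    rw [abs_mul]
    exact mul_le_mul_of_nonneg_left h1 (abs_nonneg _)
  have h7 : |a * b| ≤ (a ^ 2 + b ^ 2) / 2 := by
    rw [abs_mul]
    nlinarith [sq_nonneg (|a| - |b|), sq_abs a, sq_abs b]
  have h8 := neg_abs_le (a * b * t.re)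
  rw [h3]
  nlinarith

theorem half_le {x : ℝ} (hx : |x| ≤ 1 / 2) (m : ℤ) : (m : ℝ) ^ 2 / 4 ≤ (x - m) ^ 2 := by
  by_cases hm : m = 0
  · subst hm
    simp
    positivity
  have h1 : (1 : ℝ) ≤ |(m : ℝ)| := by
    have : (1 : ℤ) ≤ |m| := Int.one_le_abs hm
    exact_mod_cast this
  have h2 : |(m : ℝ)| / 2 ≤ |x - m| := by
    have := abs_sub_abs_le_abs_sub (m : ℝ) x
    rw [abs_sub_comm] at this
    linarith
  have h3 : (|(m : ℝ)| / 2) ^ 2 ≤ |x - m| ^ 2 := pow_le_pow_left₀ (by positivity) h2 2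
  rw [sq_abs, div_pow, sq_abs] at h3
  linarith

theorem W_bound : ∃ C : ℝ, ∀ t : ℂ, 0 < t.im → |t.re| ≤ 1 / 2 → 1 ≤ ‖t‖ → ∀ x y : ℝ,
    |x| ≤ 1 / 2 → |y| ≤ 1 / 2 → ‖W t (x + y * t)‖ ≤ C * (1 + ((x ^ 2 + y ^ 2) ^ 6)⁻¹) := by
  obtain ⟨G, hG⟩ : ∃ G : ℝ, G = ∑' c : ℤ × ℤ,
      (8 : ℝ) ^ 6 * 4 * ((1 + (c.1 : ℝ) ^ 2)⁻¹ * (1 + (c.2 : ℝ) ^ 2)⁻¹) := ⟨_, rfl⟩
  have hs : Summable fun c : ℤ × ℤ =>
      (8 : ℝ) ^ 6 * 4 * ((1 + (c.1 : ℝ) ^ 2)⁻¹ * (1 + (c.2 : ℝ) ^ 2)⁻¹) :=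
    summable_lattice.mul_left _
  have hG0 : 0 ≤ G := by
    rw [hG]
    exact tsum_nonneg fun c => by positivity
  refine ⟨G + 64, fun t ht h1 h2 x y hx hy => ?_⟩
  have hterm : ∀ c : ℤ × ℤ, c ≠ 0 → ‖(((x + y * t : ℂ) - c.1 - c.2 * t) ^ 12)⁻¹‖ ≤
      (8 : ℝ) ^ 6 * 4 * ((1 + (c.1 : ℝ) ^ 2)⁻¹ * (1 + (c.2 : ℝ) ^ 2)⁻¹) := by
    intro c hc
    have e1 : (x + y * t : ℂ) - c.1 - c.2 * t = ((x - c.1 : ℝ) : ℂ) + ((y - c.2 : ℝ) : ℂ) * t := by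
      push_cast
      ring
    have e2 := normSq_lower h1 h2 (x - c.1) (y - c.2)
    rw [← e1] at e2
    have e3 := half_le hx c.1
    have e4 := half_le hy c.2
    have e5 : ((c.1 : ℝ) ^ 2 + (c.2 : ℝ) ^ 2) / 8 ≤ ‖(x + y * t : ℂ) - c.1 - c.2 * t‖ ^ 2 := by
      linarith
    have e6 : (1 : ℝ) ≤ (c.1 : ℝ) ^ 2 + (c.2 : ℝ) ^ 2 := by
      have : c.1 ≠ 0 ∨ c.2 ≠ 0 := by
        by_contra hcon
        push Not at hcon
        exact hc (Prod.ext hcon.1 hcon.2)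
      rcases this with h | h
      · have : (1 : ℝ) ≤ (c.1 : ℝ) ^ 2 := by
          have : (1 : ℤ) ≤ c.1 ^ 2 := by
            have := Int.one_le_abs h
            nlinarith [sq_abs c.1]
          exact_mod_cast this
        nlinarith [sq_nonneg (c.2 : ℝ)]
      · have : (1 : ℝ) ≤ (c.2 : ℝ) ^ 2 := by
          have : (1 : ℤ) ≤ c.2 ^ 2 := by
            have := Int.one_le_abs h
            nlinarith [sq_abs c.2]
          exact_mod_cast this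
        nlinarith [sq_nonneg (c.1 : ℝ)]
    obtain ⟨A, hA⟩ : ∃ A : ℝ, A = (c.1 : ℝ) ^ 2 := ⟨_, rfl⟩
    obtain ⟨B, hB⟩ : ∃ B : ℝ, B = (c.2 : ℝ) ^ 2 := ⟨_, rfl⟩
    have hA0 : 0 ≤ A := by rw [hA]; positivity
    have hB0 : 0 ≤ B := by rw [hB]; positivity
    rw [← hA, ← hB] at e5 e6 ⊢
    have e7 : (1 + A) * (1 + B) ≤ 4 * (A + B) ^ 6 := by
      have k1 : (1 + A) * (1 + B) ≤ 4 * (A + B) ^ 2 := by nlinarith
      have k2 : (A + B) ^ 2 ≤ (A + B) ^ 6 := pow_le_pow_right₀ e6 (by norm_num)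
      linarith
    have e8 : ((A + B) / 8) ^ 6 ≤ ‖(x + y * t : ℂ) - c.1 - c.2 * t‖ ^ 12 := by
      calc ((A + B) / 8) ^ 6 ≤ (‖(x + y * t : ℂ) - c.1 - c.2 * t‖ ^ 2) ^ 6 :=
            pow_le_pow_left₀ (by positivity) e5 6
        _ = _ := by rw [← pow_mul]
    rw [norm_inv, norm_pow]
    calc (‖(x + y * t : ℂ) - c.1 - c.2 * t‖ ^ 12)⁻¹ ≤ (((A + B) / 8) ^ 6)⁻¹ :=
          inv_anti₀ (by positivity) e8
      _ = 8 ^ 6 * ((A + B) ^ 6)⁻¹ := by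
          rw [div_pow, inv_div, div_eq_mul_inv]
      _ ≤ 8 ^ 6 * (4 * ((1 + A) * (1 + B))⁻¹) := by
          refine mul_le_mul_of_nonneg_left ?_ (by positivity)
          rw [← div_eq_mul_inv, le_div_iff₀ (by positivity), inv_mul_eq_div,
            div_le_iff₀ (by positivity)]
          exact e7
      _ = _ := by rw [mul_inv]; ring
  have hzero : ‖(((x + y * t : ℂ) - (0 : ℤ) - (0 : ℤ) * t) ^ 12)⁻¹‖ ≤
      64 * ((x ^ 2 + y ^ 2) ^ 6)⁻¹ := by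
    have e0 : (x + y * t : ℂ) - (0 : ℤ) - (0 : ℤ) * t = (x : ℂ) + (y : ℂ) * t := by
      push_cast
      ring
    rw [e0]
    rcases eq_or_lt_of_le (show (0 : ℝ) ≤ x ^ 2 + y ^ 2 by positivity) with h | h
    · have hx0 : x = 0 := by nlinarith [sq_nonneg x, sq_nonneg y]
      have hy0 : y = 0 := by nlinarith [sq_nonneg x, sq_nonneg y]
      simp [hx0, hy0]
    · have e2 := normSq_lower h1 h2 x y
      have e8 : ((x ^ 2 + y ^ 2) / 2) ^ 6 ≤ ‖(x : ℂ) + y * t‖ ^ 12 := by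
        calc ((x ^ 2 + y ^ 2) / 2) ^ 6 ≤ (‖(x : ℂ) + y * t‖ ^ 2) ^ 6 :=
              pow_le_pow_left₀ (by positivity) e2 6
          _ = _ := by rw [← pow_mul]
      rw [norm_inv, norm_pow]
      calc (‖(x : ℂ) + y * t‖ ^ 12)⁻¹ ≤ (((x ^ 2 + y ^ 2) / 2) ^ 6)⁻¹ :=
            inv_anti₀ (by positivity) e8
        _ = 64 * ((x ^ 2 + y ^ 2) ^ 6)⁻¹ := by
            rw [div_pow, inv_div, div_eq_mul_inv]
            norm_num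
  obtain ⟨T, hT⟩ : ∃ T : ℤ × ℤ → ℂ, T = fun c => (((x + y * t : ℂ) - c.1 - c.2 * t) ^ 12)⁻¹ :=
    ⟨_, rfl⟩
  have hbd : ∀ c, ‖T c‖ ≤ (8 : ℝ) ^ 6 * 4 * ((1 + (c.1 : ℝ) ^ 2)⁻¹ * (1 + (c.2 : ℝ) ^ 2)⁻¹) +
      if c = 0 then ‖T 0‖ else 0 := by
    intro c
    by_cases hc : c = 0
    · rw [if_pos hc, hc]
      have : (0 : ℝ) ≤ (8 : ℝ) ^ 6 * 4 *
          ((1 + (((0 : ℤ × ℤ).1 : ℤ) : ℝ) ^ 2)⁻¹ * (1 + (((0 : ℤ × ℤ).2 : ℤ) : ℝ) ^ 2)⁻¹) := by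
        positivity
      linarith
    · rw [if_neg hc, add_zero, hT]
      exact hterm c hc
  have hs2 : Summable fun c : ℤ × ℤ => if c = 0 then ‖T 0‖ else 0 :=
    (hasSum_ite_eq (0 : ℤ × ℤ) ‖T 0‖).summable
  have hsn : Summable fun c => ‖T c‖ :=
    (hs.add hs2).of_nonneg_of_le (fun c => norm_nonneg _) hbd
  have hW : W t (x + y * t) = ∑' c, T c := by rw [hT]; rfl
  have hT0 : ‖T 0‖ ≤ 64 * ((x ^ 2 + y ^ 2) ^ 6)⁻¹ := by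
    rw [hT]
    exact hzero
  rw [hW]
  calc ‖∑' c, T c‖ ≤ ∑' c, ‖T c‖ := norm_tsum_le_tsum_norm hsn
    _ ≤ ∑' c : ℤ × ℤ, ((8 : ℝ) ^ 6 * 4 * ((1 + (c.1 : ℝ) ^ 2)⁻¹ * (1 + (c.2 : ℝ) ^ 2)⁻¹) +
      if c = 0 then ‖T 0‖ else 0) := hsn.tsum_le_tsum hbd (hs.add hs2)
    _ = G + ‖T 0‖ := by
        rw [hs.tsum_add hs2, ← hG, tsum_ite_eq]
    _ ≤ G + 64 * ((x ^ 2 + y ^ 2) ^ 6)⁻¹ := by linarith
    _ ≤ (G + 64) * (1 + ((x ^ 2 + y ^ 2) ^ 6)⁻¹) := by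
        have : (0 : ℝ) ≤ ((x ^ 2 + y ^ 2) ^ 6)⁻¹ := by positivity
        nlinarith

end Vale.Agent.P281.ELL
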