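import Mathlib.Analysis.Complex.Basic
import Mathlib.Topology.Algebra.InfiniteSum.Basic

/-!
# P281, elliptic fibrations with boundary: the lattice function `W`
-/

namespace Vale.Agent.P281.ELL

/-- `∑ (w - m - n t)⁻¹²` over the lattice points `m + n t`. -/
noncomputable def W (t w : ℂ) : ℂ := ∑' c : ℤ × ℤ, ((w - c.1 - c.2 * t) ^ 12)⁻¹

end Vale.Agent.P281.ELL
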