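import Vale.Agent.P281.MF.Hol
import Vale.Agent.P281.ELL.WDef
import Vale.Agent.P281.ELL.WBound

/-!
# P281, elliptic fibrations: the Weierstrass series of weight twelve
-/

open scoped ContDiff Topology
open Set Filter Metric

namespace Vale.Agent.P281.ELL

theorem W_add {t w : ℂ} (m n : ℤ) : W t (w + m + n * t) = W t w := by
  unfold W
  rw [← (Equiv.addRight ((m, n) : ℤ × ℤ)).tsum_eq]
  refine tsum_congr fun c => ?_
  simp only [Equiv.coe_addRight, Prod.fst_add, Prod.snd_add, Int.cast_add]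
  congr 2
  ring

theorem lat_inj {t : ℂ} (ht : 0 < t.im) {a b : ℤ × ℤ}
    (h : (a.1 : ℂ) + a.2 * t = b.1 + b.2 * t) : a = b := by
  have h1 := congrArg Complex.im h
  have h2 := congrArg Complex.re h
  simp only [Complex.add_im, Complex.intCast_im, Complex.mul_im, Complex.intCast_re, zero_mul,
    add_zero, zero_add] at h1
  have h3 : (a.2 : ℝ) = b.2 := mul_right_cancel₀ ht.ne' h1
  have h4 : a.2 = b.2 := by exact_mod_cast h3
  simp only [Complex.add_re, Complex.intCast_re, Complex.mul_re, Complex.intCast_im, zero_mul,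
    sub_zero, h3] at h2
  have h5 : (a.1 : ℝ) = b.1 := by linarith
  have h6 : a.1 = b.1 := by exact_mod_cast h5
  exact Prod.ext h6 h4

theorem W_lattice {t t' l w : ℂ} (ht : 0 < t.im) (ht' : 0 < t'.im)
    (h : ∀ w : ℂ, (∃ m n : ℤ, w = m + n * t) ↔ ∃ m n : ℤ, l * w = m + n * t') :
    W t' (l * w) * l ^ 12 = W t w := by
  have hl : l ≠ 0 := by
    rintro rfl
    obtain ⟨m, n, h1⟩ := (h (1 / 2)).2 ⟨0, 0, by simp⟩
    have h2 := congrArg (fun z : ℂ => 2 * z) h1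
    have h3 : ((1 : ℤ) : ℂ) + (0 : ℤ) * t = (2 * m : ℤ) + (2 * n : ℤ) * t := by
      push_cast
      linear_combination h2
    have h4 := lat_inj ht (a := (1, 0)) (b := (2 * m, 2 * n)) h3
    have h5 : (1 : ℤ) = 2 * m := (Prod.mk.inj h4).1
    omega
  have h1 : ∀ c : ℤ × ℤ, ∃ d : ℤ × ℤ, l * ((c.1 : ℂ) + c.2 * t) = d.1 + d.2 * t' := by
    intro c
    obtain ⟨m, n, hmn⟩ := (h _).1 ⟨c.1, c.2, rfl⟩
    exact ⟨(m, n), hmn⟩
  choose σ hσ using h1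
  have hbij : Function.Bijective σ := by
    constructor
    · intro a b hab
      apply lat_inj ht
      apply mul_left_cancel₀ hl
      rw [hσ, hσ, hab]
    · intro d
      have h2 : l * (((d.1 : ℂ) + d.2 * t') / l) = d.1 + d.2 * t' := mul_div_cancel₀ _ hl
      obtain ⟨m, n, hmn⟩ := (h (((d.1 : ℂ) + d.2 * t') / l)).2 ⟨d.1, d.2, h2⟩
      refine ⟨(m, n), ?_⟩
      apply lat_inj ht'
      rw [← hσ]
      simp only
      rw [← hmn, h2]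
  unfold W
  rw [← (Equiv.ofBijective σ hbij).tsum_eq, ← tsum_mul_right]
  refine tsum_congr fun c => ?_
  have h2 : l * w - (σ c).1 - (σ c).2 * t' = l * (w - c.1 - c.2 * t) := by
    have := hσ c
    linear_combination this
  simp only [Equiv.ofBijective_apply]
  rw [h2, mul_pow, mul_inv, mul_comm ((l ^ 12)⁻¹), mul_assoc,
    inv_mul_cancel₀ (pow_ne_zero _ hl), mul_one]

/-! ### Summability -/

/-- the comparison series. -/
noncomputable def vv (c : ℤ × ℤ) : ℝ := ((1 + |(c.1 : ℝ)|) ^ 2)⁻¹ * ((1 + |(c.2 : ℝ)|) ^ 2)⁻¹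

theorem vv_nonneg (c : ℤ × ℤ) : 0 ≤ vv c := by
  unfold vv
  positivity

theorem vv_summable : Summable vv := by
  have h1 : Summable fun n : ℤ => ((1 + |(n : ℝ)|) ^ 2)⁻¹ := by
    have h2 : Summable fun n : ℤ => 1 / (n : ℝ) ^ 2 :=
      Real.summable_one_div_int_pow.2 (by norm_num)
    refine Summable.of_norm_bounded_eventually h2 ?_
    have h3 : ∀ᶠ n : ℤ in cofinite, n ≠ 0 := by
      rw [eventually_cofinite]
      simp
    filter_upwards [h3] with n hn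
    have hn' : (0 : ℝ) < |(n : ℝ)| := abs_pos.2 (by exact_mod_cast hn)
    rw [Real.norm_of_nonneg (by positivity), one_div]
    apply inv_anti₀ (by positivity)
    rw [← sq_abs (n : ℝ)]
    gcongr
    linarith
  exact h1.mul_of_nonneg h1 (fun _ => by positivity) (fun _ => by positivity)

theorem vv_ge (c : ℤ × ℤ) : ((1 + |(c.1 : ℝ)| + |(c.2 : ℝ)|) ^ 12)⁻¹ ≤ vv c := by
  unfold vv
  rw [← mul_inv]
  apply inv_anti₀ (by positivity)
  have ha : (0 : ℝ) ≤ |(c.1 : ℝ)| := abs_nonneg _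
  have hb : (0 : ℝ) ≤ |(c.2 : ℝ)| := abs_nonneg _
  set a := |(c.1 : ℝ)|
  set b := |(c.2 : ℝ)|
  calc (1 + a) ^ 2 * (1 + b) ^ 2 ≤ (1 + a + b) ^ 2 * (1 + a + b) ^ 2 :=
        mul_le_mul (pow_le_pow_left₀ (by positivity) (by linarith) 2)
          (pow_le_pow_left₀ (by positivity) (by linarith) 2) (by positivity) (by positivity)
    _ = (1 + a + b) ^ 4 := by ring
    _ ≤ (1 + a + b) ^ 12 := pow_le_pow_right₀ (by linarith) (by norm_num)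

/-! ### Holomorphy -/

/-- sums of series of holomorphic functions. -/
theorem tsum_hol {ι : Type*} {f : ι → ℂ × ℂ → ℂ} {P : ℂ × ℂ} {δ : ℝ} (hδ : 0 < δ) {v : ι → ℝ}
    (hv : Summable v) (hf : ∀ i, DifferentiableOn ℂ (f i) (ball P (2 * δ)))
    (hb : ∀ i, ∀ x ∈ ball P (2 * δ), ‖f i x‖ ≤ v i) :
    ContDiffAt ℂ ω (fun x => ∑' i, f i x) P := by
  have h1 : ∀ x ∈ ball P δ, ball x δ ⊆ ball P (2 * δ) := by
    intro x hx y hy
    rw [mem_ball] at hx hy ⊢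
    linarith [dist_triangle y x P]
  have h2 : DifferentiableOn ℂ (fun x => ∑' i, f i x) (ball P δ) := by
    intro x hx
    refine (hasFDerivAt_tsum_of_isPreconnected (f' := fun i x => fderiv ℂ (f i) x)
      (u := fun i => v i / δ) (hv.div_const δ) isOpen_ball
      (convex_ball P δ).isPreconnected ?_ ?_ (mem_ball_self hδ) ?_
      hx).differentiableAt.differentiableWithinAt
    · intro i y hy
      exact ((hf i).differentiableAt (isOpen_ball.mem_nhds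
        (ball_subset_ball (by linarith) hy))).hasFDerivAt
    · intro i y hy
      exact MF.norm_fderiv_le_of_ball hδ ((hf i).mono (h1 y hy)) fun z hz => hb i z (h1 y hy hz)
    · exact Summable.of_norm_bounded hv fun i => hb i P (mem_ball_self (by linarith))
  exact (MF.analyticAt_of_differentiableOn isOpen_ball h2 (mem_ball_self hδ)).contDiffAt

theorem low {t₀ w₀ : ℂ} (ht : 0 < t₀.im) (A : Set (ℤ × ℤ))
    (h : ∀ c ∈ A, w₀ ≠ c.1 + c.2 * t₀) :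
    ∃ ε : ℝ, 0 < ε ∧ ∀ c ∈ A, ε * (1 + |(c.1 : ℝ)| + |(c.2 : ℝ)|) ≤ ‖w₀ - c.1 - c.2 * t₀‖ := by
  set M : ℝ := 1 + ‖t₀‖ / t₀.im + 1 / t₀.im with hM
  have hM0 : 0 < M := by positivity
  have h1 : ∀ a b : ℝ, |a| + |b| ≤ M * ‖(a : ℂ) + b * t₀‖ := by
    intro a b
    have h2 : |b| * t₀.im ≤ ‖(a : ℂ) + b * t₀‖ := by
      have h3 := Complex.abs_im_le_norm ((a : ℂ) + b * t₀)
      have h4 : ((a : ℂ) + b * t₀).im = b * t₀.im := by simp
      rwa [h4, abs_mul, abs_of_pos ht] at h3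
    have h3 : |b| ≤ ‖(a : ℂ) + b * t₀‖ / t₀.im := by rwa [le_div_iff₀ ht]
    have h4 : |a| ≤ ‖(a : ℂ) + b * t₀‖ + |b| * ‖t₀‖ := by
      have h5 : ‖(a : ℂ)‖ = |a| := by simp
      have h6 : ‖(b : ℂ) * t₀‖ = |b| * ‖t₀‖ := by simp
      have h7 := norm_sub_le ((a : ℂ) + b * t₀) (b * t₀)
      rw [add_sub_cancel_right, h5, h6] at h7
      exact h7
    have h5 : |b| * ‖t₀‖ ≤ ‖(a : ℂ) + b * t₀‖ / t₀.im * ‖t₀‖ :=
      mul_le_mul_of_nonneg_right h3 (norm_nonneg _)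
    calc |a| + |b| ≤ (‖(a : ℂ) + b * t₀‖ + ‖(a : ℂ) + b * t₀‖ / t₀.im * ‖t₀‖)
          + ‖(a : ℂ) + b * t₀‖ / t₀.im := by linarith
      _ = M * ‖(a : ℂ) + b * t₀‖ := by rw [hM]; ring
  set K : ℝ := 2 * (1 + M * ‖w₀‖) with hK
  have hfin : {c : ℤ × ℤ | c ∈ A ∧ 1 + |(c.1 : ℝ)| + |(c.2 : ℝ)| < K}.Finite := by
    refine ((Set.finite_Icc (-⌈K⌉) ⌈K⌉).prod (Set.finite_Icc (-⌈K⌉) ⌈K⌉)).subset ?_
    rintro c ⟨-, hc⟩
    have ha : |(c.1 : ℝ)| ≤ K := by linarith [abs_nonneg (c.2 : ℝ)]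
    have hb : |(c.2 : ℝ)| ≤ K := by linarith [abs_nonneg (c.1 : ℝ)]
    have hK' := Int.le_ceil K
    rw [abs_le] at ha hb
    refine ⟨⟨?_, ?_⟩, ?_, ?_⟩
    · have : (-⌈K⌉ : ℝ) ≤ c.1 := by linarith
      exact_mod_cast this
    · have : (c.1 : ℝ) ≤ ⌈K⌉ := by linarith
      exact_mod_cast this
    · have : (-⌈K⌉ : ℝ) ≤ c.2 := by linarith
      exact_mod_cast this
    · have : (c.2 : ℝ) ≤ ⌈K⌉ := by linarith
      exact_mod_cast this
  have hev : ∀ᶠ ε : ℝ in 𝓝[>] 0, ∀ c ∈ {c : ℤ × ℤ | c ∈ A ∧ 1 + |(c.1 : ℝ)| + |(c.2 : ℝ)| < K},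
      ε * (1 + |(c.1 : ℝ)| + |(c.2 : ℝ)|) ≤ ‖w₀ - c.1 - c.2 * t₀‖ := by
    rw [eventually_all_finite hfin]
    rintro c ⟨hc, -⟩
    have hs : 0 < 1 + |(c.1 : ℝ)| + |(c.2 : ℝ)| := by positivity
    have hg : 0 < ‖w₀ - c.1 - c.2 * t₀‖ := by
      rw [norm_pos_iff]
      intro h0
      exact h c hc (by linear_combination h0)
    filter_upwards [Ioo_mem_nhdsGT (div_pos hg hs)] with ε hε
    exact (le_div_iff₀ hs).1 hε.2.le
  have hev2 : ∀ᶠ ε : ℝ in 𝓝[>] 0, 0 < ε ∧ ε < 1 / (2 * M) :=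
    Ioo_mem_nhdsGT (by positivity)
  obtain ⟨ε, hε, hε0, hε1⟩ := (hev.and hev2).exists
  refine ⟨ε, hε0, fun c hc => ?_⟩
  by_cases hcK : 1 + |(c.1 : ℝ)| + |(c.2 : ℝ)| < K
  · exact hε c ⟨hc, hcK⟩
  · rw [not_lt] at hcK
    set s := 1 + |(c.1 : ℝ)| + |(c.2 : ℝ)| with hs
    have hs0 : 0 < s := by positivity
    have h2 := h1 c.1 c.2
    have h3 : ‖((c.1 : ℝ) : ℂ) + ((c.2 : ℝ) : ℂ) * t₀‖ ≤ ‖w₀‖ + ‖w₀ - c.1 - c.2 * t₀‖ := by
      have h4 := norm_sub_le w₀ (w₀ - c.1 - c.2 * t₀)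
      have h5 : w₀ - (w₀ - c.1 - c.2 * t₀) = ((c.1 : ℝ) : ℂ) + ((c.2 : ℝ) : ℂ) * t₀ := by
        push_cast
        ring
      rwa [h5] at h4
    have h4 : s - 1 ≤ M * (‖w₀‖ + ‖w₀ - c.1 - c.2 * t₀‖) := by
      calc s - 1 = |(c.1 : ℝ)| + |(c.2 : ℝ)| := by rw [hs]; ring
        _ ≤ _ := h2
        _ ≤ _ := mul_le_mul_of_nonneg_left h3 hM0.le
    have h5 : s / 2 ≤ M * ‖w₀ - c.1 - c.2 * t₀‖ := by
      rw [hK] at hcK
      nlinarith
    have h6 : ε * (2 * M) < 1 := by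
      rwa [lt_div_iff₀ (by positivity)] at hε1
    have h7 : ε * s ≤ ε * (2 * M) * ‖w₀ - c.1 - c.2 * t₀‖ := by
      have h8 : s ≤ 2 * M * ‖w₀ - c.1 - c.2 * t₀‖ := by linarith
      calc ε * s ≤ ε * (2 * M * ‖w₀ - c.1 - c.2 * t₀‖) := mul_le_mul_of_nonneg_left h8 hε0.le
        _ = _ := by ring
    exact h7.trans (mul_le_of_le_one_left (norm_nonneg _) h6.le)

/-- terms off the lattice. -/
theorem near {t₀ w₀ : ℂ} (ht : 0 < t₀.im) (A : Set (ℤ × ℤ))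
    (h : ∀ c ∈ A, w₀ ≠ c.1 + c.2 * t₀) :
    ∃ δ C : ℝ, 0 < δ ∧ ∀ c ∈ A, ∀ p ∈ ball (t₀, w₀) (2 * δ),
      p.2 - c.1 - c.2 * p.1 ≠ 0 ∧ ‖((p.2 - c.1 - c.2 * p.1) ^ 12)⁻¹‖ ≤ C * vv c := by
  obtain ⟨ε, hε, hlow⟩ := low ht A h
  refine ⟨ε / 4, ((ε / 2) ^ 12)⁻¹, by positivity, fun c hc p hp => ?_⟩
  have hs0 : 0 < 1 + |(c.1 : ℝ)| + |(c.2 : ℝ)| := by positivity
  have h1 : ‖p.1 - t₀‖ < ε / 2 ∧ ‖p.2 - w₀‖ < ε / 2 := by
    rw [mem_ball, Prod.dist_eq, max_lt_iff, dist_eq_norm, dist_eq_norm] at hp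
    constructor
    · linarith [hp.1]
    · linarith [hp.2]
  have h2 := hlow c hc
  have h3 : ‖w₀ - c.1 - c.2 * t₀‖ ≤ ‖p.2 - c.1 - c.2 * p.1‖ +
      (‖p.2 - w₀‖ + |(c.2 : ℝ)| * ‖p.1 - t₀‖) := by
    have h4 : w₀ - c.1 - c.2 * t₀ =
        (p.2 - c.1 - c.2 * p.1) - ((p.2 - w₀) - c.2 * (p.1 - t₀)) := by ring
    have h5 : ‖(c.2 : ℂ) * (p.1 - t₀)‖ = |(c.2 : ℝ)| * ‖p.1 - t₀‖ := by
      rw [norm_mul, Complex.norm_intCast]
    rw [h4]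
    refine (norm_sub_le _ _).trans ?_
    have h6 := norm_sub_le (p.2 - w₀) (c.2 * (p.1 - t₀))
    rw [h5] at h6
    linarith
  have h4 : |(c.2 : ℝ)| * ‖p.1 - t₀‖ ≤ |(c.2 : ℝ)| * (ε / 2) :=
    mul_le_mul_of_nonneg_left h1.1.le (abs_nonneg _)
  have h5 : ε / 2 * (1 + |(c.1 : ℝ)| + |(c.2 : ℝ)|) ≤ ‖p.2 - c.1 - c.2 * p.1‖ := by
    nlinarith [abs_nonneg (c.1 : ℝ), h1.2]
  have h6 : 0 < ‖p.2 - c.1 - c.2 * p.1‖ := lt_of_lt_of_le (by positivity) h5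
  refine ⟨norm_pos_iff.1 h6, ?_⟩
  rw [norm_inv, norm_pow]
  calc (‖p.2 - c.1 - c.2 * p.1‖ ^ 12)⁻¹ ≤ ((ε / 2 * (1 + |(c.1 : ℝ)| + |(c.2 : ℝ)|)) ^ 12)⁻¹ := by
        apply inv_anti₀ (by positivity)
        gcongr
    _ = ((ε / 2) ^ 12)⁻¹ * ((1 + |(c.1 : ℝ)| + |(c.2 : ℝ)|) ^ 12)⁻¹ := by
        rw [mul_pow, mul_inv]
    _ ≤ _ := mul_le_mul_of_nonneg_left (vv_ge c) (by positivity)

open Classical in
theorem part_hol {t₀ w₀ : ℂ} (ht : 0 < t₀.im) (A : Set (ℤ × ℤ))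
    (h : ∀ c ∈ A, w₀ ≠ c.1 + c.2 * t₀) :
    ContDiffAt ℂ ω (fun p : ℂ × ℂ => ∑' c : ℤ × ℤ,
      if c ∈ A then ((p.2 - c.1 - c.2 * p.1) ^ 12)⁻¹ else 0) (t₀, w₀) ∧
    ∀ᶠ p : ℂ × ℂ in 𝓝 (t₀, w₀), Summable fun c : ℤ × ℤ =>
      if c ∈ A then ((p.2 - c.1 - c.2 * p.1) ^ 12)⁻¹ else 0 := by
  obtain ⟨δ, C, hδ, hC⟩ := near ht A h
  have hb : ∀ c : ℤ × ℤ, ∀ p ∈ ball (t₀, w₀) (2 * δ),
      ‖if c ∈ A then ((p.2 - c.1 - c.2 * p.1) ^ 12)⁻¹ else 0‖ ≤ |C| * vv c := by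
    intro c p hp
    split_ifs with hc
    · exact (hC c hc p hp).2.trans (mul_le_mul_of_nonneg_right (le_abs_self C) (vv_nonneg c))
    · rw [norm_zero]
      exact mul_nonneg (abs_nonneg _) (vv_nonneg c)
  constructor
  · refine tsum_hol hδ (vv_summable.mul_left |C|) ?_ hb
    intro c
    by_cases hc : c ∈ A
    · simp only [hc, if_true]
      intro p hp
      have h1 := (hC c hc p hp).1
      apply DifferentiableAt.differentiableWithinAt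
      apply DifferentiableAt.inv
      · fun_prop
      · exact pow_ne_zero _ h1
    · simp only [hc, if_false]
      exact differentiableOn_const _
  · filter_upwards [ball_mem_nhds (t₀, w₀) (by positivity : 0 < 2 * δ)] with p hp
    exact Summable.of_norm_bounded (vv_summable.mul_left |C|) fun c => hb c p hp

theorem W_hol {t₀ w₀ : ℂ} (ht : 0 < t₀.im) (h : ∀ m n : ℤ, w₀ ≠ m + n * t₀) :
    ContDiffAt ℂ ω (fun p : ℂ × ℂ => W p.1 p.2) (t₀, w₀) := by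
  have h1 := (part_hol ht Set.univ fun c _ => h c.1 c.2).1
  simp only [Set.mem_univ, if_true] at h1
  exact h1

theorem W_pole {t₀ w₀ : ℂ} (ht : 0 < t₀.im) {m n : ℤ} (h : w₀ = m + n * t₀) :
    ∃ R : ℂ × ℂ → ℂ, ContDiffAt ℂ ω R (t₀, w₀) ∧
      ∀ᶠ p : ℂ × ℂ in 𝓝 (t₀, w₀), W p.1 p.2 = ((p.2 - m - n * p.1) ^ 12)⁻¹ + R p := by
  classical
  have h1 := part_hol (w₀ := w₀) ht {(m, n)}ᶜ (by
    intro c hc h2
    exact hc (lat_inj ht (h2.symm.trans h)))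
  refine ⟨_, h1.1, ?_⟩
  filter_upwards [h1.2] with p hp
  have h2 : Summable fun c : ℤ × ℤ => ((p.2 - c.1 - c.2 * p.1) ^ 12)⁻¹ := by
    have h3 : Summable fun c : ℤ × ℤ =>
        if c = (m, n) then ((p.2 - m - n * p.1) ^ 12)⁻¹ else 0 :=
      (hasSum_ite_eq (m, n) _).summable
    refine (hp.add h3).congr fun c => ?_
    by_cases hc : c = (m, n)
    · subst hc
      simp
    · simp [hc]
  unfold W
  rw [h2.tsum_eq_add_tsum_ite (m, n)]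
  congr 1
  refine tsum_congr fun c => ?_
  by_cases hc : c = (m, n)
  · simp [hc]
  · simp [hc]

end Vale.Agent.P281.ELL
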