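import Vale.Agent.P281.ELL.Area
import Vale.Agent.P281.ELL.Reduce
import Vale.Agent.P281.ELL.W
import Vale.Agent.P281.ISO.FibreBoundP

/-! P281, elliptic fibrations with boundary: the bound of `W` on the slices of the fibres. -/

open scoped ENNReal Pointwise
open Set Filter Metric MeasureTheory

namespace Vale.Agent.P281.ELL

open Vale.Agent.P281

set_option linter.all false

/-- the unit square with centre `0` -/
def Qs : Set ℂ := {z | (-(1 / 2) ≤ z.re ∧ z.re < 1 / 2) ∧ -(1 / 2) ≤ z.im ∧ z.im < 1 / 2}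

theorem measurableSet_Qs : MeasurableSet Qs := by
  have h1 : MeasurableSet {z : ℂ | -(1 / 2) ≤ z.re ∧ z.re < 1 / 2} :=
    (measurableSet_le measurable_const Complex.measurable_re).inter
      (measurableSet_lt Complex.measurable_re measurable_const)
  have h2 : MeasurableSet {z : ℂ | -(1 / 2) ≤ z.im ∧ z.im < 1 / 2} :=
    (measurableSet_le measurable_const Complex.measurable_im).inter
      (measurableSet_lt Complex.measurable_im measurable_const)
  exact h1.inter h2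

theorem Qs_subset : Qs ⊆ ball (0 : ℂ) 1 := by
  rintro z ⟨⟨h1, h2⟩, h3, h4⟩
  rw [mem_ball_zero_iff]
  have h5 : ‖z‖ ^ 2 < 1 := by
    rw [← Complex.normSq_eq_norm_sq, Complex.normSq_apply]
    nlinarith
  nlinarith [norm_nonneg z]

/-- the real linear map `x + i y ↦ x + y t` -/
noncomputable def Lt (t : ℂ) : ℂ →L[ℝ] ℂ :=
  Complex.reCLM.smulRight (1 : ℂ) + Complex.imCLM.smulRight t

theorem Lt_apply (t z : ℂ) : Lt t z = z.re + z.im * t := by
  simp [Lt]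

theorem det_Lt (t : ℂ) : (Lt t).det = t.im := by
  have h1 : (Lt t).det = LinearMap.det (Lt t : ℂ →ₗ[ℝ] ℂ) := rfl
  rw [h1, ← LinearMap.det_toMatrix Complex.basisOneI, Matrix.det_fin_two]
  simp [LinearMap.toMatrix_apply, Lt_apply, Complex.coe_basisOneI_repr, Complex.coe_basisOneI]

theorem Lt_inj {t : ℂ} (ht : 0 < t.im) : Function.Injective (Lt t) := by
  intro z w h
  rw [Lt_apply, Lt_apply] at h
  have h1 := congrArg Complex.im h
  simp at h1
  have h2 : z.im = w.im := by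
    rcases h1 with h1 | h1
    · exact h1
    · exact absurd h1 ht.ne'
  rw [h2] at h
  have h3 := congrArg Complex.re (add_right_cancel h)
  simp at h3
  exact Complex.ext h3 h2

/-- periodic functions on sets which inject into `ℂ / (ℤ + ℤ t)` -/
theorem lint_le {t : ℂ} (ht : 0 < t.im) {T : Set ℂ} (hT : MeasurableSet T)
    (hinj : ∀ w ∈ T, ∀ w' ∈ T, (∃ m n : ℤ, w' = w + m + n * t) → w = w') (g : ℂ → ℝ≥0∞)
    (hg : ∀ (w : ℂ) (m n : ℤ), g (w + m + n * t) = g w) :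
    ∫⁻ w in T, g w ≤ ENNReal.ofReal t.im * ∫⁻ z in Qs, g (z.re + z.im * t) := by
  classical
  set b := tauBasis ht with hb
  set Λ := Submodule.span ℤ (Set.range b) with hΛ
  have hcount : Countable Λ := inferInstance
  have hvadd : VAddInvariantMeasure Λ ℂ volume :=
    inferInstanceAs <| VAddInvariantMeasure Λ.toAddSubgroup ℂ volume
  set c : ℂ := (1 + t) / 2 with hc
  set F : Set ℂ := {w | w + c ∈ ZSpan.fundamentalDomain b} with hF
  have hFm : MeasurableSet F :=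
    (ZSpan.fundamentalDomain_measurableSet b).preimage (measurable_id.add_const c)
  have hfund : IsAddFundamentalDomain Λ F (volume : Measure ℂ) := by
    refine IsAddFundamentalDomain.mk' hFm.nullMeasurableSet fun x => ?_
    obtain ⟨v, hv1, hv2⟩ := ZSpan.exist_unique_vadd_mem_fundamentalDomain b (x + c)
    refine ⟨v, ?_, fun v' hv' => hv2 v' ?_⟩
    · have h1 : (v : ℂ) + (x + c) ∈ ZSpan.fundamentalDomain b := hv1
      show (v : ℂ) + x + c ∈ ZSpan.fundamentalDomain b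
      rwa [add_assoc]
    · have h1 : (v' : ℂ) + x + c ∈ ZSpan.fundamentalDomain b := hv'
      show (v' : ℂ) + (x + c) ∈ ZSpan.fundamentalDomain b
      rwa [← add_assoc]
  -- lattice elements
  have hlat : ∀ v : Λ, ∃ m n : ℤ, (v : ℂ) = m + n * t := by
    intro v
    obtain ⟨e, he⟩ := (Submodule.mem_span_range_iff_exists_fun ℤ).1 v.2
    rw [Fin.sum_univ_two, hb, tauBasis_zero, tauBasis_one] at he
    refine ⟨e 0, e 1, ?_⟩
    rw [← he]
    simp
  rw [hfund.setLIntegral_eq_tsum' g T]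
  have h1 : ∀ v : Λ, ∀ x : ℂ, g (-v +ᵥ x) = g x := by
    intro v x
    obtain ⟨m, n, hmn⟩ := hlat (-v)
    have h2 : (-v +ᵥ x : ℂ) = x + m + n * t := by
      show ((-v : Λ) : ℂ) + x = _
      rw [hmn]
      ring
    rw [h2, hg]
  have h2 : ∑' v : Λ, ∫⁻ x in (v +ᵥ T) ∩ F, g (-v +ᵥ x) = ∫⁻ x in ⋃ v : Λ, (v +ᵥ T) ∩ F, g x := by
    rw [lintegral_iUnion]
    · exact tsum_congr fun v => lintegral_congr fun x => h1 v x
    · intro v
      exact (hT.const_vadd v).inter hFm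
    · intro v v' hne
      refine (Disjoint.inf_left _ ?_).inf_right _
      rw [Set.disjoint_left]
      rintro _ ⟨x, hx, rfl⟩ ⟨y, hy, hxy⟩
      have h3 : (v' : ℂ) + y = (v : ℂ) + x := hxy
      obtain ⟨m, n, hmn⟩ := hlat (v - v')
      have h4 : ((v : ℂ) - v') = m + n * t := by
        rw [← hmn]
        rfl
      have h5 : x = y := hinj x hx y hy ⟨m, n, by linear_combination h3 + h4⟩
      apply hne
      subst h5
      exact Subtype.ext (by linear_combination -h3)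
  rw [h2]
  have h3 : (⋃ v : Λ, (v +ᵥ T) ∩ F) ⊆ Lt t '' Qs := by
    intro w hw
    obtain ⟨v, -, hwF⟩ := mem_iUnion.1 hw
    have h4 : ∀ i, b.repr (w + c) i ∈ Ico (0 : ℝ) 1 := hwF
    have h5 := b.sum_repr (w + c)
    rw [Fin.sum_univ_two, hb, tauBasis_zero, tauBasis_one] at h5
    rw [← hb] at h5
    obtain ⟨x, hx⟩ : ∃ x, x = b.repr (w + c) 0 := ⟨_, rfl⟩
    obtain ⟨y, hy⟩ : ∃ y, y = b.repr (w + c) 1 := ⟨_, rfl⟩
    have hx1 := h4 0
    have hy1 := h4 1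
    rw [← hx] at h5 hx1
    rw [← hy] at h5 hy1
    refine ⟨⟨x - 1 / 2, y - 1 / 2⟩, ⟨⟨by linarith [hx1.1], by linarith [hx1.2]⟩,
      by linarith [hy1.1], by linarith [hy1.2]⟩, ?_⟩
    rw [Lt_apply]
    simp only [Complex.real_smul, mul_one] at h5
    push_cast
    rw [hc] at h5
    linear_combination h5
  refine (lintegral_mono_set h3).trans (le_of_eq ?_)
  rw [lintegral_image_eq_lintegral_abs_det_fderiv_mul volume measurableSet_Qs
    (f' := fun _ => Lt t) (fun x _ => (Lt t).hasFDerivAt.hasFDerivWithinAt)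
    (Lt_inj ht).injOn g]
  rw [det_Lt, abs_of_pos ht, lintegral_const_mul' _ _ ENNReal.ofReal_ne_top]
  simp only [Lt_apply]

/-- the reduced case -/
theorem W_slice_red {k : ℕ} (hk : 0 < k) {r : ℝ} (hr : 0 < r)
    (hWadd : ∀ (t w : ℂ) (m n : ℤ), W t (w + m + n * t) = W t w)
    (hWhol : ∀ t w : ℂ, 0 < t.im → (∀ m n : ℤ, w ≠ m + n * t) → DifferentiableAt ℂ (W t) w) :
    ∃ K : ℝ, 0 ≤ K ∧ ∀ t : ℂ, 0 < t.im → |t.re| ≤ 1 / 2 → 1 ≤ ‖t‖ → ∀ (v₀ : ℂ) (H : ℂ → ℂ),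
      DifferentiableOn ℂ H (ball v₀ r) →
      (∀ w ∈ ball v₀ r, ∀ w' ∈ ball v₀ r, (∃ m n : ℤ, H w' = H w + m + n * t) → w = w') →
      (∀ v ∈ ball v₀ r, ∀ m n : ℤ, H v ≠ m + n * t) →
      ‖W t (H v₀)‖ * ‖deriv H v₀‖ ^ (12 * (k + 1)) ≤ (t.im * K) ^ (6 * (k + 1)) := by
  obtain ⟨C, hC⟩ := W_bound
  set C₁ : ℝ := |C| with hC₁
  set N : ℕ := 12 * (k + 1) with hN
  have hk0 : (0 : ℝ) < k := by exact_mod_cast hk
  set q : ℝ := 1 / (6 * ((k : ℝ) + 1)) with hq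
  have hq0 : 0 < q := by positivity
  have hq1 : q ≤ 1 := by
    rw [hq, div_le_one (by positivity)]
    linarith
  set δ : ℝ := 1 / ((k : ℝ) + 1) with hδ
  have hδ1 : δ < 1 := by
    rw [hδ, div_lt_one (by positivity)]
    linarith
  have hδ0 : 0 < δ := by positivity
  set I₀ : ℝ≥0∞ := ENNReal.ofReal C₁ ^ q * (volume (ball (0 : ℂ) 1) +
    ∫⁻ z, ENNReal.ofReal (indicator (ball (0 : ℂ) 1) (fun z => ‖z‖ ^ (-(2 * δ))) z)) with hI₀
  have hI₀top : I₀ ≠ ⊤ := by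
    refine ENNReal.mul_ne_top (ENNReal.rpow_ne_top_of_nonneg hq0.le ENNReal.ofReal_ne_top) ?_
    refine ENNReal.add_ne_top.2 ⟨measure_ball_lt_top.ne, ?_⟩
    have h1 := (ISO.li_one hδ1).hasFiniteIntegral
    refine ne_of_lt (lt_of_le_of_lt (lintegral_mono fun z => ?_) h1)
    rw [← ofReal_norm]
    exact ENNReal.ofReal_le_ofReal (le_abs_self _)
  -- the integral over the square
  have hsq : ∀ t : ℂ, 0 < t.im → |t.re| ≤ 1 / 2 → 1 ≤ ‖t‖ →
      ∫⁻ z in Qs, ‖W t (z.re + z.im * t)‖ₑ ^ q ≤ I₀ := by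
    intro t ht ht1 ht2
    have h1 : ∀ z ∈ Qs, ‖W t (z.re + z.im * t)‖ₑ ^ q ≤ ENNReal.ofReal C₁ ^ q *
        (1 + ENNReal.ofReal (indicator (ball (0 : ℂ) 1) (fun z => ‖z‖ ^ (-(2 * δ))) z)) := by
      intro z hz
      rw [indicator_of_mem (Qs_subset hz)]
      obtain ⟨⟨z1, z2⟩, z3, z4⟩ := hz
      have h2 := hC t ht ht1 ht2 z.re z.im (abs_le.2 ⟨z1, z2.le⟩) (abs_le.2 ⟨z3, z4.le⟩)
      have h3 : (z.re ^ 2 + z.im ^ 2) ^ 6 = ‖z‖ ^ 12 := by
        have : z.re ^ 2 + z.im ^ 2 = ‖z‖ ^ 2 := by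
          rw [← Complex.normSq_eq_norm_sq, Complex.normSq_apply]
          ring
        rw [this, ← pow_mul]
      rw [h3] at h2
      have hb0 : 0 ≤ (‖z‖ ^ 12)⁻¹ := by positivity
      have h4 : ‖W t (z.re + z.im * t)‖ ≤ C₁ * (1 + (‖z‖ ^ 12)⁻¹) := by
        refine h2.trans (mul_le_mul_of_nonneg_right (le_abs_self C) (by positivity))
      have h5 : ‖W t (z.re + z.im * t)‖ₑ ≤ ENNReal.ofReal C₁ *
          (1 + ENNReal.ofReal ((‖z‖ ^ 12)⁻¹)) := by
        rw [← ofReal_norm, ← ENNReal.ofReal_one, ← ENNReal.ofReal_add zero_le_one hb0,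
          ← ENNReal.ofReal_mul (abs_nonneg C)]
        exact ENNReal.ofReal_le_ofReal h4
      calc ‖W t (z.re + z.im * t)‖ₑ ^ q
          ≤ (ENNReal.ofReal C₁ * (1 + ENNReal.ofReal ((‖z‖ ^ 12)⁻¹))) ^ q :=
            ENNReal.rpow_le_rpow h5 hq0.le
        _ = ENNReal.ofReal C₁ ^ q * (1 + ENNReal.ofReal ((‖z‖ ^ 12)⁻¹)) ^ q :=
            ENNReal.mul_rpow_of_nonneg _ _ hq0.le
        _ ≤ ENNReal.ofReal C₁ ^ q * (1 ^ q + ENNReal.ofReal ((‖z‖ ^ 12)⁻¹) ^ q) := by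
            gcongr
            exact ENNReal.rpow_add_le_add_rpow _ _ hq0.le hq1
        _ = _ := by
            rw [ENNReal.one_rpow]
            congr 2
            rw [ENNReal.ofReal_rpow_of_nonneg hb0 hq0.le]
            congr 1
            have h6 : -(2 * δ) = -(12 * q) := by
              rw [hδ, hq]
              field_simp
              norm_num
            rw [h6, Real.rpow_neg (norm_nonneg z), ← Real.inv_rpow (norm_nonneg z),
              Real.rpow_mul (by positivity), ← inv_pow]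
            congr 1
            rw [← Real.rpow_natCast]
            norm_num
    calc ∫⁻ z in Qs, ‖W t (z.re + z.im * t)‖ₑ ^ q
        ≤ ∫⁻ z in Qs, ENNReal.ofReal C₁ ^ q *
        (1 + ENNReal.ofReal (indicator (ball (0 : ℂ) 1) (fun z => ‖z‖ ^ (-(2 * δ))) z)) :=
          setLIntegral_mono' measurableSet_Qs h1
      _ = ENNReal.ofReal C₁ ^ q * ∫⁻ z in Qs,
        (1 + ENNReal.ofReal (indicator (ball (0 : ℂ) 1) (fun z => ‖z‖ ^ (-(2 * δ))) z)) :=
          lintegral_const_mul' _ _ (ENNReal.rpow_ne_top_of_nonneg hq0.le ENNReal.ofReal_ne_top)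
      _ = ENNReal.ofReal C₁ ^ q * ((∫⁻ z in Qs, (1 : ℝ≥0∞)) + ∫⁻ z in Qs,
          ENNReal.ofReal (indicator (ball (0 : ℂ) 1) (fun z => ‖z‖ ^ (-(2 * δ))) z)) := by
          rw [lintegral_add_left measurable_const]
      _ ≤ I₀ := by
          rw [hI₀]
          gcongr
          · rw [setLIntegral_one]
            exact measure_mono Qs_subset
          · exact Measure.restrict_le_self
  have hpr : 0 < Real.pi * r ^ 2 := by positivity
  refine ⟨I₀.toReal / (Real.pi * r ^ 2), by positivity, fun t ht ht1 ht2 v₀ H hH hinj hne => ?_⟩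
  have hHi : InjOn H (ball v₀ r) := fun w hw w' hw' h => hinj w hw w' hw' ⟨0, 0, by simp [h]⟩
  set G : ℂ → ℂ := fun v => W t (H v) * deriv H v ^ N with hG
  have hGd : DifferentiableOn ℂ G (ball v₀ r) := by
    intro v hv
    have h1 : DifferentiableAt ℂ H v := hH.differentiableAt (isOpen_ball.mem_nhds hv)
    have h2 : DifferentiableAt ℂ (fun v => W t (H v)) v :=
      DifferentiableAt.comp (g := W t) (f := H) v (hWhol t (H v) ht (hne v hv)) h1
    have h3 : DifferentiableAt ℂ (deriv H) v :=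
      (hH.deriv isOpen_ball).differentiableAt (isOpen_ball.mem_nhds hv)
    exact (h2.mul (h3.pow N)).differentiableWithinAt
  have hNq : (N : ℝ) * q = 2 := by
    rw [hN, hq]
    push_cast
    field_simp
    norm_num
  have h1 : ∫⁻ v in ball v₀ r, ‖G v‖ₑ ^ q = ∫⁻ w in H '' ball v₀ r, ‖W t w‖ₑ ^ q := by
    rw [lintegral_image_eq_lintegral_abs_det_fderiv_mul volume measurableSet_ball
      (f' := fun w => (fderiv ℂ H w).restrictScalars ℝ) (fun w hw =>
        ((hH.differentiableAt (isOpen_ball.mem_nhds hw)).hasFDerivAt.restrictScalars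
          ℝ).hasFDerivWithinAt) hHi]
    refine setLIntegral_congr_fun measurableSet_ball fun w hw => ?_
    have h3 : (fderiv ℂ H w).det = deriv H w := by
      have h4 : fderiv ℂ H w = (deriv H w) • ContinuousLinearMap.id ℂ ℂ := by
        ext
        simp
      rw [h4]
      change LinearMap.det (deriv H w • (LinearMap.id : ℂ →ₗ[ℂ] ℂ)) = _
      rw [LinearMap.det_smul, LinearMap.det_id]
      simp
    simp only [hG]
    rw [H124.abs_det_real, h3, ENNReal.ofReal_pow (norm_nonneg _), ofReal_norm, enorm_mul,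
      enorm_pow, ENNReal.mul_rpow_of_nonneg _ _ hq0.le, ← ENNReal.rpow_natCast,
      ← ENNReal.rpow_mul, hNq, mul_comm]
    congr 1
    norm_num
  have h2 := H124.rpow_mul_volume_le (μ := (volume : Measure ℂ)) (f := G) (z := v₀) (r := r)
    hGd hq0
  rw [h1] at h2
  have h3 : ∫⁻ w in H '' ball v₀ r, ‖W t w‖ₑ ^ q ≤ ENNReal.ofReal t.im *
      ∫⁻ z in Qs, ‖W t (z.re + z.im * t)‖ₑ ^ q := by
    refine lint_le ht (measurableSet_ball.image_of_continuousOn_injOn hH.continuousOn hHi) ?_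
      (fun w => ‖W t w‖ₑ ^ q) fun w m n => by rw [hWadd]
    rintro _ ⟨w, hw, rfl⟩ _ ⟨w', hw', rfl⟩ h
    rw [hinj w hw w' hw' h]
  have h4 := (h2.trans h3).trans (mul_le_mul_right (hsq t ht ht1 ht2) (ENNReal.ofReal t.im))
  rw [Complex.volume_ball, ← ofReal_norm, ENNReal.ofReal_rpow_of_nonneg (norm_nonneg _) hq0.le,
    ← ENNReal.ofReal_pow hr.le] at h4
  have h5 : (NNReal.pi : ℝ≥0∞) = ENNReal.ofReal Real.pi := by
    rw [ENNReal.ofReal, ← NNReal.coe_real_pi, Real.toNNReal_coe]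
  rw [h5, ← ENNReal.ofReal_mul (by positivity), ← ENNReal.ofReal_mul (by positivity),
    ← ENNReal.ofReal_toReal hI₀top, ← ENNReal.ofReal_mul ht.le,
    ENNReal.ofReal_le_ofReal_iff (by positivity)] at h4
  have h6 : ‖G v₀‖ ^ q ≤ t.im * (I₀.toReal / (Real.pi * r ^ 2)) := by
    rw [← mul_div_assoc, le_div_iff₀ hpr]
    linarith
  have h7 : ‖G v₀‖ = (‖G v₀‖ ^ q) ^ (6 * (k + 1)) := by
    rw [← Real.rpow_natCast, ← Real.rpow_mul (norm_nonneg _)]
    have : q * ((6 * (k + 1) : ℕ) : ℝ) = 1 := by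
      rw [hq]
      push_cast
      field_simp
    rw [this, Real.rpow_one]
  have h8 : ‖W t (H v₀)‖ * ‖deriv H v₀‖ ^ N = ‖G v₀‖ := by
    simp only [hG]
    rw [norm_mul, norm_pow]
  rw [h8, h7]
  exact pow_le_pow_left₀ (by positivity) h6 _

/-- the bound of `W` on the slices of the fibres, from the basic properties of `W` -/
theorem W_slice_of
    (hWadd : ∀ (t w : ℂ) (m n : ℤ), W t (w + m + n * t) = W t w)
    (hWhol : ∀ t w : ℂ, 0 < t.im → (∀ m n : ℤ, w ≠ m + n * t) → DifferentiableAt ℂ (W t) w)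
    (hWlat : ∀ t t' l w : ℂ, 0 < t.im → 0 < t'.im →
      (∀ w : ℂ, (∃ m n : ℤ, w = m + n * t) ↔ ∃ m n : ℤ, l * w = m + n * t') →
      W t' (l * w) * l ^ 12 = W t w)
    {k : ℕ} (hk : 0 < k) {r : ℝ} (hr : 0 < r) :
    ∃ M : ℝ, ∀ t : ℂ, 0 < t.im → ∀ (v₀ : ℂ) (H : ℂ → ℂ) (p : ℂ),
      DifferentiableOn ℂ H (ball v₀ r) →
      (∀ w ∈ ball v₀ r, ∀ w' ∈ ball v₀ r, (∃ m n : ℤ, H w' = H w + m + n * t) → w = w') →
      (∀ v ∈ ball v₀ r, ∀ m n : ℤ, H v ≠ p + m + n * t) →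
      ‖D t‖ ^ k * ‖W t (H v₀ - p)‖ * ‖deriv H v₀‖ ^ (12 * (k + 1)) ≤ M := by
  obtain ⟨K, hK0, hK⟩ := W_slice_red hk hr hWadd hWhol
  obtain ⟨A₀, hA₀⟩ := D_decay 0
  obtain ⟨A₁, hA₁⟩ := D_decay (6 * (k + 1))
  refine ⟨|A₀| ^ (k - 1) * |A₁| * K ^ (6 * (k + 1)), fun t ht v₀ H p hH hinj hne => ?_⟩
  obtain ⟨t', l, ht', hre, hnt, hl, hlat⟩ := exists_reduced ht
  have him : 1 / 2 ≤ t'.im := by
    have h1 : ‖t'‖ ^ 2 = t'.re ^ 2 + t'.im ^ 2 := by
      rw [← Complex.normSq_eq_norm_sq, Complex.normSq_apply]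
      ring
    have h2 := abs_le.1 hre
    nlinarith
  -- the scaled map
  have hball : v₀ ∈ ball v₀ r := mem_ball_self hr
  have hH' : DifferentiableOn ℂ (fun v => l * (H v - p)) (ball v₀ r) :=
    (hH.sub_const p).const_mul l
  have hd : deriv (fun v => l * (H v - p)) v₀ = l * deriv H v₀ := by
    have h1 : HasDerivAt H (deriv H v₀) v₀ :=
      (hH.differentiableAt (isOpen_ball.mem_nhds hball)).hasDerivAt
    exact ((h1.sub_const p).const_mul l).deriv
  have h1 := hK t' ht' hre hnt v₀ (fun v => l * (H v - p)) hH' (fun w hw w' hw' h2 => by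
    obtain ⟨m, n, hmn⟩ := h2
    obtain ⟨m', n', hmn'⟩ := (hlat (H w' - H w)).2 ⟨m, n, by linear_combination hmn⟩
    exact hinj w hw w' hw' ⟨m', n', by linear_combination hmn'⟩) (fun v hv m n h2 => by
    obtain ⟨m', n', hmn'⟩ := (hlat (H v - p)).2 ⟨m, n, h2⟩
    exact hne v hv m' n' (by linear_combination hmn'))
  rw [hd] at h1
  have h2 : D t = D t' * l ^ 12 := (D_lattice ht ht' hlat).symm
  have h3 : W t (H v₀ - p) = W t' (l * (H v₀ - p)) * l ^ 12 :=
    (hWlat t t' l (H v₀ - p) ht ht' hlat).symm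
  have h4 : ‖D t‖ ^ k * ‖W t (H v₀ - p)‖ * ‖deriv H v₀‖ ^ (12 * (k + 1)) =
      ‖D t'‖ ^ k * (‖W t' (l * (H v₀ - p))‖ * ‖l * deriv H v₀‖ ^ (12 * (k + 1))) := by
    rw [h2, h3, norm_mul, norm_mul, norm_mul, norm_pow, mul_pow, mul_pow, ← pow_mul]
    ring
  rw [h4]
  have hD0 : ‖D t'‖ ≤ |A₀| := by
    have := hA₀ t' him
    rw [pow_zero, mul_one] at this
    exact this.trans (le_abs_self _)
  have hD1 : ‖D t'‖ * t'.im ^ (6 * (k + 1)) ≤ |A₁| := (hA₁ t' him).trans (le_abs_self _)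
  obtain ⟨k', rfl⟩ : ∃ k', k = k' + 1 := ⟨k - 1, by omega⟩
  calc ‖D t'‖ ^ (k' + 1) * (‖W t' (l * (H v₀ - p))‖ * ‖l * deriv H v₀‖ ^ (12 * (k' + 1 + 1)))
      ≤ ‖D t'‖ ^ (k' + 1) * (t'.im * K) ^ (6 * (k' + 1 + 1)) := by
        gcongr
    _ = ‖D t'‖ ^ k' * (‖D t'‖ * t'.im ^ (6 * (k' + 1 + 1))) * K ^ (6 * (k' + 1 + 1)) := by
        rw [mul_pow, pow_succ]
        ring
    _ ≤ |A₀| ^ k' * |A₁| * K ^ (6 * (k' + 1 + 1)) := by
        gcongr
    _ = _ := by
        rw [Nat.add_sub_cancel]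

/-- **the bound of `W` on the slices of the fibres** -/
theorem W_slice {k : ℕ} (hk : 0 < k) {r : ℝ} (hr : 0 < r) :
    ∃ M : ℝ, ∀ t : ℂ, 0 < t.im → ∀ (v₀ : ℂ) (H : ℂ → ℂ) (p : ℂ),
      DifferentiableOn ℂ H (ball v₀ r) →
      (∀ w ∈ ball v₀ r, ∀ w' ∈ ball v₀ r, (∃ m n : ℤ, H w' = H w + m + n * t) → w = w') →
      (∀ v ∈ ball v₀ r, ∀ m n : ℤ, H v ≠ p + m + n * t) →
      ‖D t‖ ^ k * ‖W t (H v₀ - p)‖ * ‖deriv H v₀‖ ^ (12 * (k + 1)) ≤ M := by
  refine W_slice_of (fun t w m n => W_add m n) (fun t w ht hw => ?_)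
    (fun t t' l w ht ht' h => W_lattice ht ht' h) hk hr
  have h1 : DifferentiableAt ℂ (fun p : ℂ × ℂ => W p.1 p.2) (t, w) :=
    (W_hol ht hw).differentiableAt (by simp)
  exact DifferentiableAt.comp (g := fun p : ℂ × ℂ => W p.1 p.2) (f := fun w => (t, w)) w h1
    ((differentiableAt_const t).prodMk differentiableAt_id)

end Vale.Agent.P281.ELL
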