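import Vale.Agent.P281.ELL.FibG
import Vale.Agent.P281.ELL.Slice
import Vale.Agent.P281.ELL.RelGP
import Vale.Agent.P281.ELL.DefsL
import Vale.Agent.P281.ELL.SliceW

/-! P281, elliptic fibrations with boundary: the uniform bound of `Θ ^ k Ξ` on the slices of the
fibres outside of the multisection. -/

open scoped Manifold ContDiff Topology
open Set Filter Metric

namespace Vale.Agent.P281.ELL

open Vale.Agent.P281 Vale.Agent.P281.MF Vale.Agent.P281.ISO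

set_option linter.all false

universe u

variable {E E' : Type} [NormedAddCommGroup E] [NormedSpace ℂ E] [FiniteDimensional ℂ E]
  [NormedAddCommGroup E'] [NormedSpace ℂ E'] [FiniteDimensional ℂ E']
variable {X Y : Type u} [TopologicalSpace X] [ChartedSpace E X] [IsManifold 𝓘(ℂ, E) ω X]
  [TopologicalSpace Y] [ChartedSpace E' Y] [IsManifold 𝓘(ℂ, E') ω Y]

theorem fib_bound_xi {f : X → Y} (hf : ∀ x, HolM E E' f x) {S : Set Y} {ι : Type u}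
    {U : ι → Set Y} {τ : ι → Y → ℂ} {π : ι → Y → ℂ → X}
    (h : J.IsEllipticFamily E E' f S U τ π) (e₀ : E ≃L[ℂ] (E' × ℂ)) {Dv : Set X}
    (hD : J.IsMultisection E' f U π Dv) {Θ Ξ : X → ℂ}
    (hΘ : ∀ a x, f x ∈ U a → ∀ ζ : X → ℂ, HolV E ζ x → (∀ᶠ z in 𝓝 x, π a (f z) (ζ z) = z) →
      Θ x = D (τ a (f x)) * JP e₀ (dM E E' f x) (dif E ζ x) ^ 12)
    (hΞ : ∀ a x, f x ∈ U a → ∀ ζ : X → ℂ, HolV E ζ x →
        (∀ᶠ z in 𝓝 x, π a (f z) (ζ z) = z) → ∀ (d : ℕ) (p : Fin d → Y → ℂ),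
        ((∀ k, ∀ y ∈ U a, J.HolAt E' (p k) y) ∧
          (∀ x, f x ∈ U a → (x ∈ Dv ↔ ∃ k, π a (f x) (p k (f x)) = x)) ∧
          ∀ y ∈ U a, ∀ k k', π a y (p k y) = π a y (p k' y) → k = k') →
        Ξ x = (∑ k, W (τ a (f x)) (ζ x - p k (f x))) *
          JP e₀ (dM E E' f x) (dif E ζ x) ^ 12) {k : ℕ} (hk : 0 < k) :
    ∀ r : ℝ, 0 < r → ∃ M : ℝ, ∀ (v₀ : ℂ) (Q : ℂ → X),
      (∀ v ∈ ball v₀ r, ContMDiffAt 𝓘(ℂ, ℂ) 𝓘(ℂ, E) ω Q v) → InjOn Q (ball v₀ r) →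
      (∀ v ∈ ball v₀ r, f (Q v) = f (Q v₀)) → f (Q v₀) ∉ S → (∀ v ∈ ball v₀ r, Q v ∉ Dv) →
      ∀ P : E →L[ℂ] ℂ, P.comp (mfderiv 𝓘(ℂ, ℂ) 𝓘(ℂ, E) Q v₀ : ℂ →L[ℂ] E) =
        ContinuousLinearMap.id ℂ ℂ →
        ‖Θ (Q v₀) ^ k * Ξ (Q v₀)‖ ≤ M * ‖JP e₀ (dM E E' f (Q v₀)) P ^ (12 * (k + 1))‖ := by
  intro r hr
  obtain ⟨d, hDd⟩ := hD
  obtain ⟨M, hM⟩ := W_slice hk hr
  refine ⟨d * |M|, fun v₀ Q hQ hinj hfQ hS hQD P hP => ?_⟩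
  obtain ⟨a, ha⟩ := (h.1 _).1 hS
  obtain ⟨p, hp⟩ := hDd a
  have hy := h.2.1 a
  obtain ⟨-, hτ, hlat⟩ := hy.2.1 _ ha
  obtain ⟨ζ, hζ, hζπ, hζi⟩ := hy.2.2 (Q v₀) ha
  obtain ⟨H, hH, hπH, hdH⟩ := slice_lift h ha hr hQ hfQ
  have hv₀ : v₀ ∈ ball v₀ r := mem_ball_self hr
  obtain ⟨L, hL⟩ : ∃ L : ℂ →L[ℂ] E, L = mfderiv 𝓘(ℂ, ℂ) 𝓘(ℂ, E) Q v₀ := ⟨_, rfl⟩
  have hd1 := hdH v₀ hv₀ ζ hζ hζπ
  have hd2 : deriv H v₀ = dif E ζ (Q v₀) (L 1) := by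
    subst hL
    exact hd1
  have hP1 : P (L 1) = 1 := by
    have h1 : P.comp L = ContinuousLinearMap.id ℂ ℂ := by
      subst hL
      exact hP
    have h2 := congrArg (fun T : ℂ →L[ℂ] ℂ => T 1) h1
    exact h2
  -- `f ∘ Q` is constant
  have hA : dM E E' f (Q v₀) (L 1) = 0 := by
    have h2 := mfderiv_comp v₀ (g := f) (f := Q) ((hf (Q v₀)).mdifferentiableAt (by simp))
      ((hQ v₀ hv₀).mdifferentiableAt (by simp))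
    have h3 : mfderiv 𝓘(ℂ, ℂ) 𝓘(ℂ, E') (f ∘ Q) v₀ = 0 := by
      have h4 : (f ∘ Q) =ᶠ[𝓝 v₀] fun _ => f (Q v₀) := by
        filter_upwards [isOpen_ball.mem_nhds hv₀] with v hv
        exact hfQ v hv
      rw [h4.mfderiv_eq]
      exact mfderiv_const
    have h5 : (dM E E' f (Q v₀)).comp L = 0 := by
      subst hL
      exact h2.symm.trans h3
    have h6 := congrArg (fun T : ℂ →L[ℂ] E' => T 1) h5
    exact h6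
  have hl : deriv H v₀ ≠ 0 := by
    intro h0
    have h1 : L 1 = 0 := hζi (L 1) hA (hd2.symm.trans h0)
    rw [h1, map_zero] at hP1
    exact zero_ne_one hP1
  have hJ := JP_scale e₀ hA hP1 hl hd2.symm
  have hΘ1 := hΘ a (Q v₀) ha ζ hζ hζπ
  have hΞ1 := hΞ a (Q v₀) ha ζ hζ hζπ d p hp
  -- `ζ (Q v₀) - H v₀` is in the lattice
  obtain ⟨m, n, hmn⟩ : ∃ m n : ℤ, ζ (Q v₀) = H v₀ + m + n * τ a (f (Q v₀)) := by
    refine ((hlat (H v₀) (ζ (Q v₀))).2).1 ?_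
    rw [hπH v₀ hv₀]
    exact hζπ.self_of_nhds.symm
  have hW : ∀ i, W (τ a (f (Q v₀))) (ζ (Q v₀) - p i (f (Q v₀))) =
      W (τ a (f (Q v₀))) (H v₀ - p i (f (Q v₀))) := by
    intro i
    rw [hmn, ← W_add (t := τ a (f (Q v₀))) (w := H v₀ - p i (f (Q v₀))) m n]
    congr 1
    ring
  have hinjH : ∀ w ∈ ball v₀ r, ∀ w' ∈ ball v₀ r,
      (∃ m n : ℤ, H w' = H w + m + n * τ a (f (Q v₀))) → w = w' := by
    intro w hw w' hw' hmn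
    refine hinj hw hw' ?_
    rw [← hπH w hw, ← hπH w' hw']
    exact ((hlat (H w) (H w')).2).2 hmn
  have hbd : ∀ i, ‖D (τ a (f (Q v₀)))‖ ^ k * ‖W (τ a (f (Q v₀))) (H v₀ - p i (f (Q v₀)))‖ *
      ‖deriv H v₀‖ ^ (12 * (k + 1)) ≤ |M| := by
    intro i
    refine (hM _ hτ v₀ H (p i (f (Q v₀))) hH hinjH fun v hv m n hne => ?_).trans (le_abs_self M)
    apply hQD v hv
    refine (hp.2.1 (Q v) (by rw [hfQ v hv]; exact ha)).2 ⟨i, ?_⟩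
    rw [hfQ v hv, ← hπH v hv]
    exact ((hlat (p i (f (Q v₀))) (H v)).2).2 ⟨m, n, hne⟩
  have hsum : ‖∑ i, W (τ a (f (Q v₀))) (ζ (Q v₀) - p i (f (Q v₀)))‖ ≤
      ∑ i, ‖W (τ a (f (Q v₀))) (H v₀ - p i (f (Q v₀)))‖ := by
    refine (norm_sum_le _ _).trans (le_of_eq (Finset.sum_congr rfl fun i _ => ?_))
    rw [hW i]
  set Jv := JP e₀ (dM E E' f (Q v₀)) P with hJv
  rw [hΘ1, hΞ1, hJ]
  have e1 : ‖(D (τ a (f (Q v₀))) * (deriv H v₀ * Jv) ^ 12) ^ k *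
      ((∑ i, W (τ a (f (Q v₀))) (ζ (Q v₀) - p i (f (Q v₀)))) * (deriv H v₀ * Jv) ^ 12)‖ =
      (‖D (τ a (f (Q v₀)))‖ ^ k * ‖∑ i, W (τ a (f (Q v₀))) (ζ (Q v₀) - p i (f (Q v₀)))‖ *
        ‖deriv H v₀‖ ^ (12 * (k + 1))) * ‖Jv ^ (12 * (k + 1))‖ := by
    simp only [norm_mul, norm_pow, mul_pow]
    rw [show 12 * (k + 1) = 12 * k + 12 by ring, pow_add, pow_add, pow_mul, pow_mul]
    ring
  rw [e1]
  refine mul_le_mul_of_nonneg_right ?_ (norm_nonneg _)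
  calc ‖D (τ a (f (Q v₀)))‖ ^ k * ‖∑ i, W (τ a (f (Q v₀))) (ζ (Q v₀) - p i (f (Q v₀)))‖ *
        ‖deriv H v₀‖ ^ (12 * (k + 1))
      ≤ ‖D (τ a (f (Q v₀)))‖ ^ k * (∑ i, ‖W (τ a (f (Q v₀))) (H v₀ - p i (f (Q v₀)))‖) *
        ‖deriv H v₀‖ ^ (12 * (k + 1)) := by
        gcongr
    _ = ∑ i, ‖D (τ a (f (Q v₀)))‖ ^ k * ‖W (τ a (f (Q v₀))) (H v₀ - p i (f (Q v₀)))‖ *
        ‖deriv H v₀‖ ^ (12 * (k + 1)) := by
        rw [Finset.mul_sum, Finset.sum_mul]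
    _ ≤ ∑ i : Fin d, |M| := Finset.sum_le_sum fun i _ => hbd i
    _ = d * |M| := by simp

/-- the bound of `Θ ^ k Ξ` at the good points of a ramification divisor -/
theorem rel_bound_xi {f : X → Y} (hf : ∀ x, HolM E E' f x) {S : Set Y} {ι : Type u}
    {U : ι → Set Y} {τ : ι → Y → ℂ} {π : ι → Y → ℂ → X}
    (h : J.IsEllipticFamily E E' f S U τ π) (e₀ : E ≃L[ℂ] (E' × ℂ)) {Dv : Set X}
    (hD : J.IsMultisection E' f U π Dv) {Θ Ξ : X → ℂ}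
    (hΘ : ∀ a x, f x ∈ U a → ∀ ζ : X → ℂ, HolV E ζ x → (∀ᶠ z in 𝓝 x, π a (f z) (ζ z) = z) →
      Θ x = D (τ a (f x)) * JP e₀ (dM E E' f x) (dif E ζ x) ^ 12)
    (hΞ : ∀ a x, f x ∈ U a → ∀ ζ : X → ℂ, HolV E ζ x →
        (∀ᶠ z in 𝓝 x, π a (f z) (ζ z) = z) → ∀ (d : ℕ) (p : Fin d → Y → ℂ),
        ((∀ k, ∀ y ∈ U a, J.HolAt E' (p k) y) ∧
          (∀ x, f x ∈ U a → (x ∈ Dv ↔ ∃ k, π a (f x) (p k (f x)) = x)) ∧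
          ∀ y ∈ U a, ∀ k k', π a y (p k y) = π a y (p k' y) → k = k') →
        Ξ x = (∑ k, W (τ a (f x)) (ζ x - p k (f x))) *
          JP e₀ (dM E E' f x) (dif E ζ x) ^ 12) {k : ℕ} (hk : 0 < k)
    {x₀ y : X} {y₀ : Y} (hx₀ : y ∈ (chartAt E x₀).source)
    (hy₀ : f y ∈ (chartAt E' y₀).source) {e w : X → ℂ} {g : Y → ℂ} {κ : ℕ} (hκ : 0 < κ)
    (he : HolV E e y) (he0 : e y = 0) (hde : dif E e y ≠ 0) (hg : HolV E' g (f y))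
    (hg0 : g (f y) = 0) (hdg : dif E' g (f y) ≠ 0) (hw : HolV E w y) (hw0 : w y ≠ 0)
    (heq : ∀ᶠ z in 𝓝 y, g (f z) = e z ^ κ * w z)
    (hsub : ∀ η, dif E' g (f y) η = 0 → ∃ ξ, dif E e y ξ = 0 ∧ dM E E' f y ξ = η)
    (hA : ∀ᶠ z in 𝓝 y, f z ∉ S → z ∉ Dv) :
    ∃ C : ℝ, ∀ᶠ z in 𝓝 y, f z ∉ S →
      ‖jac E' (chartAt E' y₀) (f z) ^ (12 * (k + 1)) * (Θ z ^ k * Ξ z)‖ ≤
        C * ‖e z‖ ^ (12 * (k + 1) * (κ - 1)) * ‖jac E (chartAt E x₀) z ^ (12 * (k + 1))‖ :=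
  rel_bound_GP (Θ := fun z => Θ z ^ k * Ξ z) hf e₀ (by positivity)
    (fib_bound_xi hf h e₀ hD hΘ hΞ hk) hx₀ hy₀ hκ he he0 hde hg hg0 hdg hw hw0 heq hsub hA

end Vale.Agent.P281.ELL
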