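import Vale.Agent.P281.ELL.Slice
import Vale.Agent.P281.MF.FibreZero

/-!
# P281: the Kodaira dimension of an elliptic curve is at most `0`
-/

open scoped Manifold ContDiff Topology
open Set Filter Metric

namespace Vale.Agent.P281.ELL

open Vale.Agent.P281 Vale.Agent.P281.MF Vale.Agent.P281.ISO

set_option linter.unusedSectionVars false

universe u

/-- two continuous lifts differ by a constant. -/
theorem lift_diff_top {Z : Type*} [TopologicalSpace Z] {X : Type*} {p : ℂ → X} {t : ℂ}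
    (ht : 0 < t.im) (hlat : ∀ w w', p w = p w' → ∃ m n : ℤ, w' = w + m + n * t) {g g' : Z → ℂ}
    {v : Z} (hg : ContinuousAt g v) (hg' : ContinuousAt g' v)
    (he : ∀ᶠ z in 𝓝 v, p (g z) = p (g' z)) : ∀ᶠ z in 𝓝 v, g' z = g z + (g' v - g v) := by
  have h1 : ContinuousAt (fun z => g' z - g z - (g' v - g v)) v :=
    (hg'.sub hg).sub continuousAt_const
  have h2 : ∀ᶠ z in 𝓝 v, ‖g' z - g z - (g' v - g v)‖ < min 1 t.im := by
    refine h1.norm.eventually_lt_const ?_
    simp [ht]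
  obtain ⟨m₀, n₀, h3⟩ := hlat _ _ he.self_of_nhds
  filter_upwards [he, h2] with z hz hz2
  obtain ⟨m, n, h4⟩ := hlat _ _ hz
  have h5 : g' z - g z - (g' v - g v) = ((m - m₀ : ℤ) : ℂ) + ((n - n₀ : ℤ) : ℂ) * t := by
    rw [h3, h4]; push_cast; ring
  rw [h5] at hz2
  have h6 := lattice_disc ht (hz2.trans_le (min_le_left _ _)) (hz2.trans_le (min_le_right _ _))
  rw [h6] at h5
  linear_combination h5

theorem det_one_apply {E₀ : Type} [NormedAddCommGroup E₀] [NormedSpace ℂ E₀]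
    [FiniteDimensional ℂ E₀] (hE₀ : Module.finrank ℂ E₀ = 1) (M : E₀ →L[ℂ] E₀) (v : E₀) :
    M v = M.det • v := by
  obtain ⟨e, he0, hspan⟩ := finrank_eq_one_iff'.1 hE₀
  obtain ⟨c, hc⟩ := hspan (M e)
  have h1 : (M : E₀ →ₗ[ℂ] E₀) = c • LinearMap.id := by
    refine LinearMap.ext fun w => ?_
    obtain ⟨d, rfl⟩ := hspan w
    show M (d • e) = c • (d • e)
    rw [map_smul, ← hc, smul_comm]
  have h2 : M.det = c := by
    unfold ContinuousLinearMap.det
    rw [h1, LinearMap.det_smul, LinearMap.det_id, hE₀, pow_one, mul_one]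
  rw [h2]
  exact LinearMap.congr_fun h1 v

section Fibre

variable {E E' E₀ : Type} [NormedAddCommGroup E] [NormedSpace ℂ E] [FiniteDimensional ℂ E]
  [NormedAddCommGroup E'] [NormedSpace ℂ E'] [FiniteDimensional ℂ E']
  [NormedAddCommGroup E₀] [NormedSpace ℂ E₀] [FiniteDimensional ℂ E₀]
variable {X Y F : Type u} [TopologicalSpace X] [ChartedSpace E X] [IsManifold 𝓘(ℂ, E) ω X]
  [TopologicalSpace Y] [ChartedSpace E' Y] [IsManifold 𝓘(ℂ, E') ω Y]
  [TopologicalSpace F] [ChartedSpace E₀ F] [IsManifold 𝓘(ℂ, E₀) ω F]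

/-- adding a constant does not change the differential. -/
theorem dif_add_const {g : F → ℂ} {p : F} (hg : HolV E₀ g p) (c : ℂ) :
    dif E₀ (fun q => g q + c) p = dif E₀ g p := by
  have h1 := dV_comp_contDiff (G := fun t : ℂ => t + c) (v := g) (x := p)
    (contDiff_id.add contDiff_const).contDiffAt hg
  have h2 : fderiv ℂ (fun t : ℂ => t + c) (g p) = ContinuousLinearMap.id ℂ ℂ := by
    rw [fderiv_add_const]
    exact fderiv_fun_id
  rw [h2, ContinuousLinearMap.id_comp] at h1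
  exact h1

/-- The Kodaira dimension of a smooth fibre is at most `0`. -/
theorem kodF_le [T2Space X] [T2Space Y] (hE₀ : Module.finrank ℂ E₀ = 1) {f : X → Y}
    (hf : ∀ x, HolM E E' f x) {S : Set Y} {ι : Type u} {U : ι → Set Y} {τ : ι → Y → ℂ}
    {π : ι → Y → ℂ → X} (h : J.IsEllipticFamily E E' f S U τ π) {y : Y} (hy : y ∉ S)
    {i : F → X} (hi : ∀ p, HolM E₀ E i p) (hi₁ : Topology.IsEmbedding i)
    (hi₂ : Set.range i = f ⁻¹' {y}) (hi₃ : ∀ p, Function.Injective (dM E₀ E i p))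
    [CompactSpace F] [ConnectedSpace F] {j : ℕ}
    (hk : KodGE E₀ (fun (C : Set F) p g => IsLocalEq E₀ C g p) 0 j) : j = 0 := by
  classical
  obtain ⟨m, k, s, z, hm, hk, hs, -, hs0, hli⟩ := hk
  obtain ⟨hUS, hU2, -⟩ := h
  obtain ⟨a, hya⟩ := (hUS y).1 hy
  obtain ⟨-, hU, hζ⟩ := hU2 a
  obtain ⟨-, him, hπ⟩ := hU y hya
  have hlat : ∀ w w', π a y w = π a y w' → ∃ m n : ℤ, w' = w + m + n * τ a y :=
    fun w w' hw => (hπ w w').2.1 hw
  have hfi : ∀ p, f (i p) = y := by
    intro p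
    have : i p ∈ f ⁻¹' {y} := hi₂ ▸ mem_range_self p
    exact this
  have hk0 : ∀ D, k D = 0 := by
    intro D
    have h1 := hk D
    rw [Pi.zero_apply, mul_zero] at h1
    exact_mod_cast h1
  have hloc : ∀ b p, ∃ a : F → ℂ, HolV E₀ a p ∧
      ∀ᶠ w in 𝓝 p, s b w = a w * jac E₀ (chartAt E₀ p) w ^ m :=
    fun b p => _root_.Vale.Agent.P281.MF.section_local (hs b) (fun D hD => absurd (hk0 D) hD) p
  have hcomp0 : ∀ p ξ, dM E E' f (i p) (dM E₀ E i p ξ) = 0 := by
    intro p ξ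
    have h1 : f ∘ i = fun _ => y := funext hfi
    have h2 := mfderiv_comp p (ContMDiffAt.mdifferentiableAt (hf (i p)) (by simp))
      (ContMDiffAt.mdifferentiableAt (hi p) (by simp))
    rw [h1, mfderiv_const] at h2
    have h3 := congrArg (fun A : E₀ →L[ℂ] E' => A ξ) h2
    exact h3.symm
  -- fibre coordinates
  choose Z hZh hZπ hZinj using fun p => hζ (i p) (by rw [hfi p]; exact hya)
  have hZh' : ∀ p, HolV E (Z p) (i p) := hZh
  let u : F → F → ℂ := fun p q => Z p (i q)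
  have huh : ∀ p, HolV E₀ (u p) p := fun p => HolV.comp (hZh' p) (hi p)
  have huπ : ∀ p, ∀ᶠ q in 𝓝 p, π a y (u p q) = i q := by
    intro p
    filter_upwards [(hi p).continuousAt.eventually (hZπ p)] with q hq
    rwa [hfi q] at hq
  have hwd : ∀ p, ∀ᶠ q in 𝓝 p, dif E₀ (u q) q = dif E₀ (u p) q := by
    intro p
    filter_upwards [(huh p).eventually, eventually_eventually_nhds.2 (huπ p)] with q h1 h2
    have h3 : u q =ᶠ[𝓝 q] fun x => u p x + (u q q - u p q) := by
      refine lift_diff_top him hlat h1.continuousAt (huh q).continuousAt ?_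
      filter_upwards [h2, huπ q] with x hx1 hx2
      rw [hx1, hx2]
    have h4 : dif E₀ (u q) q = dif E₀ (fun x => u p x + (u q q - u p q)) q := by
      unfold dif
      exact h3.mfderiv_eq
    rw [h4, dif_add_const h1]
  have hinj : ∀ p ξ, dif E₀ (u p) p ξ = 0 → ξ = 0 := by
    intro p ξ hξ
    have h1 : dif E₀ (u p) p = (dif E (Z p) (i p)).comp (dM E₀ E i p) :=
      dif_comp (hZh' p) (hi p)
    rw [h1] at hξ
    have h2 : dM E₀ E i p ξ = 0 := hZinj p _ (hcomp0 p ξ) hξ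
    exact (injective_iff_map_eq_zero _).1 (hi₃ p) ξ h2
  obtain ⟨e, he0, -⟩ := finrank_eq_one_iff'.1 hE₀
  let δ : F → ℂ := fun p => dif E₀ (u p) p e
  have hδ : ∀ p, δ p ≠ 0 := fun p h0 => he0 (hinj p e h0)
  let H : Fin (j + 1) → F → ℂ := fun b p => s b p / δ p ^ m
  have hHhol : ∀ b p, HolV E₀ (H b) p := by
    intro b p
    obtain ⟨α, hα, hαe⟩ := hloc b p
    set φ := chartAt E₀ p with hφ
    have hps : p ∈ φ.source := mem_chart_source E₀ p
    let c : F → ℂ := fun w => fderiv ℂ (u p ∘ φ.symm) (φ w) e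
    have hc : HolV E₀ c p := by
      refine HolV.comp_contDiff (G := fun x => fderiv ℂ (u p ∘ φ.symm) x e) ?_ (HolV.chart hps)
      exact (((huh p).rep hps).fderiv_right (by simp)).clm_apply contDiffAt_const
    have hδc : ∀ᶠ w in 𝓝 p, δ w = jac E₀ φ w * c w := by
      filter_upwards [hwd p, (huh p).eventually, φ.open_source.mem_nhds hps] with w h1 h2 h3
      show dif E₀ (u w) w e = _
      rw [h1, dif_eq_dV, dV_eq_chart h3 h2]
      show fderiv ℂ (u p ∘ φ.symm) (φ w) (dV E₀ (φ : F → E₀) w e) = _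
      rw [det_one_apply hE₀ (dV E₀ (φ : F → E₀) w) e, map_smul]
      rfl
    have hc0 : c p ≠ 0 := by
      intro h0
      apply hδ p
      rw [hδc.self_of_nhds, h0, mul_zero]
    refine (HolV.div hα (hc.pow m) (pow_ne_zero m hc0)).congr ?_
    filter_upwards [hαe, hδc, φ.open_source.mem_nhds hps,
      hc.continuousAt.eventually_ne hc0] with w h1 h2 h3 h4
    show s b w / δ w ^ m = α w / c w ^ m
    have h5 : jac E₀ φ w ≠ 0 := jac_chart_ne_zero h3
    rw [h1, h2, mul_pow, mul_comm (jac E₀ φ w ^ m) (c w ^ m),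
      mul_div_mul_right _ _ (pow_ne_zero m h5)]
  have hHconst : ∀ b p q, H b p = H b q := by
    intro b p q
    have h1 : MDifferentiable 𝓘(ℂ, E₀) 𝓘(ℂ, ℂ) (H b) := fun x => (hHhol b x).mdiff
    exact h1.apply_eq_of_compactSpace p q
  have hratio : ∀ b w, s b w / s 0 w = H b z / H 0 z := by
    intro b w
    rw [hHconst b z w, hHconst 0 z w]
    show _ = (s b w / δ w ^ m) / (s 0 w / δ w ^ m)
    rw [div_div_div_cancel_right₀ (pow_ne_zero m (hδ w))]
  have hdif : ∀ b, dif E₀ (fun w => s b w / s 0 w) z = 0 := by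
    intro b
    have h2 : (fun w => s b w / s 0 w) = fun _ => H b z / H 0 z := funext fun w => hratio b w
    rw [h2]
    exact mfderiv_const
  by_contra hj
  have hj' : 0 < j := Nat.pos_of_ne_zero hj
  exact hli.ne_zero ⟨0, hj'⟩ (hdif _)

end Fibre

end Vale.Agent.P281.ELL
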