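import Vale.Agent.P281.ISO.MainQ
import Vale.Agent.P281.ELL.CoreG
import Vale.Agent.P281.ELL.Area
import Vale.Agent.P281.ELL.Slice
import Vale.Agent.P281.ELL.Theta
import Vale.Agent.P281.ELL.Fibre204
import Vale.Agent.P281.ELL.Affine
import Vale.Agent.P281.ELL.DefsE

open scoped Manifold ContDiff Topology
open Set Filter Metric Asymptotics

namespace Vale.Agent.P281.ELL

open Vale.Agent.P281 Vale.Agent.P281.MF Vale.Agent.P281.ISO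

set_option linter.unusedSectionVars false

universe u

section Fib

variable {E E' : Type} [NormedAddCommGroup E] [NormedSpace ℂ E] [FiniteDimensional ℂ E]
  [NormedAddCommGroup E'] [NormedSpace ℂ E'] [FiniteDimensional ℂ E']
variable {X Y : Type u} [TopologicalSpace X] [ChartedSpace E X] [IsManifold 𝓘(ℂ, E) ω X]
  [TopologicalSpace Y] [ChartedSpace E' Y] [IsManifold 𝓘(ℂ, E') ω Y]
variable {f : X → Y} {S : Set Y} {ι : Type u} {U : ι → Set Y} {τ : ι → Y → ℂ}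
  {π : ι → Y → ℂ → X}

theorem isClosed_of (h : J.IsEllipticFamily E E' f S U τ π) : IsClosed S := by
  have h1 : Sᶜ = ⋃ a, U a := by
    ext y
    rw [mem_compl_iff, mem_iUnion]
    exact h.1 y
  rw [← isOpen_compl_iff, h1]
  exact isOpen_iUnion fun a => (h.2.1 a).1

theorem surj_of (h : J.IsEllipticFamily E E' f S U τ π) {y : Y} (hy : y ∉ S) :
    ∃ x, f x = y := by
  obtain ⟨a, ha⟩ := (h.1 y).1 hy
  exact ⟨π a y 0, (((h.2.1 a).2.1 y ha).2.2 0 0).1⟩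

theorem subm_of (h : J.IsEllipticFamily E E' f S U τ π)
    (hE : Module.finrank ℂ E = Module.finrank ℂ E' + 1) {x : X} (hx : f x ∉ S) :
    Function.Surjective (dM E E' f x) := by
  obtain ⟨a, ha⟩ := (h.1 (f x)).1 hx
  obtain ⟨ζ, hζ, -, hinj⟩ := (h.2.1 a).2.2 x ha
  let L : E →ₗ[ℂ] (E' × ℂ) := ((dM E E' f x).prod (dif E ζ x) : E →L[ℂ] (E' × ℂ))
  have h1 : Function.Injective L := by
    rw [injective_iff_map_eq_zero]
    intro v hv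
    exact hinj v (Prod.mk.inj hv).1 (Prod.mk.inj hv).2
  have h2 : Module.finrank ℂ E = Module.finrank ℂ (E' × ℂ) := by
    rw [hE, Module.finrank_prod, Module.finrank_self]
  have h3 : Function.Surjective L :=
    (LinearMap.injective_iff_surjective_of_finrank_eq_finrank h2).1 h1
  intro w
  obtain ⟨v, hv⟩ := h3 (w, 0)
  exact ⟨v, (Prod.mk.inj hv).1⟩

theorem hfib_of (h : J.IsEllipticFamily E E' f S U τ π) (e₀ : E ≃L[ℂ] (E' × ℂ)) {Θ : X → ℂ}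
    (hf : ∀ x, HolM E E' f x)
    (hΘ : ∀ a x, f x ∈ U a → ∀ ζ : X → ℂ, HolV E ζ x → (∀ᶠ z in 𝓝 x, π a (f z) (ζ z) = z) →
      Θ x = D (τ a (f x)) * JP e₀ (dM E E' f x) (dif E ζ x) ^ 12) (r : ℝ) (hr : 0 < r) :
    ∃ M : ℝ, ∀ (v₀ : ℂ) (Q : ℂ → X),
      (∀ v ∈ ball v₀ r, ContMDiffAt 𝓘(ℂ, ℂ) 𝓘(ℂ, E) ω Q v) → InjOn Q (ball v₀ r) →
      (∀ v ∈ ball v₀ r, f (Q v) = f (Q v₀)) → f (Q v₀) ∉ S → ∀ P : E →L[ℂ] ℂ,
      P.comp (mfderiv 𝓘(ℂ, ℂ) 𝓘(ℂ, E) Q v₀ : ℂ →L[ℂ] E) = ContinuousLinearMap.id ℂ ℂ →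
      ‖Θ (Q v₀)‖ ≤ M * ‖JP e₀ (dM E E' f (Q v₀)) P ^ 12‖ := by
  obtain ⟨C, hC⟩ := D_bound
  refine ⟨C / (Real.pi * r ^ 2) ^ 6, fun v₀ Q hQ hinj hfQ hS P hP => ?_⟩
  obtain ⟨a, ha⟩ := (h.1 _).1 hS
  have hv₀ : v₀ ∈ ball v₀ r := mem_ball_self hr
  obtain ⟨H, hH, hHQ, hHd⟩ := slice_lift h ha hr hQ hfQ
  obtain ⟨ζ, hζ, hζπ, hζi⟩ := (h.2.1 a).2.2 (Q v₀) ha
  obtain ⟨-, him, hlat⟩ := (h.2.1 a).2.1 (f (Q v₀)) ha
  have h1 : ‖deriv H v₀‖ ^ 2 ≤ (τ a (f (Q v₀))).im / (Real.pi * r ^ 2) := by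
    refine area_bound him hr hH fun w hw w' hw' hmn => hinj hw hw' ?_
    obtain ⟨m, n, hmn⟩ := hmn
    rw [← hHQ w hw, ← hHQ w' hw']
    exact ((hlat (H w) (H w')).2.2 ⟨m, n, hmn⟩)
  set c : ℂ := deriv H v₀ with hc
  set t : ℂ →L[ℂ] E := (mfderiv 𝓘(ℂ, ℂ) 𝓘(ℂ, E) Q v₀ : ℂ →L[ℂ] E) with ht
  have hPt : ∀ v, P (t v) = v := fun v => by
    exact congrArg (fun L : ℂ →L[ℂ] ℂ => L v) hP
  have hct : c = dif E ζ (Q v₀) (t 1) := hHd v₀ hv₀ ζ hζ hζπ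
  have hAt : ∀ v, dM E E' f (Q v₀) (t v) = 0 := by
    intro v
    have h2 : mfderiv 𝓘(ℂ, ℂ) 𝓘(ℂ, E') (f ∘ Q) v₀ =
        (mfderiv 𝓘(ℂ, E) 𝓘(ℂ, E') f (Q v₀)).comp (mfderiv 𝓘(ℂ, ℂ) 𝓘(ℂ, E) Q v₀) :=
      mfderiv_comp v₀ ((hf (Q v₀)).mdifferentiableAt (by simp))
        ((hQ v₀ hv₀).mdifferentiableAt (by simp))
    have h3 : (f ∘ Q) =ᶠ[𝓝 v₀] fun _ => f (Q v₀) := by
      filter_upwards [isOpen_ball.mem_nhds hv₀] with v hv using hfQ v hv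
    have h4 : mfderiv 𝓘(ℂ, ℂ) 𝓘(ℂ, E') (f ∘ Q) v₀ = 0 := by
      rw [h3.mfderiv_eq]; exact mfderiv_const
    have h5 := congrArg (fun L => L v) (h2.symm.trans h4)
    exact h5
  have hJP : JP e₀ (dM E E' f (Q v₀)) (dif E ζ (Q v₀)) = c * JP e₀ (dM E E' f (Q v₀)) P := by
    have hζt : ∀ v, dif E ζ (Q v₀) (t v) = c * v := by
      intro v
      have h3 : t v = v • t 1 := by rw [← map_smul]; simp
      rw [h3, map_smul, ← hct, smul_eq_mul, mul_comm]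
    have hc0 : c ≠ 0 := by
      intro h0
      have h3 : t 1 = 0 := hζi (t 1) (hAt 1) ((hζt 1).trans (by rw [h0, zero_mul]))
      have h4 := hPt 1
      rw [h3, map_zero] at h4
      exact zero_ne_one h4
    have h2 : JP e₀ (dM E E' f (Q v₀)) (c⁻¹ • dif E ζ (Q v₀)) =
        JP e₀ (dM E E' f (Q v₀)) P := by
      refine JP_indep e₀ hAt hPt fun v => ?_
      show c⁻¹ • dif E ζ (Q v₀) (t v) = v
      rw [hζt, smul_eq_mul, inv_mul_cancel_left₀ hc0]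
    rw [← h2]
    have h3 := JP_left e₀ (dM E E' f (Q v₀)) (c⁻¹ • dif E ζ (Q v₀))
      (ContinuousLinearMap.id ℂ E') (c • ContinuousLinearMap.id ℂ ℂ)
    have h4 : (c • ContinuousLinearMap.id ℂ ℂ).det = c := by
      have : (c • ContinuousLinearMap.id ℂ ℂ).det = LinearMap.det (c • (LinearMap.id : ℂ →ₗ[ℂ] ℂ)) :=
        rfl
      rw [this, LinearMap.det_smul, LinearMap.det_id]
      simp
    rw [det_id', one_mul, h4] at h3
    rw [← h3]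
    congr 1
    ext v
    show dif E ζ (Q v₀) v = c • (c⁻¹ • dif E ζ (Q v₀) v)
    rw [smul_smul, mul_inv_cancel₀ hc0, one_smul]
  rw [hΘ a (Q v₀) ha ζ hζ hζπ, hJP, mul_pow, ← mul_assoc, norm_mul, norm_mul]
  refine mul_le_mul_of_nonneg_right ?_ (norm_nonneg _)
  have h6 : ‖c ^ 12‖ ≤ ((τ a (f (Q v₀))).im / (Real.pi * r ^ 2)) ^ 6 := by
    rw [norm_pow, show (12 : ℕ) = 2 * 6 from rfl, pow_mul]
    exact pow_le_pow_left₀ (by positivity) h1 6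
  calc ‖D (τ a (f (Q v₀)))‖ * ‖c ^ 12‖
      ≤ ‖D (τ a (f (Q v₀)))‖ * ((τ a (f (Q v₀))).im / (Real.pi * r ^ 2)) ^ 6 := by gcongr
    _ = ‖D (τ a (f (Q v₀)))‖ * (τ a (f (Q v₀))).im ^ 6 / (Real.pi * r ^ 2) ^ 6 := by
        rw [div_pow]; ring
    _ ≤ C / (Real.pi * r ^ 2) ^ 6 := by
        have := hC _ him
        gcongr

end Fib

section Main

variable {E E' E₀ : Type} [NormedAddCommGroup E] [NormedSpace ℂ E] [FiniteDimensional ℂ E]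
  [NormedAddCommGroup E'] [NormedSpace ℂ E'] [FiniteDimensional ℂ E']
  [NormedAddCommGroup E₀] [NormedSpace ℂ E₀] [FiniteDimensional ℂ E₀]
variable {X Z Y F : Type u} [TopologicalSpace X] [ChartedSpace E X] [IsManifold 𝓘(ℂ, E) ω X]
  [TopologicalSpace Z] [ChartedSpace E Z] [IsManifold 𝓘(ℂ, E) ω Z]
  [TopologicalSpace Y] [ChartedSpace E' Y] [IsManifold 𝓘(ℂ, E') ω Y]
  [TopologicalSpace F] [ChartedSpace E₀ F] [IsManifold 𝓘(ℂ, E₀) ω F]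

/-- elliptic fibrations, meromorphic. -/
theorem main_elliptic [CompactSpace F] [ConnectedSpace F] [Nonempty X] [T2Space X] [T2Space Y]
    (hE : Module.finrank ℂ E = Module.finrank ℂ E' + 1) (hE₀ : Module.finrank ℂ E₀ = 1)
    (j : Z → X) (hj : J.IsBigOpen E j)
    (f : Z → Y) (hf : ContMDiff 𝓘(ℂ, E) 𝓘(ℂ, E') ω f)
    (𝒢 : Set (Set Y)) (h𝒢 : J.IsDivisorial E E' f 𝒢) {ι : Type u} (U : ι → Set Y)
    (τ : ι → Y → ℂ) (π : ι → Y → ℂ → Z) (hB₀ : J.IsEllipticOver E E' f (⋃₀ 𝒢) U τ π)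
    (Δ : Set X → ℝ) (hsnc : J.IsSNC E Δ)
    (Δ' : Set Z → ℝ) (hsnc' : J.IsSNC E Δ') (hΔ : J.IsRestriction j Δ Δ')
    (hBS : ∀ G, J.orbBase' E E' f Δ' G ≠ 0 → G ∈ 𝒢)
    {y : Y} (hy : y ∉ ⋃₀ 𝒢) (i : F → Z) (hi : ContMDiff 𝓘(ℂ, E₀) 𝓘(ℂ, E) ω i)
    (hi₁ : Topology.IsEmbedding i) (hi₂ : Set.range i = f ⁻¹' {y})
    (hi₃ : ∀ p, Function.Injective (mfderiv 𝓘(ℂ, E₀) 𝓘(ℂ, E) i p)) :
    J.kod E₀ (fun (C : Set F) p g => J.IsLocalEq E₀ C g p) 0 +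
      J.kod E' (fun (G : Set Y) z g => J.IsLocalEq E' G g z) (J.orbBase' E E' f Δ') ≤
      J.kod E (fun (D : Set X) z g => J.IsLocalEq E D g z) Δ := by
  classical
  rw [JB.kod_eq, JB.kod_eq, JB.kod_eq]
  have hs := JB.snc hsnc
  have hs' := JB.snc hsnc'
  let e₀ : E ≃L[ℂ] (E' × ℂ) := ContinuousLinearEquiv.ofFinrankEq (by
    rw [hE, Module.finrank_prod, Module.finrank_self])
  have hT : T2Space Z := hj.2.1.isEmbedding.t2Space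
  have hB : J.IsEllipticFamily E E' f (⋃₀ 𝒢) U τ π :=
    ⟨hB₀.1, hB₀.2, affine_of (fun x => hf x) hB₀.2 hE⟩
  have hS := isClosed_of hB
  have hZ : Nonempty Z := by
    obtain ⟨x⟩ := ‹Nonempty X›
    obtain ⟨h, -, hne, hev⟩ := hj.2.2.2 x
    by_contra hcon
    apply hne
    filter_upwards [hev] with z hz
    refine hz.1 ?_
    rintro ⟨w, -⟩
    exact hcon ⟨w⟩
  obtain ⟨h𝒢f, h𝒢p, 𝒟, h𝒟f, hpre, hdom⟩ := h𝒢
  have hSd : Dense (⋃₀ 𝒢)ᶜ := by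
    have h1 := (dense_compl_finite h𝒢f (fun G hG => (h𝒢p G hG).1) (fun G hG => by
      rw [← interior_eq_empty_iff_dense_compl, eq_empty_iff_forall_notMem]
      intro y hy
      obtain ⟨g, hg⟩ := (show IsPrimeDivisor E' G from h𝒢p G hG).2.1 y
      refine leq_not_zero hg ?_
      filter_upwards [hg.eventually, isOpen_interior.mem_nhds hy] with z hz hz'
      exact hz.mem_iff.1 (interior_subset hz'))).2
    refine h1.mono ?_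
    intro y hy
    rw [mem_compl_iff, mem_sUnion]
    rintro ⟨G, hG, hyG⟩
    exact hy G hG hyG
  have hthin := thin_of_components (fun x => hf x) h𝒟f h𝒢p
    (fun D hD => by obtain ⟨G, -, h⟩ := hdom D hD; exact h.1) hpre
    (fun D hD => by obtain ⟨G, hG, h⟩ := hdom D hD; exact ⟨G, hG, h.2⟩)
  obtain ⟨Θ, hΘ1, hΘ2, hΘ3⟩ := exists_theta (fun x => hf x) hB e₀
  refine kod_add_le fun j₁ j₂ h₁ h₂ => ?_
  have hj₁ : j₁ = 0 := kodF_le hE₀ (fun x => hf x) hB hy (fun p => hi p) hi₁ hi₂ hi₃ h₁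
  rw [hj₁, zero_add]
  refine kodGE_emb (fun z => hj.1 z) hj.2.1 hj.2.2.1 hj.2.2.2 hs.finite hs.prime hΔ.1 hΔ.2 ?_
  refine coreG (fun x => hf x) hS hSd (fun y hy => surj_of hB hy)
    (fun x hx => subm_of hB hE hx) e₀ hthin (by norm_num : 0 < 12) hΘ3 hΘ2
    (fun r hr => hfib_of hB e₀ (fun x => hf x) hΘ1 r hr) hs'
    (fun G hG => ⟨orbBase'_prime hG, subset_sUnion_of_mem (hBS G hG)⟩)
    (fun D G κ hD hG hDG hκ hwit => ?_) h₂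
  obtain ⟨h0, h1⟩ := snc01 hs' D
  exact orbBase'_mul_le hκ hG hD hDG hwit h0 h1

end Main

end Vale.Agent.P281.ELL
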