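import Vale.Agent.P281.ISO.MainQ
import Vale.Agent.P281.ELL.CoreH
import Vale.Agent.P281.ELL.CovForms
import Vale.Agent.P281.ELL.CovLocal
import Vale.Agent.P281.ELL.CovNC
import Vale.Agent.P281.ELL.CovSlice

open scoped Manifold ContDiff Topology
open Set Filter Metric Asymptotics

namespace Vale.Agent.P281.ELL

open Vale.Agent.P281 Vale.Agent.P281.MF Vale.Agent.P281.ISO

set_option linter.unusedSectionVars false

universe u

theorem kodGE_pred {E : Type} [NormedAddCommGroup E] [NormedSpace ℂ E] {X : Type u}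
    [TopologicalSpace X] [ChartedSpace E X] {ι : Type u} {eqn : ι → X → (X → ℂ) → Prop}
    {c : ι → ℝ} {j : ℕ} (h : KodGE E eqn c (j + 1)) : KodGE E eqn c j := by
  obtain ⟨m, k, s, z, hm, hk, hs, hz, hs0, hind⟩ := h
  refine ⟨m, k, fun b => s b.castSucc, z, hm, hk, fun b => hs _, hz, hs0, ?_⟩
  exact hind.comp Fin.castSucc (Fin.castSucc_injective j)

section Geo

variable {E E' : Type} [NormedAddCommGroup E] [NormedSpace ℂ E] [FiniteDimensional ℂ E]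
  [NormedAddCommGroup E'] [NormedSpace ℂ E'] [FiniteDimensional ℂ E']
variable {X Y : Type u} [TopologicalSpace X] [ChartedSpace E X] [IsManifold 𝓘(ℂ, E) ω X]
  [TopologicalSpace Y] [ChartedSpace E' Y] [IsManifold 𝓘(ℂ, E') ω Y]
variable {f : X → Y} {S : Set Y} {n e d : ℕ} {𝒲 : Set (Set X)} {ι : Type u} {U : ι → Set Y}
  {p : ι → Fin d → Y → ℂ × ℂ} {c : ι → X → ℂ × ℂ}

theorem isClosed_cov (h : J.IsBranchedOver E E' f S n e d 𝒲 U p c) : IsClosed S := by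
  have h1 : Sᶜ = ⋃ a, U a := by
    ext y
    rw [mem_compl_iff, mem_iUnion]
    exact h.cover y
  rw [← isOpen_compl_iff, h1]
  exact isOpen_iUnion fun a => h.isOpen a

theorem subm_cov (h : J.IsBranchedOver E E' f S n e d 𝒲 U p c)
    (hE : Module.finrank ℂ E = Module.finrank ℂ E' + 1) {x : X} (hx : f x ∉ S) :
    Function.Surjective (dM E E' f x) := by
  obtain ⟨a, ha⟩ := (h.cover (f x)).1 hx
  obtain ⟨-, L, -, -, -, -, hun, hram⟩ := h.lift a x ha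
  have key : ∀ l : E →L[ℂ] ℂ, (∀ ξ : E, dM E E' f x ξ = 0 → l ξ = 0 → ξ = 0) →
      Function.Surjective (dM E E' f x) := by
    intro l hl
    let T : E →ₗ[ℂ] (E' × ℂ) := ((dM E E' f x).prod l : E →L[ℂ] (E' × ℂ))
    have h1 : Function.Injective T := by
      rw [injective_iff_map_eq_zero]
      intro v hv
      exact hl v (Prod.mk.inj hv).1 (Prod.mk.inj hv).2
    have h2 : Module.finrank ℂ E = Module.finrank ℂ (E' × ℂ) := by
      rw [hE, Module.finrank_prod, Module.finrank_self]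
    have h3 : Function.Surjective T :=
      (LinearMap.injective_iff_surjective_of_finrank_eq_finrank h2).1 h1
    intro w
    obtain ⟨v, hv⟩ := h3 (w, 0)
    exact ⟨v, (Prod.mk.inj hv).1⟩
  by_cases hk : ∀ k, J.wedge (L x) (p a k (f x)) ≠ 0
  · exact key (WL E L x) fun ξ h1 h2 => hun hk ξ h1 h2
  · rw [not_forall] at hk
    obtain ⟨k, hk⟩ := hk
    rw [not_not] at hk
    obtain ⟨D, -, u, -, -, hu⟩ := hram k hk
    exact key (dif E u x) fun ξ h1 h2 => hu ξ h1 h2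

end Geo

section Main

variable {E E' E₀ : Type} [NormedAddCommGroup E] [NormedSpace ℂ E] [FiniteDimensional ℂ E]
  [NormedAddCommGroup E'] [NormedSpace ℂ E'] [FiniteDimensional ℂ E']
  [NormedAddCommGroup E₀] [NormedSpace ℂ E₀] [FiniteDimensional ℂ E₀]
variable {X Z Y F : Type u} [TopologicalSpace X] [ChartedSpace E X] [IsManifold 𝓘(ℂ, E) ω X]
  [TopologicalSpace Z] [ChartedSpace E Z] [IsManifold 𝓘(ℂ, E) ω Z]
  [TopologicalSpace Y] [ChartedSpace E' Y] [IsManifold 𝓘(ℂ, E') ω Y]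
  [TopologicalSpace F] [ChartedSpace E₀ F] [IsManifold 𝓘(ℂ, E₀) ω F]

theorem exists_B {d e : ℕ} {δ : ℝ} (hd : 3 ≤ d) (hδ : 0 ≤ δ)
    (h : 2 < ((e : ℝ) - 1) * (d - 2) + d * δ) (he : 1 ≤ e) :
    ∃ B : ℕ, 1 ≤ B ∧ (((d - 1) * ((B - 1) * 2 + d) - (d - 1) * (B - 1) * (e - 1) * (d - 2) : ℕ) : ℝ)
      ≤ (B * d * (d - 1) : ℕ) * δ := by
  obtain ⟨B, hB⟩ := exists_nat_ge ((d - (2 - ((e : ℝ) - 1) * (d - 2))) /
    (d * δ - (2 - ((e : ℝ) - 1) * (d - 2))))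
  have hpos : 0 < d * δ - (2 - ((e : ℝ) - 1) * (d - 2)) := by linarith
  refine ⟨B + 1, by omega, ?_⟩
  rw [div_le_iff₀ hpos] at hB
  have hd1 : (3 : ℝ) ≤ d := by exact_mod_cast hd
  have he1 : (1 : ℝ) ≤ e := by exact_mod_cast he
  have hR : (0 : ℝ) ≤ ((B + 1) * d * (d - 1) : ℕ) * δ := by positivity
  rcases le_total ((d - 1) * ((B + 1 - 1) * 2 + d)) ((d - 1) * (B + 1 - 1) * (e - 1) * (d - 2))
    with h1 | h1
  · rw [Nat.sub_eq_zero_of_le h1]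
    simpa using hR
  · rw [Nat.cast_sub h1]
    push_cast [Nat.cast_sub (show 1 ≤ d by omega), Nat.cast_sub (show 2 ≤ d by omega),
      Nat.cast_sub he, Nat.add_sub_cancel]
    have h2 : (0 : ℝ) ≤ (d : ℝ) - 1 := by linarith
    have h3 : (((B : ℝ) * 2 + d) - B * ((e : ℝ) - 1) * (d - 2)) ≤ (B + 1) * d * δ := by
      nlinarith
    calc ((d : ℝ) - 1) * (B * 2 + d) - (d - 1) * B * (e - 1) * (d - 2)
        = (d - 1) * ((B * 2 + d) - B * ((e : ℝ) - 1) * (d - 2)) := by ring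
      _ ≤ (d - 1) * ((B + 1) * d * δ) := by gcongr
      _ = (B + 1) * d * (d - 1) * δ := by ring

/-- families of branched covers of the projective line with moving branch points. -/
theorem main_cov [Nonempty X] (hE : Module.finrank ℂ E = Module.finrank ℂ E' + 1)
    (hE₀ : Module.finrank ℂ E₀ = 1) (j : Z → X) (hj : J.IsBigOpen E j)
    (f : Z → Y) (hf : ContMDiff 𝓘(ℂ, E) 𝓘(ℂ, E') ω f)
    (𝒢 : Set (Set Y)) (h𝒢 : J.IsDivisorial E E' f 𝒢) {n e d : ℕ} (he : 1 ≤ e) (hd : 3 ≤ d)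
    {𝒲 : Set (Set Z)} (h𝒲f : 𝒲.Finite) (h𝒲p : ∀ D ∈ 𝒲, J.IsPrime E D) {ι : Type u}
    (U : ι → Set Y) (p : ι → Fin d → Y → ℂ × ℂ) (c : ι → Z → ℂ × ℂ)
    (hB : J.IsBranchedOver E E' f (⋃₀ 𝒢) n e d 𝒲 U p c)
    (Δ : Set X → ℝ) (hsnc : J.IsSNC E Δ)
    (Δ' : Set Z → ℝ) (hsnc' : J.IsSNC E Δ') (hΔ : J.IsRestriction j Δ Δ')
    (hBS : ∀ G, J.orbBase' E E' f Δ' G ≠ 0 → G ∈ 𝒢)
    {δ : ℝ} (hδ₀ : 0 ≤ δ) (hδ : ∀ D ∈ 𝒲, δ ≤ Δ' D)
    (hgen : 2 < ((e : ℝ) - 1) * (d - 2) + d * δ) (ΔF : Set F → ℝ) :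
    J.kod E₀ (fun (C : Set F) p g => J.IsLocalEq E₀ C g p) ΔF +
      J.kod E' (fun (G : Set Y) z g => J.IsLocalEq E' G g z) (J.orbBase' E E' f Δ') ≤
      J.kod E (fun (D : Set X) z g => J.IsLocalEq E D g z) Δ := by
  classical
  rw [JB.kod_eq, JB.kod_eq, JB.kod_eq]
  have hs := JB.snc hsnc
  have hs' := JB.snc hsnc'
  let e₀ : E ≃L[ℂ] (E' × ℂ) := ContinuousLinearEquiv.ofFinrankEq (by
    rw [hE, Module.finrank_prod, Module.finrank_self])
  have hS := isClosed_cov hB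
  have hZ : Nonempty Z := by
    obtain ⟨x⟩ := ‹Nonempty X›
    obtain ⟨h, -, hne, hev⟩ := hj.2.2.2 x
    by_contra hcon
    apply hne
    filter_upwards [hev] with z hz
    refine hz.1 ?_
    rintro ⟨w, -⟩
    exact hcon ⟨w⟩
  obtain ⟨h𝒢f, h𝒢p, 𝒟, h𝒟f, hpre, hdom⟩ := h𝒢
  have hSd : Dense (⋃₀ 𝒢)ᶜ := by
    have h1 := (dense_compl_finite h𝒢f (fun G hG => (h𝒢p G hG).1) (fun G hG => by
      rw [← interior_eq_empty_iff_dense_compl, eq_empty_iff_forall_notMem]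
      intro y hy
      obtain ⟨g, hg⟩ := (show IsPrimeDivisor E' G from h𝒢p G hG).2.1 y
      refine leq_not_zero hg ?_
      filter_upwards [hg.eventually, isOpen_interior.mem_nhds hy] with z hz hz'
      exact hz.mem_iff.1 (interior_subset hz'))).2
    refine h1.mono ?_
    intro y hy
    rw [mem_compl_iff, mem_sUnion]
    rintro ⟨G, hG, hyG⟩
    exact hy G hG hyG
  have hthin := thin_of_components (fun x => hf x) h𝒟f h𝒢p
    (fun D hD => by obtain ⟨G, -, h⟩ := hdom D hD; exact h.1) hpre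
    (fun D hD => by obtain ⟨G, hG, h⟩ := hdom D hD; exact ⟨G, hG, h.2⟩)
  obtain ⟨Θ, Ψ, hC⟩ := exists_cov (fun x => hf x) hB e₀
  obtain ⟨B, hB1, hBk⟩ := exists_B hd hδ₀ hgen he
  set k₀ : ℕ := (d - 1) * ((B - 1) * 2 + d) - (d - 1) * (B - 1) * (e - 1) * (d - 2) with hk₀
  set κ₀ : Set Z → ℕ := fun D => if D ∈ 𝒲 then k₀ else 0 with hκ₀
  have hκ₀' : ∀ D ∈ 𝒲, k₀ ≤ κ₀ D := fun D hD => by rw [hκ₀]; simp only [if_pos hD]; exact le_refl _
  have hN : 0 < B * d * (d - 1) := Nat.mul_pos (Nat.mul_pos (by omega) (by omega)) (by omega)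
  have hκΔ : ∀ D, (κ₀ D : ℝ) ≤ (B * d * (d - 1) : ℕ) * Δ' D := by
    intro D
    obtain ⟨h0, -⟩ := snc01 hs' D
    by_cases hD : D ∈ 𝒲
    · have h1 : κ₀ D = k₀ := by rw [hκ₀]; exact if_pos hD
      rw [h1]
      refine hBk.trans ?_
      have := hδ D hD
      gcongr
    · have h1 : κ₀ D = 0 := by rw [hκ₀]; exact if_neg hD
      rw [h1]
      have : (0 : ℝ) ≤ (B * d * (d - 1) : ℕ) * Δ' D := by positivity
      simpa using this
  have hBD : ∀ (D : Set Z) (G : Set Y) (κ : ℕ), IsPrimeDivisor E D → IsPrimeDivisor E' G →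
      closure (f '' D) = G → 0 < κ → (∃ z ∈ D, ∃ e g w, IsLocalEq E D e z ∧
        IsLocalEq E' G g (f z) ∧ HolAt E w z ∧ w z ≠ 0 ∧ ∀ᶠ x in 𝓝 z, g (f x) = e x ^ κ * w x) →
      (κ : ℝ) * J.orbBase' E E' f Δ' G ≤ κ - 1 + Δ' D := by
    intro D G κ hD hG hDG hκ hwit
    obtain ⟨h0, h1⟩ := snc01 hs' D
    exact orbBase'_mul_le hκ hG hD hDG hwit h0 h1
  refine kod_add_le fun j₁ j₂ h₁ h₂ => ?_
  have hj₁ : j₁ ≤ 1 := by
    have := kodGE_le h₁
    rwa [hE₀] at this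
  have hdd : B * d * (d - 1) = (d * (d - 1)) * B := by ring
  have hmain : KodGE E (fun (D : Set Z) z g => IsLocalEq E D g z) Δ' (j₂ + 1) := by
    refine coreH (fun x => hf x) hS hSd (fun x hx => subm_cov hB hE hx) e₀ hthin hN h𝒲f h𝒲p
      (κ₀ := κ₀) (Θ₀ := fun z => Θ z ^ B) (Θ₁ := fun z => Θ z ^ (B - 1) * Ψ z)
      (fun x₀ x y₀ hx hx₀ hy₀ T eD hT heD => (cov_local (fun x => hf x) hB (by omega) e₀ hC hB1
        hκ₀' x₀ x y₀ hx hx₀ hy₀ T eD hT heD).2)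
      (fun x₀ x y₀ hx hx₀ hy₀ T eD hT heD => (cov_local (fun x => hf x) hB (by omega) e₀ hC hB1
        hκ₀' x₀ x y₀ hx hx₀ hy₀ T eD hT heD).1) ?_ ?_ ?_ hs' hκΔ
      (fun G hG => ⟨orbBase'_prime hG, subset_sUnion_of_mem (hBS G hG)⟩) hBD h₂
    · intro r hr
      obtain ⟨M, -, hM⟩ := cov_slice (fun x => hf x) hB e₀ hC r hr
      refine ⟨M ^ B, fun v₀ Q h1 h2 h3 h4 h5 P h6 => ?_⟩
      have h7 := (hM v₀ Q h1 h2 h3 h4 h5 P h6).1
      have h8 := pow_le_pow_left₀ (norm_nonneg _) h7 B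
      rw [mul_pow, ← norm_pow, ← norm_pow, ← pow_mul] at h8
      rw [hdd]
      exact h8
    · intro r hr
      obtain ⟨M, -, hM⟩ := cov_slice (fun x => hf x) hB e₀ hC r hr
      refine ⟨M ^ (B - 1) * M, fun v₀ Q h1 h2 h3 h4 h5 P h6 => ?_⟩
      obtain ⟨h7, h7'⟩ := hM v₀ Q h1 h2 h3 h4 h5 P h6
      have h8 := pow_le_pow_left₀ (norm_nonneg _) h7 (B - 1)
      have h9 := mul_le_mul h8 h7' (norm_nonneg _) ((pow_nonneg (norm_nonneg _) _).trans h8)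
      rw [← norm_pow, ← norm_mul] at h9
      refine h9.trans (le_of_eq ?_)
      have h10 : B * d * (d - 1) = (d * (d - 1)) * (B - 1) + d * (d - 1) := by
        obtain ⟨b, rfl⟩ : ∃ b, B = b + 1 := ⟨B - 1, by omega⟩
        simp only [Nat.add_sub_cancel]
        ring
      have key : ∀ (A : ℂ) (a b : ℕ), ‖A ^ (a * b + a)‖ = ‖A ^ a‖ ^ b * ‖A ^ a‖ := by
        intro A a b
        rw [pow_add, pow_mul, norm_mul, norm_pow (A ^ a)]
      rw [h10, key, mul_pow]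
      ring
    · intro y hy
      obtain ⟨x, hx, -, hx0, hR, ξ, hξ, hξ'⟩ := cov_nonconst (fun x => hf x) hB hd e₀ hC hy
      have hev : (fun z => Θ z ^ (B - 1) * Ψ z / Θ z ^ B) =ᶠ[𝓝 x] fun z => Ψ z / Θ z := by
        filter_upwards [hx0] with z hz
        obtain ⟨b, rfl⟩ : ∃ b, B = b + 1 := ⟨B - 1, by omega⟩
        simp only [Nat.add_sub_cancel]
        rw [pow_succ]
        field_simp
      refine ⟨x, hx, hx0.mono fun z hz => pow_ne_zero _ hz, hR.congr hev, ξ, hξ, ?_⟩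
      have h1 : dif E (fun z => Θ z ^ (B - 1) * Ψ z / Θ z ^ B) x =
          dif E (fun z => Ψ z / Θ z) x := dV_congr hev
      rw [h1]
      exact hξ'
  have hmain' := kodGE_emb (fun z => hj.1 z) hj.2.1 hj.2.2.1 hj.2.2.2 hs.finite hs.prime hΔ.1
    hΔ.2 hmain
  rcases Nat.eq_zero_or_pos j₁ with h0 | h0
  · rw [h0, zero_add]
    exact kodGE_pred hmain'
  · have h1 : j₁ = 1 := by omega
    rw [h1, add_comm]
    exact hmain'

end Main

end Vale.Agent.P281.ELL
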