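import Vale.Agent.P281.ELL.Theta
import Vale.Agent.P281.ELL.DefsL
import Vale.Agent.P281.ELL.Slice

/-!
# P281: a relative form with poles along a multisection is not constant on the fibres
-/

open scoped Manifold ContDiff Topology
open Set Filter Metric

namespace Vale.Agent.P281.ELL

open Vale.Agent.P281 Vale.Agent.P281.MF Vale.Agent.P281.ISO

set_option linter.unusedSectionVars false

universe u

/-- the translates of the lattice are discrete. -/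
theorem lattice_avoid {t : ℂ} (ht : 0 < t.im) (w₀ c : ℂ) :
    ∀ᶠ w in 𝓝[≠] w₀, ∀ m n : ℤ, w - c ≠ m + n * t := by
  set ρ := min 1 t.im / 2 with hρd
  have hρ : 0 < ρ := half_pos (lt_min one_pos ht)
  by_cases hc : ∃ w₁ ∈ ball w₀ ρ, ∃ m n : ℤ, w₁ - c = m + n * t
  · obtain ⟨w₁, hw₁, m₁, n₁, h1⟩ := hc
    have h2 : ∀ᶠ w in 𝓝[≠] w₀, w ≠ w₁ := by
      by_cases h3 : w₁ = w₀
      · rw [h3]; exact self_mem_nhdsWithin
      · exact nhdsWithin_le_nhds (isOpen_ne.mem_nhds (Ne.symm h3))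
    filter_upwards [h2, nhdsWithin_le_nhds (ball_mem_nhds w₀ hρ)] with w hw hwb m n hmn
    apply hw
    have h4 : w - w₁ = ((m - m₁ : ℤ) : ℂ) + ((n - n₁ : ℤ) : ℂ) * t := by
      push_cast
      linear_combination hmn - h1
    have h5 : ‖w - w₁‖ < min 1 t.im := by
      rw [mem_ball, dist_eq_norm] at hwb hw₁
      calc ‖w - w₁‖ = ‖(w - w₀) - (w₁ - w₀)‖ := by congr 1; ring
        _ ≤ ‖w - w₀‖ + ‖w₁ - w₀‖ := norm_sub_le _ _
        _ < ρ + ρ := add_lt_add hwb hw₁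
        _ = min 1 t.im := by rw [hρd]; ring
    rw [h4] at h5
    have h6 := lattice_disc ht (h5.trans_le (min_le_left _ _)) (h5.trans_le (min_le_right _ _))
    rw [h6] at h4
    exact sub_eq_zero.1 h4
  · push Not at hc
    filter_upwards [nhdsWithin_le_nhds (ball_mem_nhds w₀ hρ)] with w hw m n
    exact hc w hw m n

/-- a pole has non vanishing derivatives nearby. -/
theorem pole_deriv {g h : ℂ → ℂ} {w₀ : ℂ} (hh : ContDiffAt ℂ ω h w₀)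
    (hg : ∀ᶠ w in 𝓝[≠] w₀, g w = ((w - w₀) ^ 12)⁻¹ + h w) :
    ∃ᶠ w in 𝓝[≠] w₀, deriv g w ≠ 0 := by
  intro hcon
  have hcon' : ∀ᶠ w in 𝓝[≠] w₀, deriv g w = 0 := hcon.mono fun w hw => not_not.1 hw
  have h1 := eventually_eventually_nhdsWithin.2 hg
  have hhd : ∀ᶠ w in 𝓝[≠] w₀, DifferentiableAt ℂ h w :=
    nhdsWithin_le_nhds ((hh.eventually (by simp)).mono fun w hw => hw.differentiableAt (by simp))
  have h2 : ∀ᶠ w in 𝓝[≠] w₀, (w - w₀) ^ 13 * deriv h w = 12 := by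
    filter_upwards [h1, hcon', hhd, self_mem_nhdsWithin] with w hw1 hw2 hw3 hw4
    have hne : w - w₀ ≠ 0 := sub_ne_zero.2 hw4
    have hw1' : g =ᶠ[𝓝 w] fun z => ((z - w₀) ^ 12)⁻¹ + h z := by
      have h5 : 𝓝[≠] w₀ ≤ 𝓝[≠] w₀ := le_refl _
      rwa [IsOpen.nhdsWithin_eq isOpen_compl_singleton hw4] at hw1
    have h6 : HasDerivAt (fun z : ℂ => ((z - w₀) ^ 12)⁻¹)
        (-((12 : ℕ) * (w - w₀) ^ (12 - 1) * 1) / ((w - w₀) ^ 12) ^ 2) w :=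
      (((hasDerivAt_id w).sub_const w₀).pow 12).inv (pow_ne_zero _ hne)
    have h7 := (h6.add hw3.hasDerivAt).deriv
    have h8 : deriv g w = _ := hw1'.deriv_eq.trans h7
    rw [hw2] at h8
    have h9 : (w - w₀) ^ 13 * (-((12 : ℕ) * (w - w₀) ^ (12 - 1) * 1) / ((w - w₀) ^ 12) ^ 2) =
        -12 := by
      field_simp
      push_cast
      ring
    linear_combination (w - w₀) ^ 13 * h8.symm - h9
  have h3 : Tendsto (fun w => (w - w₀) ^ 13 * deriv h w) (𝓝[≠] w₀)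
      (𝓝 ((w₀ - w₀) ^ 13 * deriv h w₀)) := by
    have h4 : ContinuousAt (fun w => (w - w₀) ^ 13 * deriv h w) w₀ := by
      refine ContinuousAt.mul (by fun_prop) ?_
      exact hh.analyticAt.deriv.continuousAt
    exact h4.tendsto.mono_left nhdsWithin_le_nhds
  have h4 : Tendsto (fun w => (w - w₀) ^ 13 * deriv h w) (𝓝[≠] w₀) (𝓝 12) :=
    tendsto_const_nhds.congr' (h2.mono fun w hw => hw.symm)
  have h5 := tendsto_nhds_unique h3 h4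
  rw [sub_self, zero_pow (by norm_num), zero_mul] at h5
  norm_num at h5

/-- the sum of the translates of `W` has a pole of order `12`. -/
theorem sum_pole {W : ℂ → ℂ → ℂ}
    (hWh : ∀ t₀ w₀ : ℂ, 0 < t₀.im → (∀ m n : ℤ, w₀ ≠ m + n * t₀) →
      ContDiffAt ℂ ω (fun p : ℂ × ℂ => W p.1 p.2) (t₀, w₀))
    (hWp : ∀ t₀ w₀ : ℂ, 0 < t₀.im → ∀ m n : ℤ, w₀ = m + n * t₀ → ∃ R : ℂ × ℂ → ℂ,
      ContDiffAt ℂ ω R (t₀, w₀) ∧
        ∀ᶠ p : ℂ × ℂ in 𝓝 (t₀, w₀), W p.1 p.2 = ((p.2 - m - n * p.1) ^ 12)⁻¹ + R p)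
    {t w₀ : ℂ} (him : 0 < t.im) {d : ℕ} {c : Fin d → ℂ} {k₀ : Fin d} {m₀ n₀ : ℤ}
    (hmn : w₀ = c k₀ + m₀ + n₀ * t) (hne : ∀ k, k ≠ k₀ → ∀ m n : ℤ, w₀ - c k ≠ m + n * t) :
    ∃ h : ℂ → ℂ, ContDiffAt ℂ ω h w₀ ∧
      ∀ᶠ w in 𝓝[≠] w₀, (∑ k, W t (w - c k)) = ((w - w₀) ^ 12)⁻¹ + h w := by
  classical
  obtain ⟨R, hR, hRe⟩ := hWp t (w₀ - c k₀) him m₀ n₀ (by rw [hmn]; ring)
  have hpc : ∀ k, ContDiffAt ℂ ω (fun w : ℂ => (t, w - c k)) w₀ := fun k =>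
    contDiffAt_const.prodMk (contDiffAt_id.sub contDiffAt_const)
  refine ⟨fun w => R (t, w - c k₀) + ∑ k ∈ Finset.univ.erase k₀, W t (w - c k), ?_, ?_⟩
  · refine ContDiffAt.add (ContDiffAt.comp w₀ (g := R) (f := fun w : ℂ => (t, w - c k₀)) hR
      (hpc k₀)) ?_
    refine ContDiffAt.sum fun k hk => ?_
    exact ContDiffAt.comp w₀ (g := fun q : ℂ × ℂ => W q.1 q.2) (f := fun w : ℂ => (t, w - c k))
      (hWh t _ him (hne k (Finset.ne_of_mem_erase hk))) (hpc k)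
  · refine nhdsWithin_le_nhds ?_
    filter_upwards [(hpc k₀).continuousAt.eventually hRe] with w hw
    rw [← Finset.add_sum_erase _ _ (Finset.mem_univ k₀)]
    have h1 : W t (w - c k₀) = ((w - c k₀ - m₀ - n₀ * t) ^ 12)⁻¹ + R (t, w - c k₀) := hw
    have h2 : w - c k₀ - m₀ - n₀ * t = w - w₀ := by rw [hmn]; ring
    rw [h1, h2]
    ring

section Curve

variable {E E' : Type} [NormedAddCommGroup E] [NormedSpace ℂ E] [FiniteDimensional ℂ E]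
  [NormedAddCommGroup E'] [NormedSpace ℂ E'] [FiniteDimensional ℂ E']
variable {X Y : Type u} [TopologicalSpace X] [ChartedSpace E X] [IsManifold 𝓘(ℂ, E) ω X]
  [TopologicalSpace Y] [ChartedSpace E' Y] [IsManifold 𝓘(ℂ, E') ω Y]

/-- the curve in the fibre with parameter `ζ`. -/
theorem fibre_curve {f : X → Y} (hf : ∀ x, HolM E E' f x) (e₀ : E ≃L[ℂ] (E' × ℂ)) {x₀ : X}
    {ζ : X → ℂ} (hζ : HolV E ζ x₀)
    (hinj : ∀ ξ, dM E E' f x₀ ξ = 0 → dif E ζ x₀ ξ = 0 → ξ = 0) :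
    ∃ Q : ℂ → X, Q (ζ x₀) = x₀ ∧ ∀ᶠ p in 𝓝 (ζ x₀), ContMDiffAt 𝓘(ℂ, ℂ) 𝓘(ℂ, E) ω Q p ∧
      f (Q p) = f x₀ ∧ ζ (Q p) = p := by
  have : CompleteSpace E := FiniteDimensional.complete ℂ E
  set φ := chartAt E x₀ with hφ
  set ψY := chartAt E' (f x₀) with hψY
  have hxs : x₀ ∈ φ.source := mem_chart_source E x₀
  have hys : f x₀ ∈ ψY.source := mem_chart_source E' (f x₀)
  have h1 : HolV E (fun z => ψY (f z)) x₀ :=
    HolV.comp (h := (ψY : Y → E')) (HolV.chart hys) (hf x₀)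
  have hG1 : ContDiffAt ℂ ω ((fun z => ψY (f z)) ∘ φ.symm) (φ x₀) := h1.rep hxs
  have hG2 : ContDiffAt ℂ ω (ζ ∘ φ.symm) (φ x₀) := hζ.rep hxs
  set G : E → E' × ℂ := fun v => (ψY (f (φ.symm v)), ζ (φ.symm v)) with hG
  have hGc : ContDiffAt ℂ ω G (φ x₀) := hG1.prodMk hG2
  set L₁ := fderiv ℂ ((fun z => ψY (f z)) ∘ φ.symm) (φ x₀) with hL₁
  set L₂ := fderiv ℂ (ζ ∘ φ.symm) (φ x₀) with hL₂
  have hGd : HasFDerivAt G (L₁.prod L₂) (φ x₀) :=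
    (hG1.differentiableAt (by simp)).hasFDerivAt.prodMk
      (hG2.differentiableAt (by simp)).hasFDerivAt
  have d1 : (dV E' (ψY : Y → E') (f x₀)).comp (dM E E' f x₀) =
      L₁.comp (dV E (φ : X → E) x₀) := by
    have h9 := dV_comp (h := (ψY : Y → E')) (HolV.chart hys) (hf x₀)
    rw [← h9]
    exact dV_eq_chart hxs h1
  have d2 : dif E ζ x₀ = L₂.comp (dV E (φ : X → E) x₀) := dV_eq_chart hxs hζ
  have hker : ∀ ξ, L₁ (dV E (φ : X → E) x₀ ξ) = 0 → dM E E' f x₀ ξ = 0 := by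
    intro ξ hv1
    have e1 := congrArg (fun T : E →L[ℂ] E' => T ξ) d1
    simp only [ContinuousLinearMap.comp_apply] at e1
    rw [hv1] at e1
    obtain ⟨A₁, hA₁⟩ := dV_chart_leftInv (E := E') hys
    have := congrArg (fun T : E' →L[ℂ] E' => T (dM E E' f x₀ ξ)) hA₁
    simp only [ContinuousLinearMap.comp_apply, ContinuousLinearMap.id_apply] at this
    rw [← this, e1, map_zero]
  have hinj' : Function.Injective (L₁.prod L₂) := by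
    rw [injective_iff_map_eq_zero]
    intro v hv
    obtain ⟨ξ, rfl⟩ := dV_chart_surj (E := E) hxs v
    have hv1 : L₁ (dV E (φ : X → E) x₀ ξ) = 0 := (Prod.mk.inj hv).1
    have hv2 : L₂ (dV E (φ : X → E) x₀ ξ) = 0 := (Prod.mk.inj hv).2
    have e4 : dif E ζ x₀ ξ = 0 := by
      rw [d2]
      exact hv2
    rw [hinj ξ (hker ξ hv1) e4, map_zero]
  have hbij : Function.Bijective ((L₁.prod L₂ : E →L[ℂ] (E' × ℂ)) : E →ₗ[ℂ] (E' × ℂ)) := by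
    refine ⟨hinj', ?_⟩
    have h3 : Function.Injective (((L₁.prod L₂ : E →L[ℂ] (E' × ℂ)) : E →ₗ[ℂ] (E' × ℂ)) ∘ₗ
        (e₀.symm.toLinearEquiv : (E' × ℂ) →ₗ[ℂ] E)) := hinj'.comp e₀.symm.injective
    have h4 := LinearMap.surjective_of_injective h3
    intro w
    obtain ⟨v, hv⟩ := h4 w
    exact ⟨e₀.symm v, hv⟩
  let L : E ≃L[ℂ] (E' × ℂ) := (LinearEquiv.ofBijective _ hbij).toContinuousLinearEquiv
  have hL : (L : E →L[ℂ] (E' × ℂ)) = L₁.prod L₂ := by ext v <;> rfl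
  have hGd' : HasFDerivAt G (L : E →L[ℂ] (E' × ℂ)) (φ x₀) := by rw [hL]; exact hGd
  have hn : (ω : WithTop ℕ∞) ≠ 0 := by simp
  set R := hGc.localInverse hGd' hn with hR
  have hRc : ContDiffAt ℂ ω R (G (φ x₀)) := hGc.to_localInverse hGd' hn
  have hstr : HasStrictFDerivAt G (L : E →L[ℂ] (E' × ℂ)) (φ x₀) :=
    hGc.hasStrictFDerivAt' hGd' hn
  have hRr : ∀ᶠ w in 𝓝 (G (φ x₀)), G (R w) = w := hstr.eventually_right_inverse
  have hR0 : R (G (φ x₀)) = φ x₀ := hstr.localInverse_apply_image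
  have hG0 : G (φ x₀) = (ψY (f x₀), ζ x₀) := by
    simp only [hG, φ.left_inv hxs]
  rw [hG0] at hRc hRr hR0
  have hpair : ContDiffAt ℂ ω (fun p : ℂ => (ψY (f x₀), p)) (ζ x₀) :=
    contDiffAt_const.prodMk contDiffAt_id
  have hγc : ContDiffAt ℂ ω (fun p : ℂ => R (ψY (f x₀), p)) (ζ x₀) :=
    ContDiffAt.comp (ζ x₀) (g := R) hRc hpair
  have hγt : Tendsto (fun p : ℂ => R (ψY (f x₀), p)) (𝓝 (ζ x₀)) (𝓝 (φ x₀)) := by
    have := hγc.continuousAt.tendsto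
    rwa [hR0] at this
  have hsymm : Tendsto φ.symm (𝓝 (φ x₀)) (𝓝 x₀) := by
    have := (φ.continuousAt_symm (φ.map_source hxs)).tendsto
    rwa [φ.left_inv hxs] at this
  have hz : Tendsto (fun p => φ.symm (R (ψY (f x₀), p))) (𝓝 (ζ x₀)) (𝓝 x₀) := hsymm.comp hγt
  refine ⟨fun p => φ.symm (R (ψY (f x₀), p)), ?_, ?_⟩
  · show φ.symm (R (ψY (f x₀), ζ x₀)) = x₀
    rw [hR0, φ.left_inv hxs]
  · filter_upwards [hpair.continuousAt.eventually hRr,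
      hz.eventually ((hf x₀).continuousAt.eventually (ψY.open_source.mem_nhds hys)),
      hγc.eventually (by simp), hγt.eventually (φ.open_target.mem_nhds (φ.map_source hxs))]
      with p h3 h4 h5 h6
    have h7 : ψY (f (φ.symm (R (ψY (f x₀), p)))) = ψY (f x₀) := (Prod.mk.inj h3).1
    have h8 : ζ (φ.symm (R (ψY (f x₀), p))) = p := (Prod.mk.inj h3).2
    refine ⟨?_, ψY.injOn h4 hys h7, h8⟩
    have h9 : ContMDiffAt 𝓘(ℂ, E) 𝓘(ℂ, E) ω φ.symm (R (ψY (f x₀), p)) :=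
      contMDiffAt_symm_of_mem_maximalAtlas (IsManifold.chart_mem_maximalAtlas _) h6
    exact h9.comp p (contMDiffAt_iff_contDiffAt.2 h5)

/-- The relative form `Ξ` with poles along a multisection is not constant on the fibres. -/
theorem xi_nonconst_of {W : ℂ → ℂ → ℂ}
    (hWh : ∀ t₀ w₀ : ℂ, 0 < t₀.im → (∀ m n : ℤ, w₀ ≠ m + n * t₀) →
      ContDiffAt ℂ ω (fun p : ℂ × ℂ => W p.1 p.2) (t₀, w₀))
    (hWp : ∀ t₀ w₀ : ℂ, 0 < t₀.im → ∀ m n : ℤ, w₀ = m + n * t₀ → ∃ R : ℂ × ℂ → ℂ,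
      ContDiffAt ℂ ω R (t₀, w₀) ∧
        ∀ᶠ p : ℂ × ℂ in 𝓝 (t₀, w₀), W p.1 p.2 = ((p.2 - m - n * p.1) ^ 12)⁻¹ + R p)
    {f : X → Y} (hf : ∀ x, HolM E E' f x) {S : Set Y} {ι : Type u} {U : ι → Set Y}
    {τ : ι → Y → ℂ} {π : ι → Y → ℂ → X} (h : J.IsEllipticFamily E E' f S U τ π)
    (e₀ : E ≃L[ℂ] (E' × ℂ)) {Dv : Set X} (hD : J.IsMultisection E' f U π Dv) {Θ Ξ : X → ℂ}
    (hΘ : ∀ a x, f x ∈ U a → ∀ ζ : X → ℂ, HolV E ζ x → (∀ᶠ z in 𝓝 x, π a (f z) (ζ z) = z) →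
      Θ x = D (τ a (f x)) * JP e₀ (dM E E' f x) (dif E ζ x) ^ 12)
    (hΘ0 : ∀ x, f x ∉ S → Θ x ≠ 0)
    (hΞ : ∀ a x, f x ∈ U a → ∀ ζ : X → ℂ, HolV E ζ x → (∀ᶠ z in 𝓝 x, π a (f z) (ζ z) = z) →
      ∀ (d : ℕ) (p : Fin d → Y → ℂ), (∀ k, ∀ y ∈ U a, HolAt E' (p k) y) →
      (∀ x, f x ∈ U a → (x ∈ Dv ↔ ∃ k, π a (f x) (p k (f x)) = x)) →
      (∀ y ∈ U a, ∀ k k', π a y (p k y) = π a y (p k' y) → k = k') →
      Ξ x = (∑ k, W (τ a (f x)) (ζ x - p k (f x))) * JP e₀ (dM E E' f x) (dif E ζ x) ^ 12)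
    {x₀ : X} (hx₀ : x₀ ∈ Dv) (hS : f x₀ ∉ S) :
    ∃ x, f x = f x₀ ∧ x ∉ Dv ∧ HolV E (fun z => Ξ z / Θ z) x ∧
      ∃ ξ, dM E E' f x ξ = 0 ∧ dif E (fun z => Ξ z / Θ z) x ξ ≠ 0 := by
  classical
  obtain ⟨hcov, hloc, -⟩ := h
  obtain ⟨a, ha⟩ := (hcov (f x₀)).1 hS
  obtain ⟨hUo, hU, hζ⟩ := hloc a
  obtain ⟨d, hD⟩ := hD
  obtain ⟨p, hp1, hp2, hp3⟩ := hD a
  obtain ⟨k₀, hk₀⟩ := (hp2 x₀ ha).1 hx₀
  obtain ⟨ζ, hζh, hζπ, hinj⟩ := hζ x₀ ha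
  have hζh : HolV E ζ x₀ := hζh
  obtain ⟨-, him, hπ⟩ := hU (f x₀) ha
  have hlat : ∀ w w', π a (f x₀) w = π a (f x₀) w' →
      ∃ m n : ℤ, w' = w + m + n * τ a (f x₀) := fun w w' hw => (hπ w w').2.1 hw
  obtain ⟨Q, hQ0, hQ⟩ := fibre_curve hf e₀ hζh hinj
  have hw₀ : π a (f x₀) (ζ x₀) = x₀ := hζπ.self_of_nhds
  obtain ⟨m₀, n₀, hmn⟩ := hlat (p k₀ (f x₀)) (ζ x₀) (by rw [hw₀, hk₀])
  set t := τ a (f x₀) with ht
  set w₀ := ζ x₀ with hw₀d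
  let G : ℂ → ℂ := fun w => ∑ k, W t (w - p k (f x₀))
  -- the pole
  have hG : ∃ h : ℂ → ℂ, ContDiffAt ℂ ω h w₀ ∧
      ∀ᶠ w in 𝓝[≠] w₀, G w = ((w - w₀) ^ 12)⁻¹ + h w := by
    refine sum_pole hWh hWp him (c := fun k => p k (f x₀)) (k₀ := k₀) (m₀ := m₀) (n₀ := n₀) hmn ?_
    intro k hk m n hcon
    apply hk
    have e1 : π a (f x₀) (p k (f x₀)) = π a (f x₀) w₀ :=
      (hπ _ _).2.2 ⟨m, n, by linear_combination hcon⟩
    exact hp3 (f x₀) ha k k₀ (e1.trans (hw₀.trans hk₀.symm))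
  obtain ⟨hh, hhc, hGh⟩ := hG
  have hfreq := pole_deriv hhc hGh
  have hQc : ContinuousAt Q w₀ := hQ.self_of_nhds.1.continuousAt
  have hQt : Tendsto Q (𝓝 w₀) (𝓝 x₀) := by
    have := hQc.tendsto
    rwa [hQ0] at this
  have hnear : ∀ᶠ z in 𝓝 x₀, HolV E ζ z ∧ π a (f z) (ζ z) = z ∧ f z ∈ U a := by
    filter_upwards [hζh.eventually, hζπ, (hf x₀).continuousAt.eventually (hUo.mem_nhds ha)]
      with z h1 h2 h3 using ⟨h1, h2, h3⟩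
  have hev : ∀ᶠ w in 𝓝[≠] w₀, (∀ k, ∀ m n : ℤ, w - p k (f x₀) ≠ m + n * t) ∧
      (∀ᶠ q in 𝓝 w, ContMDiffAt 𝓘(ℂ, ℂ) 𝓘(ℂ, E) ω Q q ∧ f (Q q) = f x₀ ∧ ζ (Q q) = q) ∧
      (∀ᶠ z in 𝓝 (Q w), HolV E ζ z ∧ π a (f z) (ζ z) = z ∧ f z ∈ U a) := by
    filter_upwards [eventually_all.2 fun k => lattice_avoid him w₀ (p k (f x₀)),
      nhdsWithin_le_nhds (eventually_eventually_nhds.2 hQ),
      nhdsWithin_le_nhds (hQt.eventually (eventually_eventually_nhds.2 hnear))]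
      with w h1 h2 h3 using ⟨h1, h2, h3⟩
  obtain ⟨w, hw1, hw2, hw3, hw4⟩ := (hfreq.and_eventually hev).exists
  obtain ⟨hQw, hfw, hζw⟩ := hw3.self_of_nhds
  obtain ⟨hw5, hw6, hw7⟩ := hw4.self_of_nhds
  -- the ratio near `Q w`
  have hratio : (fun z => Ξ z / Θ z) =ᶠ[𝓝 (Q w)] fun z =>
      (∑ k, W (τ a (f z)) (ζ z - p k (f z))) / D (τ a (f z)) := by
    filter_upwards [eventually_eventually_nhds.2 hw4] with z hz
    obtain ⟨h1, h2, h3⟩ := hz.self_of_nhds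
    have h4 : ∀ᶠ z' in 𝓝 z, π a (f z') (ζ z') = z' := hz.mono fun z' hz' => hz'.2.1
    have h5 := hΘ0 z ((hcov (f z)).2 ⟨a, h3⟩)
    have h6 := hΘ a z h3 ζ h1 h4
    have h7 := hΞ a z h3 ζ h1 h4 d p hp1 hp2 hp3
    rw [h6] at h5
    rw [h6, h7, mul_div_mul_right _ _ (right_ne_zero_of_mul h5)]
  have hτ : HolV E (fun z => τ a (f z)) (Q w) :=
    HolV.comp (E' := E') (h := τ a) (hU (f (Q w)) hw7).1 (hf (Q w))
  have himw : 0 < (τ a (f (Q w))).im := (hU (f (Q w)) hw7).2.1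
  have hrh : HolV E (fun z => Ξ z / Θ z) (Q w) := by
    refine HolV.congr ?_ hratio
    refine HolV.div (HolV.sum fun k _ => ?_)
      (HolV.comp_contDiff (G := D) (D_hol himw) hτ) (D_ne himw)
    have h1 : HolV E (fun z => ζ z - p k (f z)) (Q w) := by
      have h2 : HolV E (fun z => p k (f z)) (Q w) :=
        HolV.comp (E' := E') (h := p k) (hp1 k _ hw7) (hf (Q w))
      exact HolV.comp_contDiff (G := fun q : ℂ × ℂ => q.1 - q.2)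
        (contDiffAt_fst.sub contDiffAt_snd) (hw5.prodMk h2)
    refine HolV.comp_contDiff (G := fun q : ℂ × ℂ => W q.1 q.2) ?_ (hτ.prodMk h1)
    refine hWh _ _ himw ?_
    intro m n
    rw [hfw, hζw]
    exact hw2 k m n
  refine ⟨Q w, hfw, ?_, hrh, (mfderiv 𝓘(ℂ, ℂ) 𝓘(ℂ, E) Q w : ℂ →L[ℂ] E) (1 : ℂ), ?_, ?_⟩
  · intro hcon
    obtain ⟨k, hk⟩ := (hp2 (Q w) hw7).1 hcon
    rw [hfw] at hk
    rw [hfw, hζw] at hw6
    obtain ⟨m, n, h1⟩ := hlat _ _ (hk.trans hw6.symm)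
    exact hw2 k m n (by rw [h1]; ring)
  · have h1 : f ∘ Q =ᶠ[𝓝 w] fun _ => f x₀ := hw3.mono fun q hq => hq.2.1
    have h2 := mfderiv_comp w (ContMDiffAt.mdifferentiableAt (hf (Q w)) (by simp))
      (hQw.mdifferentiableAt (by simp))
    rw [h1.mfderiv_eq, mfderiv_const] at h2
    have h3 := congrArg (fun A : ℂ →L[ℂ] E' => A 1) h2
    exact h3.symm
  · have h1 := (slice_comp hQw hrh).2
    rw [← h1]
    have h2 : (fun q => Ξ (Q q) / Θ (Q q)) =ᶠ[𝓝 w] fun q => G q / D t := by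
      filter_upwards [hQw.continuousAt.eventually hratio, hw3] with q hq1 hq2
      have hq1' : Ξ (Q q) / Θ (Q q) = _ := hq1
      rw [hq1', hq2.2.1, hq2.2.2]
    rw [h2.deriv_eq, deriv_div_const]
    exact div_ne_zero hw1 (D_ne him)

end Curve

end Vale.Agent.P281.ELL
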