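import Vale.Agent.P281.ELL.Theta
import Vale.Agent.P281.ELL.DefsL

/-!
# P281: the relative form with poles along a multisection
-/

open scoped Manifold ContDiff Topology
open Set Filter Metric

namespace Vale.Agent.P281.ELL

open Vale.Agent.P281 Vale.Agent.P281.MF Vale.Agent.P281.ISO

set_option linter.unusedSectionVars false
set_option linter.unusedVariables false

universe u

/-- near `(t₀, w₀)`, only the lattice points through `w₀` matter. -/
theorem lat_open {t₀ : ℂ} (ht : 0 < t₀.im) (w₀ : ℂ) :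
    ∀ᶠ p : ℂ × ℂ in 𝓝 (t₀, w₀), ∀ m n : ℤ, p.2 = m + n * p.1 → w₀ = m + n * t₀ := by
  set r : ℝ := t₀.im / 2 with hr
  have hrp : 0 < r := by positivity
  obtain ⟨N, hN⟩ := exists_nat_gt ((‖w₀‖ + 1) / r)
  obtain ⟨M, hM⟩ := exists_nat_gt ((‖w₀‖ + 1) + N * (‖t₀‖ + 1))
  have c1 : ContinuousAt (fun p : ℂ × ℂ => p.1) (t₀, w₀) := continuousAt_fst
  have c2 : ContinuousAt (fun p : ℂ × ℂ => p.2) (t₀, w₀) := continuousAt_snd
  have h1 : ∀ᶠ p : ℂ × ℂ in 𝓝 (t₀, w₀), r < p.1.im := by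
    have h : ContinuousAt (fun p : ℂ × ℂ => p.1.im) (t₀, w₀) :=
      (Complex.continuous_im.comp continuous_fst).continuousAt
    exact h.eventually_const_lt (by show t₀.im / 2 < t₀.im; linarith)
  have h2 : ∀ᶠ p : ℂ × ℂ in 𝓝 (t₀, w₀), ‖p.1‖ < ‖t₀‖ + 1 :=
    c1.norm.eventually_lt_const (by show ‖t₀‖ < ‖t₀‖ + 1; linarith)
  have h3 : ∀ᶠ p : ℂ × ℂ in 𝓝 (t₀, w₀), ‖p.2‖ < ‖w₀‖ + 1 :=
    c2.norm.eventually_lt_const (by show ‖w₀‖ < ‖w₀‖ + 1; linarith)
  have h4 : ∀ᶠ p : ℂ × ℂ in 𝓝 (t₀, w₀), ∀ m ∈ Finset.Icc (-M : ℤ) M,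
      ∀ n ∈ Finset.Icc (-N : ℤ) N, p.2 = m + n * p.1 → w₀ = m + n * t₀ := by
    rw [Filter.eventually_all_finset]
    intro m _
    rw [Filter.eventually_all_finset]
    intro n _
    by_cases h : w₀ = m + n * t₀
    · exact Eventually.of_forall fun _ _ => h
    · have hc : ContinuousAt (fun p : ℂ × ℂ => p.2 - (m + n * p.1)) (t₀, w₀) := by fun_prop
      filter_upwards [hc.eventually_ne (sub_ne_zero.2 h)] with p hp hp2
      exact absurd (sub_eq_zero.2 hp2) hp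
  filter_upwards [h1, h2, h3, h4] with p p1 p2 p3 p4 m n hmn
  have him : p.2.im = n * p.1.im := by rw [hmn]; simp
  have hn1 : |(n : ℝ)| * r < ‖w₀‖ + 1 := by
    have e1 := Complex.abs_im_le_norm p.2
    rw [him, abs_mul, abs_of_pos (hrp.trans p1)] at e1
    have e2 := mul_le_mul_of_nonneg_left p1.le (abs_nonneg (n : ℝ))
    linarith
  have hn2 : |(n : ℝ)| < N := by
    have e3 : |(n : ℝ)| < (‖w₀‖ + 1) / r := (lt_div_iff₀ hrp).2 hn1
    exact e3.trans hN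
  have hm1 : |(m : ℝ)| < M := by
    have e1 : (m : ℂ) = p.2 - n * p.1 := by rw [hmn]; ring
    have e2 : |(m : ℝ)| = ‖p.2 - n * p.1‖ := by
      rw [← e1, Complex.norm_intCast]
    have e3 := norm_sub_le p.2 (n * p.1)
    rw [norm_mul, Complex.norm_intCast] at e3
    have e4 : |(n : ℝ)| * ‖p.1‖ ≤ N * (‖t₀‖ + 1) :=
      mul_le_mul hn2.le p2.le (norm_nonneg _) (Nat.cast_nonneg N)
    linarith
  have hn3 : |n| ≤ (N : ℤ) := by
    have : |n| < (N : ℤ) := by exact_mod_cast hn2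
    exact this.le
  have hm3 : |m| ≤ (M : ℤ) := by
    have : |m| < (M : ℤ) := by exact_mod_cast hm1
    exact this.le
  exact p4 m (Finset.mem_Icc.2 (abs_le.1 hm3)) n (Finset.mem_Icc.2 (abs_le.1 hn3)) hmn

theorem lat_unique {t : ℂ} (ht : 0 < t.im) {m n m' n' : ℤ}
    (h : (m : ℂ) + n * t = m' + n' * t) : m = m' ∧ n = n' := by
  have h1 : ((m : ℂ) + n * t).im = ((m' : ℂ) + n' * t).im := by rw [h]
  have h2 : (n : ℝ) * t.im = n' * t.im := by simpa using h1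
  have h3 : (n : ℝ) = n' := mul_right_cancel₀ ht.ne' h2
  have h4 : n = n' := by exact_mod_cast h3
  subst h4
  have h5 : (m : ℂ) = m' := by linear_combination h
  exact ⟨by exact_mod_cast h5, rfl⟩

section Xi

variable {E E' : Type} [NormedAddCommGroup E] [NormedSpace ℂ E] [FiniteDimensional ℂ E]
  [NormedAddCommGroup E'] [NormedSpace ℂ E'] [FiniteDimensional ℂ E']
variable {X Y : Type u} [TopologicalSpace X] [ChartedSpace E X] [IsManifold 𝓘(ℂ, E) ω X]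
  [TopologicalSpace Y] [ChartedSpace E' Y] [IsManifold 𝓘(ℂ, E') ω Y]

theorem dif_add' {g h : X → ℂ} {p : X} (hg : HolV E g p) (hh : HolV E h p) :
    dif E (fun w => g w + h w) p = dif E g p + dif E h p := by
  have h1 := (hg.mdiff.hasMFDerivAt.add hh.mdiff.hasMFDerivAt).mfderiv
  exact h1

/-- near a point of `f⁻¹(U)`, each term of the relative form has a pole of order `≤ 12`. -/
theorem term_hol {W : ℂ → ℂ → ℂ}
    (hWh : ∀ t₀ w₀ : ℂ, 0 < t₀.im → (∀ m n : ℤ, w₀ ≠ m + n * t₀) →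
      ContDiffAt ℂ ω (fun p : ℂ × ℂ => W p.1 p.2) (t₀, w₀))
    (hWp : ∀ t₀ w₀ : ℂ, 0 < t₀.im → ∀ m n : ℤ, w₀ = m + n * t₀ →
      ∃ R : ℂ × ℂ → ℂ, ContDiffAt ℂ ω R (t₀, w₀) ∧
        ∀ᶠ p : ℂ × ℂ in 𝓝 (t₀, w₀), W p.1 p.2 = ((p.2 - m - n * p.1) ^ 12)⁻¹ + R p)
    {f : X → Y} (hf : ∀ x, HolM E E' f x) (e₀ : E ≃L[ℂ] (E' × ℂ)) {U : Set Y} {τ : Y → ℂ}
    {π : Y → ℂ → X} (hU : IsOpen U)
    (hπ : ∀ y ∈ U, J.HolAt E' τ y ∧ 0 < (τ y).im ∧ ∀ w w', f (π y w) = y ∧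
      (π y w = π y w' ↔ ∃ m n : ℤ, w' = w + m + n * τ y))
    {x : X} (ha : f x ∈ U) {ζ : X → ℂ} (hζ : HolV E ζ x)
    (hζπ : ∀ᶠ z in 𝓝 x, π (f z) (ζ z) = z)
    (hinj : ∀ ξ, dM E E' f x ξ = 0 → dif E ζ x ξ = 0 → ξ = 0) {Dv : Set X} {d : ℕ}
    {p : Fin d → Y → ℂ} (hp : ∀ k, ∀ y ∈ U, J.HolAt E' (p k) y)
    (hpD : ∀ x, f x ∈ U → (x ∈ Dv ↔ ∃ k, π (f x) (p k (f x)) = x))
    (hpi : ∀ y ∈ U, ∀ k k', π y (p k y) = π y (p k' y) → k = k') {e : X → ℂ}
    (he : IsLocalEq E Dv e x) (k : Fin d) :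
    ∃ h : X → ℂ, HolV E h x ∧ ∀ᶠ z in 𝓝 x, e z ≠ 0 →
      W (τ (f z)) (ζ z - p k (f z)) * e z ^ 12 = h z := by
  classical
  have hfc : ContinuousAt f x := (hf x).continuousAt
  obtain ⟨hτ, him, hπx⟩ := hπ (f x) ha
  have hτf : HolV E (fun z => τ (f z)) x := HolV.comp (E' := E') (h := τ) hτ (hf x)
  have hpf : ∀ k', HolV E (fun z => p k' (f z)) x := fun k' =>
    HolV.comp (E' := E') (h := p k') (hp k' (f x) ha) (hf x)
  have hsub : ∀ k', HolV E (fun z => ζ z - p k' (f z)) x := fun k' => by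
    have h1 : HolV E (fun z => ζ z + (-1) * p k' (f z)) x :=
      hζ.add ((HolV.const (-1 : ℂ) x).mul (hpf k'))
    refine h1.congr (Eventually.of_forall fun z => ?_)
    ring
  have hpair : ∀ k', HolV E (fun z => (τ (f z), ζ z - p k' (f z))) x := fun k' =>
    hτf.prodMk (hsub k')
  by_cases hc : ∃ m n : ℤ, ζ x - p k (f x) = m + n * τ (f x)
  · obtain ⟨m, n, hmn⟩ := hc
    obtain ⟨R, hR, hRe⟩ := hWp (τ (f x)) (ζ x - p k (f x)) him m n hmn
    have hRh : HolV E (fun z => R (τ (f z), ζ z - p k (f z))) x :=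
      HolV.comp_contDiff (G := R) hR (hpair k)
    -- the local equation
    set g : Y → ℂ := fun y => -(p k y) - m - n * τ y with hg
    have hgh : HolV E' g (f x) := by
      have h1 : HolV E' (fun y => (-1) * p k y + ((-m : ℂ) + (-n : ℂ) * τ y)) (f x) :=
        ((HolV.const (-1 : ℂ) (f x)).mul (hp k (f x) ha)).add
          ((HolV.const (-m : ℂ) (f x)).add ((HolV.const (-n : ℂ) (f x)).mul hτ))
      refine h1.congr (Eventually.of_forall fun y => ?_)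
      simp only [hg]
      ring
    set u : X → ℂ := fun z => ζ z + g (f z) with hu
    have hgf : HolV E (fun z => g (f z)) x := HolV.comp (E' := E') (h := g) hgh (hf x)
    have huh : HolV E u x := hζ.add hgf
    have hud : dif E u x ≠ 0 := by
      obtain ⟨ξ, hξ0, hξ⟩ : ∃ ξ : E, ξ ≠ 0 ∧ dM E E' f x ξ = 0 := by
        by_contra hcon
        push Not at hcon
        have h1 : Function.Injective ((dM E E' f x : E →L[ℂ] E') : E →ₗ[ℂ] E') := by
          rw [injective_iff_map_eq_zero]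
          intro ξ hξ
          by_contra h0
          exact hcon ξ h0 hξ
        have h2 := LinearMap.finrank_le_finrank_of_injective h1
        have h3 := e₀.toLinearEquiv.finrank_eq
        rw [Module.finrank_prod, Module.finrank_self] at h3
        omega
      intro h0
      apply hξ0
      refine hinj ξ hξ ?_
      have h1 : dif E u x = dif E ζ x + dif E (fun z => g (f z)) x := dif_add' hζ hgf
      have h2 : dif E (fun z => g (f z)) x = (dif E' g (f x)).comp (dM E E' f x) :=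
        dif_comp hgh (hf x)
      rw [h0, h2] at h1
      have h3 := congrArg (fun T : E →L[ℂ] ℂ => T ξ) h1
      simp only [_root_.add_apply, ContinuousLinearMap.comp_apply, hξ,
        map_zero, add_zero, _root_.zero_apply] at h3
      exact h3.symm
    have hlat : ∀ᶠ z in 𝓝 x, ∀ k' : Fin d, ∀ m' n' : ℤ,
        ζ z - p k' (f z) = m' + n' * τ (f z) → ζ x - p k' (f x) = m' + n' * τ (f x) := by
      rw [Filter.eventually_all]
      intro k'
      have h1 := (hpair k').continuousAt.eventually (lat_open him (ζ x - p k' (f x)))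
      exact h1
    have hDu : ∀ᶠ z in 𝓝 x, z ∈ Dv ↔ u z = 0 := by
      filter_upwards [hlat, hζπ, hfc.eventually (hU.mem_nhds ha)] with z h1 h2 h3
      rw [hpD z h3]
      obtain ⟨-, -, hπz⟩ := hπ (f z) h3
      constructor
      · rintro ⟨k', hk'⟩
        obtain ⟨m', n', h4⟩ := ((hπz (p k' (f z)) (ζ z)).2).1 (hk'.trans h2.symm)
        have h5 := h1 k' m' n' (by rw [h4]; ring)
        have h6 : π (f x) (p k' (f x)) = π (f x) (p k (f x)) := by
          have h7 : π (f x) (p k' (f x)) = π (f x) (ζ x) :=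
            ((hπx _ _).2).2 ⟨m', n', by linear_combination h5⟩
          have h8 : π (f x) (p k (f x)) = π (f x) (ζ x) :=
            ((hπx _ _).2).2 ⟨m, n, by linear_combination hmn⟩
          rw [h7, h8]
        have h7 : k' = k := hpi (f x) ha k' k h6
        subst h7
        obtain ⟨h8, h9⟩ := lat_unique him (h5.symm.trans hmn)
        subst h8
        subst h9
        show ζ z + g (f z) = 0
        simp only [hg]
        rw [h4]
        ring
      · intro h4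
        have h4' : ζ z + (-(p k (f z)) - m - n * τ (f z)) = 0 := h4
        refine ⟨k, ?_⟩
        have h5 : π (f z) (p k (f z)) = π (f z) (ζ z) :=
          ((hπz _ _).2).2 ⟨m, n, by linear_combination h4'⟩
        rw [h5, h2]
    have hleq : IsLocalEq E Dv u x := IsLocalEq.of_dif_ne huh hDu hud
    obtain ⟨v, hv, -, hve⟩ := leq_unit hleq he
    refine ⟨fun z => v z ^ 12 + R (τ (f z), ζ z - p k (f z)) * e z ^ 12,
      (hv.pow 12).add (hRh.mul (he.holAt.pow 12)), ?_⟩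
    filter_upwards [hve, (hpair k).continuousAt.eventually hRe] with z h1 h2 h3
    have hu0 : u z ≠ 0 := by
      intro h0
      rw [h0, zero_mul] at h1
      exact h3 h1
    have h2' : W (τ (f z)) (ζ z - p k (f z)) =
        ((ζ z - p k (f z) - m - n * τ (f z)) ^ 12)⁻¹ + R (τ (f z), ζ z - p k (f z)) := h2
    have h4 : ζ z - p k (f z) - m - n * τ (f z) = u z := by
      simp only [hu, hg]
      ring
    rw [h2', h4, add_mul]
    congr 1
    rw [h1]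
    field_simp
  · push Not at hc
    have h1 : HolV E (fun z => W (τ (f z)) (ζ z - p k (f z))) x :=
      HolV.comp_contDiff (G := fun q : ℂ × ℂ => W q.1 q.2)
        (v := fun z => (τ (f z), ζ z - p k (f z)))
        (hWh (τ (f x)) (ζ x - p k (f x)) him hc) (hpair k)
    exact ⟨fun z => W (τ (f z)) (ζ z - p k (f z)) * e z ^ 12, h1.mul (he.holAt.pow 12),
      Eventually.of_forall fun z _ => rfl⟩

theorem exists_xi_of {W : ℂ → ℂ → ℂ}
    (hWa : ∀ t w : ℂ, ∀ m n : ℤ, W t (w + m + n * t) = W t w)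
    (hWl : ∀ t t' l : ℂ, 0 < t.im → 0 < t'.im →
      (∀ w : ℂ, (∃ m n : ℤ, w = m + n * t) ↔ ∃ m n : ℤ, l * w = m + n * t') →
      ∀ w, W t' (l * w) * l ^ 12 = W t w)
    (hWh : ∀ t₀ w₀ : ℂ, 0 < t₀.im → (∀ m n : ℤ, w₀ ≠ m + n * t₀) →
      ContDiffAt ℂ ω (fun p : ℂ × ℂ => W p.1 p.2) (t₀, w₀))
    (hWp : ∀ t₀ w₀ : ℂ, 0 < t₀.im → ∀ m n : ℤ, w₀ = m + n * t₀ →
      ∃ R : ℂ × ℂ → ℂ, ContDiffAt ℂ ω R (t₀, w₀) ∧
        ∀ᶠ p : ℂ × ℂ in 𝓝 (t₀, w₀), W p.1 p.2 = ((p.2 - m - n * p.1) ^ 12)⁻¹ + R p)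
    {f : X → Y} (hf : ∀ x, HolM E E' f x) {S : Set Y} {ι : Type u} {U : ι → Set Y}
    {τ : ι → Y → ℂ} {π : ι → Y → ℂ → X} (h : J.IsEllipticFamily E E' f S U τ π)
    (e₀ : E ≃L[ℂ] (E' × ℂ)) {Dv : Set X} (hD : J.IsMultisection E' f U π Dv) :
    ∃ Ξ : X → ℂ, (∀ a x, f x ∈ U a → ∀ ζ : X → ℂ, HolV E ζ x →
        (∀ᶠ z in 𝓝 x, π a (f z) (ζ z) = z) → ∀ (d : ℕ) (p : Fin d → Y → ℂ),
        ((∀ k, ∀ y ∈ U a, J.HolAt E' (p k) y) ∧
          (∀ x, f x ∈ U a → (x ∈ Dv ↔ ∃ k, π a (f x) (p k (f x)) = x)) ∧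
          ∀ y ∈ U a, ∀ k k', π a y (p k y) = π a y (p k' y) → k = k') →
        Ξ x = (∑ k, W (τ a (f x)) (ζ x - p k (f x))) *
          JP e₀ (dM E E' f x) (dif E ζ x) ^ 12) ∧
      (∀ (x₀ x : X) (y₀ : Y), f x ∉ S → x ∈ (chartAt E x₀).source →
        f x ∈ (chartAt E' y₀).source → ∀ e : X → ℂ, IsLocalEq E Dv e x →
        ∃ H : X → ℂ, HolV E H x ∧
        ∀ᶠ z in 𝓝 x, e z ≠ 0 → jac E' (chartAt E' y₀) (f z) ^ 12 * Ξ z * e z ^ 12 =
          H z * jac E (chartAt E x₀) z ^ 12) := by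
  classical
  obtain ⟨hcov, hloc, htr⟩ := h
  obtain ⟨d, hD⟩ := hD
  have hfc : ∀ x, ContinuousAt f x := fun x => (hf x).continuousAt
  -- the value does not depend on the choices
  have key : ∀ a b x, f x ∈ U a → f x ∈ U b → ∀ ζ ζ' : X → ℂ, HolV E ζ x → HolV E ζ' x →
      (∀ᶠ z in 𝓝 x, π a (f z) (ζ z) = z) → (∀ᶠ z in 𝓝 x, π b (f z) (ζ' z) = z) →
      (∀ ξ, dM E E' f x ξ = 0 → dif E ζ x ξ = 0 → ξ = 0) →
      ∀ (d : ℕ) (p : Fin d → Y → ℂ) (d' : ℕ) (p' : Fin d' → Y → ℂ),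
      ((∀ k, ∀ y ∈ U a, J.HolAt E' (p k) y) ∧
          (∀ x, f x ∈ U a → (x ∈ Dv ↔ ∃ k, π a (f x) (p k (f x)) = x)) ∧
          ∀ y ∈ U a, ∀ k k', π a y (p k y) = π a y (p k' y) → k = k') →
      ((∀ k, ∀ y ∈ U b, J.HolAt E' (p' k) y) ∧
          (∀ x, f x ∈ U b → (x ∈ Dv ↔ ∃ k, π b (f x) (p' k (f x)) = x)) ∧
          ∀ y ∈ U b, ∀ k k', π b y (p' k y) = π b y (p' k' y) → k = k') →
      (∑ k, W (τ b (f x)) (ζ' x - p' k (f x))) * JP e₀ (dM E E' f x) (dif E ζ' x) ^ 12 =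
        (∑ k, W (τ a (f x)) (ζ x - p k (f x))) * JP e₀ (dM E E' f x) (dif E ζ x) ^ 12 := by
    intro a b x ha hb ζ ζ' hζ hζ' hζπ hζ'π hinj d p d' p' hp hp'
    obtain ⟨l, c, hlc⟩ := htr a b (f x) ⟨ha, hb⟩
    have hya := (hloc a).2.1 (f x) ha
    have hyb := (hloc b).2.1 (f x) hb
    have hlatt : ∀ w : ℂ, (∃ m n : ℤ, w = m + n * τ a (f x)) ↔
        ∃ m n : ℤ, l * w = m + n * τ b (f x) := by
      intro w
      have h1 := (hya.2.2 0 w).2
      have h2 := (hyb.2.2 c (l * w + c)).2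
      have h3 : π b (f x) c = π a (f x) 0 := by
        have := hlc 0
        rwa [mul_zero, zero_add] at this
      constructor
      · rintro ⟨m, n, hmn⟩
        have h4 : π a (f x) 0 = π a (f x) w := h1.2 ⟨m, n, by rw [hmn]; ring⟩
        obtain ⟨m', n', h5⟩ := h2.1 (by rw [h3, hlc, h4])
        exact ⟨m', n', by linear_combination h5⟩
      · rintro ⟨m, n, hmn⟩
        have h4 : π b (f x) c = π b (f x) (l * w + c) := h2.2 ⟨m, n, by rw [hmn]; ring⟩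
        rw [h3, hlc] at h4
        obtain ⟨m', n', h5⟩ := h1.1 h4
        exact ⟨m', n', by linear_combination h5⟩
    have hl : l ≠ 0 := by
      intro h0
      obtain ⟨m, n, h1⟩ := (hlatt (1 / 2)).2 ⟨0, 0, by rw [h0]; simp⟩
      have h2 := congrArg Complex.im h1
      have h3 : (0 : ℝ) = n * (τ a (f x)).im := by simpa using h2
      have h4 : (n : ℝ) = 0 := by
        rcases mul_eq_zero.1 h3.symm with h5 | h5
        · exact h5
        · exact absurd h5 hya.2.1.ne'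
      have h5 : n = 0 := by exact_mod_cast h4
      rw [h5] at h1
      have h6 := congrArg Complex.re h1
      have h7 : (1 / 2 : ℝ) = m := by simpa using h6
      have h8 : ((1 : ℤ) : ℝ) = ((2 * m : ℤ) : ℝ) := by
        push_cast
        linarith
      have h9 : (1 : ℤ) = 2 * m := by exact_mod_cast h8
      omega
    obtain ⟨ξ, hξ1, hξ2, hξ3⟩ := branch_scale hf e₀ (πa := π a) (πb := π b) hζ hζ' hinj hζπ hζ'π
      hyb.2.1 hlc (fun w w' hw => ((hyb.2.2 w w').2).1 hw)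
    have hxa : π a (f x) (ζ x) = x := hζπ.self_of_nhds
    have hxb : π b (f x) (ζ' x) = x := hζ'π.self_of_nhds
    obtain ⟨m₁, n₁, h1⟩ : ∃ m n : ℤ, ζ' x = (l * ζ x + c) + m + n * τ b (f x) :=
      ((hyb.2.2 (l * ζ x + c) (ζ' x)).2).1 (by rw [hlc, hxa, hxb])
    -- the bijection
    have hmem : ∀ k, π a (f x) (p k (f x)) ∈ Dv := fun k => by
      have h2 : f (π a (f x) (p k (f x))) = f x := (hya.2.2 (p k (f x)) 0).1
      rw [hp.2.1 _ (by rw [h2]; exact ha)]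
      exact ⟨k, by rw [h2]⟩
    have hmem' : ∀ k, π b (f x) (p' k (f x)) ∈ Dv := fun k => by
      have h2 : f (π b (f x) (p' k (f x))) = f x := (hyb.2.2 (p' k (f x)) 0).1
      rw [hp'.2.1 _ (by rw [h2]; exact hb)]
      exact ⟨k, by rw [h2]⟩
    have hσ : ∀ k, ∃ k', π b (f x) (p' k' (f x)) = π a (f x) (p k (f x)) := fun k => by
      have h2 : f (π a (f x) (p k (f x))) = f x := (hya.2.2 (p k (f x)) 0).1
      obtain ⟨k', hk'⟩ := (hp'.2.1 _ (by rw [h2]; exact hb)).1 (hmem k)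
      exact ⟨k', by rw [h2] at hk'; exact hk'⟩
    have hσ' : ∀ k', ∃ k, π a (f x) (p k (f x)) = π b (f x) (p' k' (f x)) := fun k' => by
      have h2 : f (π b (f x) (p' k' (f x))) = f x := (hyb.2.2 (p' k' (f x)) 0).1
      obtain ⟨k, hk⟩ := (hp.2.1 _ (by rw [h2]; exact ha)).1 (hmem' k')
      exact ⟨k, by rw [h2] at hk; exact hk⟩
    choose σ hσ using hσ
    have hbij : Function.Bijective σ := by
      constructor
      · intro k k' hkk
        apply hp.2.2 (f x) ha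
        rw [← hσ k, ← hσ k', hkk]
      · intro k'
        obtain ⟨k, hk⟩ := hσ' k'
        exact ⟨k, hp'.2.2 (f x) hb _ _ (by rw [hσ k, hk])⟩
    have hterm : ∀ k, W (τ b (f x)) (ζ' x - p' (σ k) (f x)) * l ^ 12 =
        W (τ a (f x)) (ζ x - p k (f x)) := by
      intro k
      obtain ⟨m₂, n₂, h2⟩ : ∃ m n : ℤ,
          p' (σ k) (f x) = (l * p k (f x) + c) + m + n * τ b (f x) :=
        ((hyb.2.2 (l * p k (f x) + c) (p' (σ k) (f x))).2).1 (by rw [hlc, hσ k])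
      have h3 : ζ' x - p' (σ k) (f x) = l * (ζ x - p k (f x)) + ((m₁ - m₂ : ℤ) : ℂ) +
          ((n₁ - n₂ : ℤ) : ℂ) * τ b (f x) := by
        rw [h1, h2]
        push_cast
        ring
      rw [h3, hWa]
      exact hWl _ _ l hya.2.1 hyb.2.1 hlatt _
    have hsum : (∑ k, W (τ b (f x)) (ζ' x - p' k (f x))) * l ^ 12 =
        ∑ k, W (τ a (f x)) (ζ x - p k (f x)) := by
      rw [← Fintype.sum_bijective σ hbij (fun k => W (τ b (f x)) (ζ' x - p' (σ k) (f x)))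
        (fun k => W (τ b (f x)) (ζ' x - p' k (f x))) (fun _ => rfl), Finset.sum_mul]
      exact Finset.sum_congr rfl fun k _ => hterm k
    rw [JP_scale e₀ hξ1 hξ2 hl hξ3, mul_pow, ← mul_assoc, hsum]
  -- the definition
  have hex : ∀ x, ∃ v : ℂ, ∀ a, f x ∈ U a → ∀ ζ : X → ℂ, HolV E ζ x →
      (∀ᶠ z in 𝓝 x, π a (f z) (ζ z) = z) → ∀ (d : ℕ) (p : Fin d → Y → ℂ),
      ((∀ k, ∀ y ∈ U a, J.HolAt E' (p k) y) ∧
          (∀ x, f x ∈ U a → (x ∈ Dv ↔ ∃ k, π a (f x) (p k (f x)) = x)) ∧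
          ∀ y ∈ U a, ∀ k k', π a y (p k y) = π a y (p k' y) → k = k') →
      v = (∑ k, W (τ a (f x)) (ζ x - p k (f x))) *
        JP e₀ (dM E E' f x) (dif E ζ x) ^ 12 := by
    intro x
    by_cases hx : ∃ a, f x ∈ U a
    · obtain ⟨a, ha⟩ := hx
      obtain ⟨ζ, hζ, hζπ, hinj⟩ := (hloc a).2.2 x ha
      obtain ⟨p, hp⟩ := hD a
      refine ⟨(∑ k, W (τ a (f x)) (ζ x - p k (f x))) *
        JP e₀ (dM E E' f x) (dif E ζ x) ^ 12, fun b hb ζ' hζ' hζ'π d' p' hp' => ?_⟩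
      exact (key a b x ha hb ζ ζ' hζ hζ' hζπ hζ'π hinj d p d' p' hp hp').symm
    · exact ⟨0, fun a ha => absurd ⟨a, ha⟩ hx⟩
  choose Ξ hΞ using hex
  refine ⟨Ξ, fun a x ha ζ hζ hζπ d p hp => hΞ x a ha ζ hζ hζπ d p hp, ?_⟩
  intro x₀ x y₀ hx hx₀ hy₀ e he
  obtain ⟨a, ha⟩ := (hcov (f x)).1 hx
  obtain ⟨ζ, hζ, hζπ, hinj⟩ := (hloc a).2.2 x ha
  obtain ⟨p, hp⟩ := hD a
  have hζ : HolV E ζ x := hζ
  set φ := chartAt E x₀ with hφ
  set ψ := chartAt E' y₀ with hψ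
  let A₁ : X → E' := fun x => ψ (f x)
  have hA₁ : HolV E A₁ x := HolV.comp (h := (ψ : Y → E')) (HolV.chart hy₀) (hf x)
  let A : X → (E →L[ℂ] E') := fun z => fderiv ℂ (A₁ ∘ φ.symm) (φ z)
  let P : X → (E →L[ℂ] ℂ) := fun z => fderiv ℂ (ζ ∘ φ.symm) (φ z)
  have hA : HolV E A x := by
    refine HolV.comp_contDiff (G := fderiv ℂ (A₁ ∘ φ.symm)) ?_ (HolV.chart hx₀)
    exact (hA₁.rep hx₀).fderiv_right (by simp)
  have hP : HolV E P x := by
    refine HolV.comp_contDiff (G := fderiv ℂ (ζ ∘ φ.symm)) ?_ (HolV.chart hx₀)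
    exact (hζ.rep hx₀).fderiv_right (by simp)
  have hM := holV_JP e₀ hA hP
  have hJ : HolV E (fun z => JP e₀ (A z) (P z)) x :=
    HolV.comp_contDiff contDiff_det.contDiffAt hM
  have hterm := fun k => term_hol hWh hWp hf e₀ (hloc a).1 (hloc a).2.1 ha hζ hζπ hinj
    hp.1 hp.2.1 hp.2.2 he k
  choose hk hkh hke using hterm
  refine ⟨fun z => (∑ k, hk k z) * JP e₀ (A z) (P z) ^ 12,
    (HolV.sum fun k _ => hkh k).mul (hJ.pow 12), ?_⟩
  filter_upwards [hA₁.eventually, hζ.eventually, φ.open_source.mem_nhds hx₀,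
    (hfc x).eventually (ψ.open_source.mem_nhds hy₀), eventually_eventually_nhds.2 hζπ,
    (hfc x).eventually ((hloc a).1.mem_nhds ha), Filter.eventually_all.2 hke]
    with z h2 h3 h4 h5 h6 h7 h8' hez
  have h8 : (dV E' (ψ : Y → E') (f z)).comp (dM E E' f z) =
      (A z).comp (dV E (φ : X → E) z) := by
    have h9 := dV_comp (h := (ψ : Y → E')) (HolV.chart h5) (hf z)
    rw [← h9]
    exact dV_eq_chart h4 h2
  have h10 : (ContinuousLinearMap.id ℂ ℂ).comp (dif E ζ z) =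
      (P z).comp (dV E (φ : X → E) z) := by
    rw [ContinuousLinearMap.id_comp]
    exact dV_eq_chart h4 h3
  have h11 := JP_left e₀ (dM E E' f z) (dif E ζ z) (dV E' (ψ : Y → E') (f z))
    (ContinuousLinearMap.id ℂ ℂ)
  rw [h8, h10, JP_comp, det_id', mul_one] at h11
  have h12 : JP e₀ (A z) (P z) * jac E φ z =
      jac E' ψ (f z) * JP e₀ (dM E E' f z) (dif E ζ z) := h11
  have h13 : ∑ k, hk k z = (∑ k, W (τ a (f z)) (ζ z - p k (f z))) * e z ^ 12 := by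
    rw [Finset.sum_mul]
    exact Finset.sum_congr rfl fun k _ => (h8' k hez).symm
  rw [hΞ z a h7 ζ h3 h6 d p hp]
  show _ = (∑ k, hk k z) * JP e₀ (A z) (P z) ^ 12 * jac E φ z ^ 12
  rw [h13]
  calc jac E' ψ (f z) ^ 12 * ((∑ k, W (τ a (f z)) (ζ z - p k (f z))) *
        JP e₀ (dM E E' f z) (dif E ζ z) ^ 12) * e z ^ 12
      = (∑ k, W (τ a (f z)) (ζ z - p k (f z))) * e z ^ 12 *
        (jac E' ψ (f z) * JP e₀ (dM E E' f z) (dif E ζ z)) ^ 12 := by ring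
    _ = (∑ k, W (τ a (f z)) (ζ z - p k (f z))) * e z ^ 12 * JP e₀ (A z) (P z) ^ 12 *
        jac E φ z ^ 12 := by rw [← h12]; ring

end Xi

end Vale.Agent.P281.ELL
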