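import Vale.Agent.P281.ELL.W
import Vale.Agent.P281.ELL.Xi
import Vale.Agent.P281.ELL.NonConst

/-!
# P281: the relative form with poles along a multisection, for the lattice function `W`
-/

open scoped Manifold ContDiff Topology
open Set Filter Metric

namespace Vale.Agent.P281.ELL

open Vale.Agent.P281 Vale.Agent.P281.MF Vale.Agent.P281.ISO

set_option linter.unusedSectionVars false

universe u

section

variable {E E' : Type} [NormedAddCommGroup E] [NormedSpace ℂ E] [FiniteDimensional ℂ E]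
  [NormedAddCommGroup E'] [NormedSpace ℂ E'] [FiniteDimensional ℂ E']
variable {X Y : Type u} [TopologicalSpace X] [ChartedSpace E X] [IsManifold 𝓘(ℂ, E) ω X]
  [TopologicalSpace Y] [ChartedSpace E' Y] [IsManifold 𝓘(ℂ, E') ω Y]

theorem exists_xi {f : X → Y} (hf : ∀ x, HolM E E' f x) {S : Set Y} {ι : Type u}
    {U : ι → Set Y} {τ : ι → Y → ℂ} {π : ι → Y → ℂ → X}
    (h : J.IsEllipticFamily E E' f S U τ π)
    (e₀ : E ≃L[ℂ] (E' × ℂ)) {Dv : Set X} (hD : J.IsMultisection E' f U π Dv) :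
    ∃ Ξ : X → ℂ, (∀ a x, f x ∈ U a → ∀ ζ : X → ℂ, HolV E ζ x →
        (∀ᶠ z in 𝓝 x, π a (f z) (ζ z) = z) → ∀ (d : ℕ) (p : Fin d → Y → ℂ),
        ((∀ k, ∀ y ∈ U a, J.HolAt E' (p k) y) ∧
          (∀ x, f x ∈ U a → (x ∈ Dv ↔ ∃ k, π a (f x) (p k (f x)) = x)) ∧
          ∀ y ∈ U a, ∀ k k', π a y (p k y) = π a y (p k' y) → k = k') →
        Ξ x = (∑ k, W (τ a (f x)) (ζ x - p k (f x))) *
          JP e₀ (dM E E' f x) (dif E ζ x) ^ 12) ∧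
      (∀ (x₀ x : X) (y₀ : Y), f x ∉ S → x ∈ (chartAt E x₀).source →
        f x ∈ (chartAt E' y₀).source → ∀ e : X → ℂ, IsLocalEq E Dv e x →
        ∃ H : X → ℂ, HolV E H x ∧
        ∀ᶠ z in 𝓝 x, e z ≠ 0 → jac E' (chartAt E' y₀) (f z) ^ 12 * Ξ z * e z ^ 12 =
          H z * jac E (chartAt E x₀) z ^ 12) :=
  exists_xi_of (fun _ _ m n => W_add m n) (fun _ _ _ ht ht' hw _ => W_lattice ht ht' hw)
    (fun _ _ ht hw => W_hol ht hw) (fun _ _ ht _ _ hw => W_pole ht hw) hf h e₀ hD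

theorem xi_nonconst {f : X → Y} (hf : ∀ x, HolM E E' f x) {S : Set Y} {ι : Type u}
    {U : ι → Set Y} {τ : ι → Y → ℂ} {π : ι → Y → ℂ → X}
    (h : J.IsEllipticFamily E E' f S U τ π)
    (e₀ : E ≃L[ℂ] (E' × ℂ)) {Dv : Set X} (hD : J.IsMultisection E' f U π Dv) {Θ Ξ : X → ℂ}
    (hΘ : ∀ a x, f x ∈ U a → ∀ ζ : X → ℂ, HolV E ζ x → (∀ᶠ z in 𝓝 x, π a (f z) (ζ z) = z) →
      Θ x = D (τ a (f x)) * JP e₀ (dM E E' f x) (dif E ζ x) ^ 12)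
    (hΘ0 : ∀ x, f x ∉ S → Θ x ≠ 0)
    (hΞ : ∀ a x, f x ∈ U a → ∀ ζ : X → ℂ, HolV E ζ x →
        (∀ᶠ z in 𝓝 x, π a (f z) (ζ z) = z) → ∀ (d : ℕ) (p : Fin d → Y → ℂ),
        ((∀ k, ∀ y ∈ U a, J.HolAt E' (p k) y) ∧
          (∀ x, f x ∈ U a → (x ∈ Dv ↔ ∃ k, π a (f x) (p k (f x)) = x)) ∧
          ∀ y ∈ U a, ∀ k k', π a y (p k y) = π a y (p k' y) → k = k') →
        Ξ x = (∑ k, W (τ a (f x)) (ζ x - p k (f x))) *
          JP e₀ (dM E E' f x) (dif E ζ x) ^ 12)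
    {x₀ : X} (hx₀ : x₀ ∈ Dv) (hS : f x₀ ∉ S) :
    ∃ x, f x = f x₀ ∧ x ∉ Dv ∧ HolV E (fun z => Ξ z / Θ z) x ∧
      ∃ ξ, dM E E' f x ξ = 0 ∧ dif E (fun z => Ξ z / Θ z) x ξ ≠ 0 :=
  xi_nonconst_of (fun _ _ ht hw => W_hol ht hw) (fun _ _ ht _ _ hw => W_pole ht hw) hf h e₀ hD hΘ
    hΘ0 (fun a x ha ζ h1 h2 d p c1 c2 c3 => hΞ a x ha ζ h1 h2 d p ⟨c1, c2, c3⟩) hx₀ hS

end

end Vale.Agent.P281.ELL
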