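import Vale.Agent.P281.ELL.Main
import Vale.Agent.P281.ELL.CoreGP
import Vale.Agent.P281.ELL.XiW
import Vale.Agent.P281.ELL.NonConst
import Vale.Agent.P281.ELL.SliceW
import Vale.Agent.P281.ELL.DefsF

open scoped Manifold ContDiff Topology
open Set Filter Metric Asymptotics

namespace Vale.Agent.P281.ELL

open Vale.Agent.P281 Vale.Agent.P281.MF Vale.Agent.P281.ISO

set_option linter.unusedSectionVars false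

universe u

section Fib

variable {E E' : Type} [NormedAddCommGroup E] [NormedSpace ℂ E] [FiniteDimensional ℂ E]
  [NormedAddCommGroup E'] [NormedSpace ℂ E'] [FiniteDimensional ℂ E']
variable {X Y : Type u} [TopologicalSpace X] [ChartedSpace E X] [IsManifold 𝓘(ℂ, E) ω X]
  [TopologicalSpace Y] [ChartedSpace E' Y] [IsManifold 𝓘(ℂ, E') ω Y]
variable {f : X → Y} {S : Set Y} {ι : Type u} {U : ι → Set Y} {τ : ι → Y → ℂ}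
  {π : ι → Y → ℂ → X}

/-- comparison of the fibre coordinate with a slice. -/
theorem slice_JP (h : J.IsEllipticFamily E E' f S U τ π) (e₀ : E ≃L[ℂ] (E' × ℂ))
    (hf : ∀ x, HolM E E' f x) {r : ℝ} (hr : 0 < r) {v₀ : ℂ} {Q : ℂ → X}
    (hQ : ∀ v ∈ ball v₀ r, ContMDiffAt 𝓘(ℂ, ℂ) 𝓘(ℂ, E) ω Q v)
    (hfQ : ∀ v ∈ ball v₀ r, f (Q v) = f (Q v₀)) {a : ι} (ha : f (Q v₀) ∈ U a)
    {P : E →L[ℂ] ℂ}
    (hP : P.comp (mfderiv 𝓘(ℂ, ℂ) 𝓘(ℂ, E) Q v₀ : ℂ →L[ℂ] E) = ContinuousLinearMap.id ℂ ℂ) :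
    ∃ (H : ℂ → ℂ) (ζ : X → ℂ), DifferentiableOn ℂ H (ball v₀ r) ∧
      (∀ v ∈ ball v₀ r, π a (f (Q v₀)) (H v) = Q v) ∧ HolV E ζ (Q v₀) ∧
      (∀ᶠ z in 𝓝 (Q v₀), π a (f z) (ζ z) = z) ∧
      JP e₀ (dM E E' f (Q v₀)) (dif E ζ (Q v₀)) =
        deriv H v₀ * JP e₀ (dM E E' f (Q v₀)) P := by
  have hv₀ : v₀ ∈ ball v₀ r := mem_ball_self hr
  obtain ⟨H, hH, hHQ, hHd⟩ := slice_lift h ha hr hQ hfQ
  obtain ⟨ζ, hζ, hζπ, hζi⟩ := (h.2.1 a).2.2 (Q v₀) ha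
  refine ⟨H, ζ, hH, hHQ, hζ, hζπ, ?_⟩
  set c : ℂ := deriv H v₀ with hc
  set t : ℂ →L[ℂ] E := (mfderiv 𝓘(ℂ, ℂ) 𝓘(ℂ, E) Q v₀ : ℂ →L[ℂ] E) with ht
  have hPt : ∀ v, P (t v) = v := fun v => by
    exact congrArg (fun L : ℂ →L[ℂ] ℂ => L v) hP
  have hct : c = dif E ζ (Q v₀) (t 1) := hHd v₀ hv₀ ζ hζ hζπ
  have hAt : ∀ v, dM E E' f (Q v₀) (t v) = 0 := by
    intro v
    have h2 : mfderiv 𝓘(ℂ, ℂ) 𝓘(ℂ, E') (f ∘ Q) v₀ =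
        (mfderiv 𝓘(ℂ, E) 𝓘(ℂ, E') f (Q v₀)).comp (mfderiv 𝓘(ℂ, ℂ) 𝓘(ℂ, E) Q v₀) :=
      mfderiv_comp v₀ ((hf (Q v₀)).mdifferentiableAt (by simp))
        ((hQ v₀ hv₀).mdifferentiableAt (by simp))
    have h3 : (f ∘ Q) =ᶠ[𝓝 v₀] fun _ => f (Q v₀) := by
      filter_upwards [isOpen_ball.mem_nhds hv₀] with v hv using hfQ v hv
    have h4 : mfderiv 𝓘(ℂ, ℂ) 𝓘(ℂ, E') (f ∘ Q) v₀ = 0 := by
      rw [h3.mfderiv_eq]; exact mfderiv_const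
    have h5 := congrArg (fun L => L v) (h2.symm.trans h4)
    exact h5
  have hζt : ∀ v, dif E ζ (Q v₀) (t v) = c * v := by
    intro v
    have h3 : t v = v • t 1 := by rw [← map_smul]; simp
    rw [h3, map_smul, ← hct, smul_eq_mul, mul_comm]
  have hc0 : c ≠ 0 := by
    intro h0
    have h3 : t 1 = 0 := hζi (t 1) (hAt 1) ((hζt 1).trans (by rw [h0, zero_mul]))
    have h4 := hPt 1
    rw [h3, map_zero] at h4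
    exact zero_ne_one h4
  have h2 : JP e₀ (dM E E' f (Q v₀)) (c⁻¹ • dif E ζ (Q v₀)) =
      JP e₀ (dM E E' f (Q v₀)) P := by
    refine JP_indep e₀ hAt hPt fun v => ?_
    show c⁻¹ • dif E ζ (Q v₀) (t v) = v
    rw [hζt, smul_eq_mul, inv_mul_cancel_left₀ hc0]
  rw [← h2]
  have h3 := JP_left e₀ (dM E E' f (Q v₀)) (c⁻¹ • dif E ζ (Q v₀))
    (ContinuousLinearMap.id ℂ E') (c • ContinuousLinearMap.id ℂ ℂ)
  have h4 : (c • ContinuousLinearMap.id ℂ ℂ).det = c := by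
    have : (c • ContinuousLinearMap.id ℂ ℂ).det = LinearMap.det (c • (LinearMap.id : ℂ →ₗ[ℂ] ℂ)) :=
      rfl
    rw [this, LinearMap.det_smul, LinearMap.det_id]
    simp
  rw [det_id', one_mul, h4] at h3
  rw [← h3]
  congr 1
  ext v
  show dif E ζ (Q v₀) v = c • (c⁻¹ • dif E ζ (Q v₀) v)
  rw [smul_smul, mul_inv_cancel₀ hc0, one_smul]

theorem hfibX_of (h : J.IsEllipticFamily E E' f S U τ π) (e₀ : E ≃L[ℂ] (E' × ℂ)) {Θ Ξ : X → ℂ}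
    (hf : ∀ x, HolM E E' f x) {Dv : Set X} (hD : J.IsMultisection E' f U π Dv)
    (hΘ : ∀ a x, f x ∈ U a → ∀ ζ : X → ℂ, HolV E ζ x → (∀ᶠ z in 𝓝 x, π a (f z) (ζ z) = z) →
      Θ x = D (τ a (f x)) * JP e₀ (dM E E' f x) (dif E ζ x) ^ 12)
    (hΞ : ∀ a x, f x ∈ U a → ∀ ζ : X → ℂ, HolV E ζ x → (∀ᶠ z in 𝓝 x, π a (f z) (ζ z) = z) →
      ∀ (d : ℕ) (p : Fin d → Y → ℂ), ((∀ k, ∀ y ∈ U a, J.HolAt E' (p k) y) ∧
      (∀ x, f x ∈ U a → (x ∈ Dv ↔ ∃ k, π a (f x) (p k (f x)) = x)) ∧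
      (∀ y ∈ U a, ∀ k k', π a y (p k y) = π a y (p k' y) → k = k')) →
      Ξ x = (∑ k, W (τ a (f x)) (ζ x - p k (f x))) * JP e₀ (dM E E' f x) (dif E ζ x) ^ 12)
    {M : ℕ} (hM : 0 < M) (r : ℝ) (hr : 0 < r) :
    ∃ C : ℝ, ∀ (v₀ : ℂ) (Q : ℂ → X),
      (∀ v ∈ ball v₀ r, ContMDiffAt 𝓘(ℂ, ℂ) 𝓘(ℂ, E) ω Q v) → InjOn Q (ball v₀ r) →
      (∀ v ∈ ball v₀ r, f (Q v) = f (Q v₀)) → f (Q v₀) ∉ S → (∀ v ∈ ball v₀ r, Q v ∉ Dv) →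
      ∀ P : E →L[ℂ] ℂ,
      P.comp (mfderiv 𝓘(ℂ, ℂ) 𝓘(ℂ, E) Q v₀ : ℂ →L[ℂ] E) = ContinuousLinearMap.id ℂ ℂ →
      ‖Θ (Q v₀) ^ M * Ξ (Q v₀)‖ ≤ C * ‖JP e₀ (dM E E' f (Q v₀)) P ^ (12 * (M + 1))‖ := by
  obtain ⟨C, hC⟩ := W_slice hM hr
  obtain ⟨d, hd⟩ := hD
  refine ⟨d * C, fun v₀ Q hQ hinj hfQ hS hQD P hP => ?_⟩
  obtain ⟨a, ha⟩ := (h.1 _).1 hS
  have hv₀ : v₀ ∈ ball v₀ r := mem_ball_self hr
  obtain ⟨H, ζ, hH, hHQ, hζ, hζπ, hJP⟩ := slice_JP h e₀ hf hr hQ hfQ ha hP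
  obtain ⟨-, him, hlat⟩ := (h.2.1 a).2.1 (f (Q v₀)) ha
  obtain ⟨p, hp⟩ := hd a
  obtain ⟨m, n, hmn⟩ : ∃ m n : ℤ, ζ (Q v₀) = H v₀ + m + n * τ a (f (Q v₀)) := by
    refine (hlat (H v₀) (ζ (Q v₀))).2.1 ?_
    rw [hHQ v₀ hv₀]
    exact (hζπ.self_of_nhds).symm
  have hterm : ∀ k, ‖D (τ a (f (Q v₀)))‖ ^ M * ‖W (τ a (f (Q v₀))) (H v₀ - p k (f (Q v₀)))‖ *
      ‖deriv H v₀‖ ^ (12 * (M + 1)) ≤ C := by
    intro k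
    refine hC _ him v₀ H _ hH (fun w hw w' hw' hmn => hinj hw hw' ?_) (fun v hv m n hv' => ?_)
    · obtain ⟨m, n, hmn⟩ := hmn
      rw [← hHQ w hw, ← hHQ w' hw']
      exact ((hlat (H w) (H w')).2.2 ⟨m, n, hmn⟩)
    · apply hQD v hv
      have h1 : f (Q v) ∈ U a := by rw [hfQ v hv]; exact ha
      rw [hp.2.1 (Q v) h1]
      refine ⟨k, ?_⟩
      rw [hfQ v hv, ← hHQ v hv]
      exact (hlat (p k (f (Q v₀))) (H v)).2.2 ⟨m, n, hv'⟩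
  have hsum : ‖∑ k, W (τ a (f (Q v₀))) (ζ (Q v₀) - p k (f (Q v₀)))‖ ≤
      ∑ k, ‖W (τ a (f (Q v₀))) (H v₀ - p k (f (Q v₀)))‖ := by
    refine (norm_sum_le _ _).trans (le_of_eq ?_)
    refine Finset.sum_congr rfl fun k _ => ?_
    have h1 : ζ (Q v₀) - p k (f (Q v₀)) = H v₀ - p k (f (Q v₀)) + m + n * τ a (f (Q v₀)) := by
      rw [hmn]; ring
    rw [h1, W_add]
  rw [hΘ a (Q v₀) ha ζ hζ hζπ, hΞ a (Q v₀) ha ζ hζ hζπ d p hp, hJP]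
  set c : ℂ := deriv H v₀ with hc
  set j₀ : ℂ := JP e₀ (dM E E' f (Q v₀)) P with hj₀
  set t : ℂ := τ a (f (Q v₀)) with ht
  have h2 : (D t * (c * j₀) ^ 12) ^ M * ((∑ k, W t (ζ (Q v₀) - p k (f (Q v₀)))) * (c * j₀) ^ 12) =
      (D t ^ M * (∑ k, W t (ζ (Q v₀) - p k (f (Q v₀)))) * c ^ (12 * (M + 1))) *
        j₀ ^ (12 * (M + 1)) := by
    ring
  rw [h2, norm_mul]
  refine mul_le_mul_of_nonneg_right ?_ (norm_nonneg _)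
  rw [norm_mul, norm_mul, norm_pow, norm_pow]
  calc ‖D t‖ ^ M * ‖∑ k, W t (ζ (Q v₀) - p k (f (Q v₀)))‖ * ‖c‖ ^ (12 * (M + 1))
      ≤ ‖D t‖ ^ M * (∑ k, ‖W t (H v₀ - p k (f (Q v₀)))‖) * ‖c‖ ^ (12 * (M + 1)) := by
        gcongr
    _ = ∑ k, ‖D t‖ ^ M * ‖W t (H v₀ - p k (f (Q v₀)))‖ * ‖c‖ ^ (12 * (M + 1)) := by
        rw [Finset.mul_sum, Finset.sum_mul]
    _ ≤ ∑ _k : Fin d, C := Finset.sum_le_sum fun k _ => hterm k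
    _ = d * C := by simp

end Fib

section Main

variable {E E' E₀ : Type} [NormedAddCommGroup E] [NormedSpace ℂ E] [FiniteDimensional ℂ E]
  [NormedAddCommGroup E'] [NormedSpace ℂ E'] [FiniteDimensional ℂ E']
  [NormedAddCommGroup E₀] [NormedSpace ℂ E₀] [FiniteDimensional ℂ E₀]
variable {X Z Y F : Type u} [TopologicalSpace X] [ChartedSpace E X] [IsManifold 𝓘(ℂ, E) ω X]
  [TopologicalSpace Z] [ChartedSpace E Z] [IsManifold 𝓘(ℂ, E) ω Z]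
  [TopologicalSpace Y] [ChartedSpace E' Y] [IsManifold 𝓘(ℂ, E') ω Y]
  [TopologicalSpace F] [ChartedSpace E₀ F] [IsManifold 𝓘(ℂ, E₀) ω F]

/-- elliptic fibrations, with horizontal boundary. -/
theorem main_log [CompactSpace F] [ConnectedSpace F] [Nonempty X] [T2Space X] [T2Space Y]
    (hE : Module.finrank ℂ E = Module.finrank ℂ E' + 1) (hE₀ : Module.finrank ℂ E₀ = 1)
    (j : Z → X) (hj : J.IsBigOpen E j)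
    (f : Z → Y) (hf : ContMDiff 𝓘(ℂ, E) 𝓘(ℂ, E') ω f)
    (𝒢 : Set (Set Y)) (h𝒢 : J.IsDivisorial E E' f 𝒢) {ι : Type u} (U : ι → Set Y)
    (τ : ι → Y → ℂ) (π : ι → Y → ℂ → Z) (hB₀ : J.IsEllipticOver E E' f (⋃₀ 𝒢) U τ π)
    (Δ : Set X → ℝ) (hsnc : J.IsSNC E Δ)
    (Δ' : Set Z → ℝ) (hsnc' : J.IsSNC E Δ') (hΔ : J.IsRestriction j Δ Δ')
    (hBS : ∀ G, J.orbBase' E E' f Δ' G ≠ 0 → G ∈ 𝒢)
    {y : Y} (hy : y ∉ ⋃₀ 𝒢) (i : F → Z) (hi : ContMDiff 𝓘(ℂ, E₀) 𝓘(ℂ, E) ω i)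
    (hi₁ : Topology.IsEmbedding i) (hi₂ : Set.range i = f ⁻¹' {y})
    (hi₃ : ∀ p, Function.Injective (mfderiv 𝓘(ℂ, E₀) 𝓘(ℂ, E) i p))
    (ΔF : Set F → ℝ) (hF : J.IsSNC E₀ ΔF) (hΔF : J.IsCarriedBy E' f U π Δ' i ΔF) :
    J.kod E₀ (fun (C : Set F) p g => J.IsLocalEq E₀ C g p) ΔF +
      J.kod E' (fun (G : Set Y) z g => J.IsLocalEq E' G g z) (J.orbBase' E E' f Δ') ≤
      J.kod E (fun (D : Set X) z g => J.IsLocalEq E D g z) Δ := by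
  classical
  by_cases hF0 : ∀ C, ΔF C = 0
  · rw [show ΔF = 0 from funext hF0]
    exact main_elliptic hE hE₀ j hj f hf 𝒢 h𝒢 U τ π hB₀ Δ hsnc Δ' hsnc' hΔ hBS hy i hi hi₁ hi₂ hi₃
  rw [not_forall] at hF0
  obtain ⟨C₀, hC₀⟩ := hF0
  obtain ⟨Dv, hDv0, hDm, hCD⟩ := hΔF C₀ hC₀
  obtain ⟨p₀, hp₀⟩ : C₀.Nonempty := by
    obtain ⟨p, hp, -⟩ := (hF.2.1 C₀ hC₀).2.2.nonempty
    exact ⟨p, hp⟩
  have hiv : ∀ p, f (i p) = y := fun p => by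
    have : i p ∈ f ⁻¹' {y} := by rw [← hi₂]; exact ⟨p, rfl⟩
    exact this
  have hx₀D : i p₀ ∈ Dv := hCD ⟨p₀, hp₀, rfl⟩
  rw [JB.kod_eq, JB.kod_eq, JB.kod_eq]
  have hs := JB.snc hsnc
  have hs' := JB.snc hsnc'
  let e₀ : E ≃L[ℂ] (E' × ℂ) := ContinuousLinearEquiv.ofFinrankEq (by
    rw [hE, Module.finrank_prod, Module.finrank_self])
  have hT : T2Space Z := hj.2.1.isEmbedding.t2Space
  have hB : J.IsEllipticFamily E E' f (⋃₀ 𝒢) U τ π :=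
    ⟨hB₀.1, hB₀.2, affine_of (fun x => hf x) hB₀.2 hE⟩
  have hS := isClosed_of hB
  have hZ : Nonempty Z := ⟨i p₀⟩
  obtain ⟨h𝒢f, h𝒢p, 𝒟, h𝒟f, hpre, hdom⟩ := h𝒢
  have hSd : Dense (⋃₀ 𝒢)ᶜ := by
    have h1 := (dense_compl_finite h𝒢f (fun G hG => (h𝒢p G hG).1) (fun G hG => by
      rw [← interior_eq_empty_iff_dense_compl, eq_empty_iff_forall_notMem]
      intro y hy
      obtain ⟨g, hg⟩ := (show IsPrimeDivisor E' G from h𝒢p G hG).2.1 y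
      refine leq_not_zero hg ?_
      filter_upwards [hg.eventually, isOpen_interior.mem_nhds hy] with z hz hz'
      exact hz.mem_iff.1 (interior_subset hz'))).2
    refine h1.mono ?_
    intro y hy
    rw [mem_compl_iff, mem_sUnion]
    rintro ⟨G, hG, hyG⟩
    exact hy G hG hyG
  have hthin := thin_of_components (fun x => hf x) h𝒟f h𝒢p
    (fun D hD => by obtain ⟨G, -, h⟩ := hdom D hD; exact h.1) hpre
    (fun D hD => by obtain ⟨G, hG, h⟩ := hdom D hD; exact ⟨G, hG, h.2⟩)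
  obtain ⟨Θ, hΘ1, hΘ2, hΘ3⟩ := exists_theta (fun x => hf x) hB e₀
  obtain ⟨Ξ, hΞ1, hΞ2⟩ := exists_xi (fun x => hf x) hB e₀ hDm
  have hfibΘ := fun r (hr : (0 : ℝ) < r) => hfib_of hB e₀ (fun x => hf x) hΘ1 r hr
  -- the multisection meets all the fibres
  have hmeet : ∀ y', y' ∉ ⋃₀ 𝒢 → ∃ x, x ∈ Dv ∧ f x = y' := by
    intro y' hy'
    obtain ⟨d, hd⟩ := hDm
    obtain ⟨a, ha⟩ := (hB.1 _).1 hy
    obtain ⟨p, -, hp2, -⟩ := hd a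
    obtain ⟨k, -⟩ := (hp2 (i p₀) (by rw [hiv]; exact ha)).1 hx₀D
    obtain ⟨b, hb⟩ := (hB.1 _).1 hy'
    obtain ⟨p', -, hp2', -⟩ := hd b
    have h1 : f (π b y' (p' k y')) = y' := (((hB.2.1 b).2.1 y' hb).2.2 _ 0).1
    refine ⟨π b y' (p' k y'), (hp2' _ (by rw [h1]; exact hb)).2 ⟨k, ?_⟩, h1⟩
    rw [h1]
  refine kod_add_le fun j₁ j₂ h₁ h₂ => ?_
  have hj₁ : j₁ ≤ 1 := by
    have := kodGE_le h₁
    rwa [hE₀] at this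
  refine kodGE_emb (fun z => hj.1 z) hj.2.1 hj.2.2.1 hj.2.2.2 hs.finite hs.prime hΔ.1 hΔ.2 ?_
  have hBD : ∀ (D : Set Z) (G : Set Y) (κ : ℕ), IsPrimeDivisor E D → IsPrimeDivisor E' G →
      closure (f '' D) = G → 0 < κ → (∃ z ∈ D, ∃ e g w, IsLocalEq E D e z ∧
        IsLocalEq E' G g (f z) ∧ HolAt E w z ∧ w z ≠ 0 ∧ ∀ᶠ x in 𝓝 z, g (f x) = e x ^ κ * w x) →
      (κ : ℝ) * J.orbBase' E E' f Δ' G ≤ κ - 1 + Δ' D := by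
    intro D G κ hD hG hDG hκ hwit
    obtain ⟨h0, h1⟩ := snc01 hs' D
    exact orbBase'_mul_le hκ hG hD hDG hwit h0 h1
  rcases Nat.eq_zero_or_pos j₁ with h0 | h0
  · rw [h0, zero_add]
    exact coreG (fun x => hf x) hS hSd (fun y hy => surj_of hB hy)
      (fun x hx => subm_of hB hE hx) e₀ hthin (by norm_num : 0 < 12) hΘ3 hΘ2
      hfibΘ hs' (fun G hG => ⟨orbBase'_prime hG, subset_sUnion_of_mem (hBS G hG)⟩) hBD h₂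
  · have h1 : j₁ = 1 := by omega
    rw [h1, add_comm]
    refine coreGP (fun x => hf x) hS hSd (fun x hx => subm_of hB hE hx) e₀ hthin hΘ3 hΘ2
      hfibΘ (Dv := Dv) hΞ2
      (fun M hM r hr => hfibX_of hB e₀ (fun x => hf x) hDm hΘ1 hΞ1 hM r hr) ?_ hs' hDv0
      (fun G hG => ⟨orbBase'_prime hG, subset_sUnion_of_mem (hBS G hG)⟩) hBD h₂
    intro y' hy'
    obtain ⟨x₀, hx₀, hx₀y⟩ := hmeet y' hy'
    obtain ⟨x, hx, -, h3, h4⟩ := xi_nonconst (fun x => hf x) hB e₀ hDm hΘ1 hΘ2 hΞ1 hx₀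
      (by rw [hx₀y]; exact hy')
    exact ⟨x, hx.trans hx₀y, h3, h4⟩

end Main

end Vale.Agent.P281.ELL
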